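import Vale.Agent.P213.Free

/-! Attaching a copy of the sphere along an atom. -/

open CategoryTheory Finsupp

set_option backward.isDefEq.respectTransparency false

noncomputable section

namespace Vale.Agent.P213

namespace ADC

variable {K : ADC}

/-- The complex obtained from `K` by attaching a sphere whose source of dimension `dim c`
is the atom of `c`. -/
structure Att (S : St K) (c : K.B) where
  Q : ADC
  T : St Q
  i : K.Hom Q
  j : sph.Hom Q
  w : i.cell (S.atom c) = j.cell (sat (K.dim c) false)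
  old : ∀ b, ∃ b', Q.dim b' = K.dim b ∧ T.atom b' = i.cell (S.atom b)
  new : ∀ k a, K.dim c < k ∨ (k = K.dim c ∧ a = true) →
    ∃ b', Q.dim b' = k ∧ T.atom b' = j.cell (sat k a)
  all : ∀ b', (∃ b, Q.dim b' = K.dim b ∧ T.atom b' = i.cell (S.atom b)) ∨
    ∃ a, T.atom b' = j.cell (sat (Q.dim b') a)
  desc : ∀ {L : ADC} (F : K.Hom L) (G : sph.Hom L),
    F.cell (S.atom c) = G.cell (sat (K.dim c) false) → ∃ H : Q.Hom L, i.comp H = F ∧ j.comp H = G
  glue : ∀ {X : OmegaCat} (φ : K.cyl.nu ⟶ X) (ψ : sph.cyl.nu ⟶ X),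
    (ofCell (S.atom c)).cyl.nu ≫ φ = (trunc false (K.dim c)).cyl.nu ≫ ψ →
    ∃ χ : Q.cyl.nu ⟶ X, i.cyl.nu ≫ χ = φ ∧ j.cyl.nu ≫ χ = ψ

theorem am_supp {B B' : Type} (f : (B →₀ ℤ) →ₗ[ℤ] (B' →₀ ℤ)) {x : B →₀ ℤ} {c : B'}
    (h : f x c ≠ 0) : ∃ b, x b ≠ 0 ∧ f (single b 1) c ≠ 0 := by
  rw [← x.sum_single, Finsupp.sum, map_sum, finsetSum_apply] at h
  obtain ⟨b, hb, h⟩ := Finset.exists_ne_zero_of_sum_ne_zero h
  rw [show single b (x b) = x b • single b (1 : ℤ) by simp, map_smul] at h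
  exact ⟨b, mem_support_iff.1 hb, right_ne_zero_of_smul h⟩

theorem am_top {L : ADC} (S : St K) (F : K.Hom L) {b : K.B} {b' : L.B}
    (h : F.f (single b 1) = single b' 1) (a : Bool) {c : L.B} (hc : K.dim b ≤ L.dim c) :
    (F.cell (S.atom b)).x a c = (single b' 1 : L.B →₀ ℤ) c := by
  have e : ((S.atom b).x a).filter (fun c => K.dim b ≤ K.dim c) = single b 1 := by
    ext c
    rw [filter_apply]
    split_ifs with k
    exacts [S.top b a c k, (single_eq_of_ne fun e => k (by rw [e])).symm]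
  rw [← h, ← e, F.filter (K.dim b ≤ ·), filter_apply, if_pos hc]
  rfl

theorem am_congr {L M : ADC} {X : OmegaCat} {F : K.Hom L} {G : K.Hom M} {φ : L.nu ⟶ X}
    {ψ : M.nu ⟶ X} (h : F.nu ≫ φ = G.nu ≫ ψ) (u : Cell K) : φ.f (F.cell u) = ψ.f (G.cell u) :=
  congrFun (congrArg OmegaCat.Hom.f h) u

/-- The new cells of the sphere. -/
def amNew (n : ℕ) (p : ℕ × Bool) : Prop := n < p.1 ∨ (p.1 = n ∧ p.2 = true)

theorem am_trunc {n : ℕ} {p : ℕ × Bool} (h : ¬amNew n p) :
    (trunc false n).f (single p 1) = single p 1 ∧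
      (trunc false n).cell (sat p.1 p.2) = sat p.1 p.2 := by
  obtain ⟨k, a⟩ := p
  have h' : k < n ∨ (k = n ∧ a = false) := by
    cases a <;> simp only [amNew, not_or, not_lt, not_and] at h <;> simp at h ⊢ <;> omega
  constructor
  · ext ⟨i, e⟩
    have : (single (k, a) 1 : ℕ × Bool →₀ ℤ) (i, e) = if i = k ∧ e = a then 1 else 0 := by
      simp [single_apply, eq_comm]
    rw [trunc, ofCell_single, filter_apply, sat_apply]
    refine Eq.trans ?_ this.symm
    change (if i = k then _ else _) = _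
    cases a <;> cases e <;> simp at h' ⊢ <;> (try split_ifs) <;> omega
  · rw [trunc, ofCell_sat]
    rcases h' with h' | ⟨rfl, rfl⟩
    exacts [sat_d _ _ _ h', St.sph.d_atom (b := (k, false)) false le_rfl]

section

variable (S : St K) (c : K.B)

/-- The basis of the attached complex. -/
abbrev amB (c : K.B) : Type := K.B ⊕ {p : ℕ × Bool // amNew (K.dim c) p}

/-- The old chains. -/
def amIL (c : K.B) : (K.B →₀ ℤ) →ₗ[ℤ] (amB c →₀ ℤ) := lmapDomain ℤ ℤ Sum.inl

theorem amIL_single (b : K.B) : amIL c (single b 1) = single (.inl b) 1 := mapDomain_single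

theorem amIL_ne {x : K.B →₀ ℤ} {b' : amB c} (h : amIL c x b' ≠ 0) :
    ∃ b, x b ≠ 0 ∧ b' = .inl b := by
  obtain ⟨b, h1, h2⟩ := am_supp _ h
  exact ⟨b, h1, (single_apply_ne_zero.1 (amIL_single c b ▸ h2)).1⟩

open Classical in
/-- The chains of the sphere. -/
def amJL : (sph.B →₀ ℤ) →ₗ[ℤ] (amB c →₀ ℤ) :=
  linearCombination ℤ fun p => if h : amNew (K.dim c) p then single (.inr ⟨p, h⟩) 1
    else amIL c ((ofCell (S.atom c)).f (single p 1))

theorem amJL_new {p : sph.B} (h : amNew (K.dim c) p) :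
    amJL S c (single p 1) = single (.inr ⟨p, h⟩) 1 :=
  (linearCombination_single _ _ _).trans ((one_smul _ _).trans (dif_pos h))

theorem amJL_old {p : sph.B} (h : ¬amNew (K.dim c) p) :
    amJL S c (single p 1) = amIL c ((ofCell (S.atom c)).f (single p 1)) :=
  (linearCombination_single _ _ _).trans ((one_smul _ _).trans (dif_neg h))

theorem amJL_old' {x : sph.B →₀ ℤ} (h : ∀ p, x p ≠ 0 → ¬amNew (K.dim c) p) :
    amJL S c x = amIL c ((ofCell (S.atom c)).f x) := by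
  refine sub_eq_zero.1 (Finsupp.ext fun b => not_not.1 fun k => ?_)
  obtain ⟨p, h1, h2⟩ := am_supp (amJL S c - amIL c ∘ₗ (ofCell (S.atom c)).f) k
  exact h2 (by simp [amJL_old S c (h p h1)])

theorem amJL_dim {p : sph.B} {b' : amB c} (h : amJL S c (single p 1) b' ≠ 0) :
    Sum.elim K.dim (fun p => p.1.1) b' = p.1 := by
  by_cases k : amNew (K.dim c) p
  · rw [amJL_new S c k] at h
    rw [(single_apply_ne_zero.1 h).1]
    rfl
  · obtain ⟨b, h1, rfl⟩ := amIL_ne c (amJL_old S c k ▸ h)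
    exact (ofCell (S.atom c)).dim p b h1

/-- The attached complex. -/
@[implicit_reducible] def amQ : ADC where
  B := amB c
  dim := Sum.elim K.dim fun p => p.1.1
  bd := linearCombination ℤ (Sum.elim (fun b => amIL c (K.bd (single b 1)))
    fun p => amJL S c (sph.bd (single p.1 1)))
  bd_dim b b' h := by
    rw [linearCombination_single, one_smul] at h
    rcases b with b | p
    · obtain ⟨e, h1, rfl⟩ := amIL_ne c h
      exact K.bd_dim b e h1
    · obtain ⟨e, h1, h2⟩ := am_supp _ h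
      exact (congrArg (· + 1) (amJL_dim S c h2)).trans (sph.bd_dim p.1 e h1)

theorem amQ_bd (b : amB c) : (amQ S c).bd (single b 1) =
    Sum.elim (fun b => amIL c (K.bd (single b 1))) (fun p => amJL S c (sph.bd (single p.1 1))) b :=
  (linearCombination_single _ _ _).trans (one_smul _ _)

theorem am_aug (L : ADC) (b : L.B) : L.aug (single b 1) = if L.dim b = 0 then 1 else 0 :=
  (linearCombination_single _ _ _).trans (one_smul _ _)

theorem am_ext {B M : Type} [AddCommGroup M] {f g : (B →₀ ℤ) →ₗ[ℤ] M}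
    (h : ∀ b, f (single b 1) = g (single b 1)) (x : B →₀ ℤ) : f x = g x :=
  LinearMap.congr_fun (Finsupp.lhom_ext' fun b => LinearMap.ext_ring (h b)) x

/-- The inclusion of the old complex. -/
def amI : K.Hom (amQ S c) where
  f := amIL c
  pos b := (amIL_single c b).symm ▸ single_nonneg.2 zero_le_one
  dim b b' h := by
    obtain ⟨e, h1, rfl⟩ := amIL_ne c h
    rw [(single_apply_ne_zero.1 h1).1]
    rfl
  bd := am_ext (f := (amQ S c).bd ∘ₗ amIL c) (g := amIL c ∘ₗ K.bd) fun b =>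
    (congrArg (amQ S c).bd (amIL_single c b)).trans (amQ_bd S c _)
  aug := am_ext (f := (amQ S c).aug ∘ₗ amIL c) fun b =>
    (congrArg (amQ S c).aug (amIL_single c b)).trans ((am_aug _ _).trans (am_aug K b).symm)

/-- The map from the sphere. -/
def amJ : sph.Hom (amQ S c) where
  f := amJL S c
  pos p := by
    by_cases k : amNew (K.dim c) p
    · exact (amJL_new S c k).symm ▸ single_nonneg.2 zero_le_one
    · exact (amJL_old S c k).symm ▸ ((ofCell (S.atom c)).comp (amI S c)).pos p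
  dim _ _ h := amJL_dim S c h
  bd := am_ext (f := (amQ S c).bd ∘ₗ amJL S c) (g := amJL S c ∘ₗ sph.bd) fun p => by
    by_cases k : amNew (K.dim c) p
    · exact (congrArg (amQ S c).bd (amJL_new S c k)).trans (amQ_bd S c _)
    · refine (congrArg (amQ S c).bd (amJL_old S c k)).trans
        ((((ofCell (S.atom c)).comp (amI S c)).bd _).trans (amJL_old' S c fun q hq l => ?_).symm)
      have : q.1 + 1 = p.1 := sph.bd_dim p q hq
      exact k (Or.inl (by rcases l with l | l <;> omega))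
  aug := am_ext (f := (amQ S c).aug ∘ₗ amJL S c) fun p => by
    by_cases k : amNew (K.dim c) p
    · exact (congrArg (amQ S c).aug (amJL_new S c k)).trans
        ((am_aug _ _).trans (am_aug sph p).symm)
    · exact (congrArg (amQ S c).aug (amJL_old S c k)).trans
        (((ofCell (S.atom c)).comp (amI S c)).aug _)

theorem amJ_sat {p : ℕ × Bool} (h : ¬amNew (K.dim c) p) : (amJ S c).cell (sat p.1 p.2) =
    (amI S c).cell ((ofCell (S.atom c)).cell (sat p.1 p.2)) :=
  Cell.ext (funext fun a => amJL_old' S c fun ⟨i, e⟩ hq l => by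
    rw [sat_apply] at hq
    rcases (ite_ne_right_iff.1 hq).1 with ⟨rfl, rfl⟩ | k
    · exact h l
    · exact h (Or.inl (by rcases l with l | l <;> omega)))

theorem am_new_ne {p : {p : ℕ × Bool // amNew (K.dim c) p}} {a : Bool} {b' : amB c}
    (h : b' ≠ .inr p) (k : ((amJ S c).cell (sat p.1.1 p.1.2)).x a b' ≠ 0) :
    (∃ q, b' = .inr q ∧ q.1 ≠ p.1 ∧ (St.sph.atom p.1).x a q.1 ≠ 0) ∨
      ∃ b, b' = .inl b ∧ (S.atom c).x a b ≠ 0 ∧ (a = true → b ≠ c) := by
  obtain ⟨⟨i, e⟩, h1, h2⟩ := am_supp (amJL S c) k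
  by_cases l : amNew (K.dim c) (i, e)
  · obtain rfl := (single_apply_ne_zero.1 (amJL_new S c l ▸ h2)).1
    exact .inl ⟨_, rfl, fun e => h (congrArg Sum.inr (Subtype.ext e)), h1⟩
  · obtain ⟨b, h3, rfl⟩ := amIL_ne c (amJL_old S c l ▸ h2)
    rw [ofCell_single, filter_apply] at h3
    obtain ⟨h3, h4⟩ := ite_ne_right_iff.1 h3
    rw [sat_apply] at h1
    rcases (ite_ne_right_iff.1 h1).1 with ⟨rfl, rfl⟩ | ⟨-, rfl⟩
    · exact absurd p.2 l
    · exact .inr ⟨b, rfl, h4, fun ha hb => l (.inr ⟨by rw [← h3, hb], ha⟩)⟩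

/-- The ordered atoms of the attached complex. -/
def amT : St (amQ S c) where
  α := S.α ×ₗ WithBot ℚ
  rk := Sum.elim (fun b => toLex (S.rk b, ⊥))
    fun p => toLex (S.rk c, WithBot.some (show ℚ from St.sph.rk p.1))
  atom := Sum.elim (fun b => (amI S c).cell (S.atom b)) fun p => (amJ S c).cell (sat p.1.1 p.1.2)
  top b a b' h := by
    rcases b with b | p
    exacts [am_top S _ (amIL_single c b) a h, am_top St.sph _ (amJL_new S c p.2) a h]
  neg b b' h k := by
    rcases b with b | p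
    · obtain ⟨e, h1, rfl⟩ := amIL_ne c k
      exact Prod.Lex.toLex_lt_toLex.2 (.inl (S.neg b e (fun l => h (l ▸ rfl)) h1))
    · rcases am_new_ne S c h k with ⟨q, rfl, h1, h2⟩ | ⟨e, rfl, h1, -⟩
      · exact Prod.Lex.toLex_lt_toLex.2 (.inr ⟨rfl, WithBot.coe_lt_coe.2 (St.sph.neg _ _ h1 h2)⟩)
      · rcases eq_or_ne e c with rfl | l
        exacts [Prod.Lex.toLex_lt_toLex.2 (.inr ⟨rfl, WithBot.bot_lt_coe _⟩),
          Prod.Lex.toLex_lt_toLex.2 (.inl (S.neg c e l h1))]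
  pos b b' h k := by
    rcases b with b | p
    · obtain ⟨e, h1, rfl⟩ := amIL_ne c k
      exact Prod.Lex.toLex_lt_toLex.2 (.inl (S.pos b e (fun l => h (l ▸ rfl)) h1))
    · rcases am_new_ne S c h k with ⟨q, rfl, h1, h2⟩ | ⟨e, rfl, h1, l⟩
      · exact Prod.Lex.toLex_lt_toLex.2 (.inr ⟨rfl, WithBot.coe_lt_coe.2 (St.sph.pos _ _ h1 h2)⟩)
      · exact Prod.Lex.toLex_lt_toLex.2 (.inl (S.pos c e (l rfl) h1))

theorem am_desc {L : ADC} (F : K.Hom L) (G : sph.Hom L)
    (h : F.cell (S.atom c) = G.cell (sat (K.dim c) false)) :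
    ∃ H : (amQ S c).Hom L, (amI S c).comp H = F ∧ (amJ S c).comp H = G := by
  let g : amB c → L.B →₀ ℤ := Sum.elim (fun b => F.f (single b 1)) fun p => G.f (single p.1 1)
  have e : ∀ b, linearCombination ℤ g (single b 1) = g b := fun b =>
    (linearCombination_single _ _ _).trans (one_smul _ _)
  have h1 : ∀ x, linearCombination ℤ g (amIL c x) = F.f x :=
    am_ext (f := linearCombination ℤ g ∘ₗ amIL c) fun b =>
      (congrArg (linearCombination ℤ g) (amIL_single c b)).trans (e _)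
  have h2 : ∀ x, linearCombination ℤ g (amJL S c x) = G.f x :=
    am_ext (f := linearCombination ℤ g ∘ₗ amJL S c) fun p => by
      by_cases k : amNew (K.dim c) p
      · exact (congrArg (linearCombination ℤ g) (amJL_new S c k)).trans (e _)
      · refine ((congrArg (linearCombination ℤ g) (amJL_old S c k)).trans (h1 _)).trans ?_
        have := congrArg (fun H : sph.Hom L => H.f (single p 1))
          ((ofCell_map F _).symm.trans ((congrArg ofCell h).trans (ofCell_map G _)))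
        exact this.trans (congrArg G.f (am_trunc k).1)
  refine ⟨⟨linearCombination ℤ g, fun b => ?_, fun b b' k => ?_,
    am_ext (f := L.bd ∘ₗ linearCombination ℤ g) (g := linearCombination ℤ g ∘ₗ (amQ S c).bd)
      fun b => ((congrArg L.bd (e b)).trans ?_).trans 
        (congrArg (linearCombination ℤ g) (amQ_bd S c b).symm),
    am_ext (f := L.aug ∘ₗ linearCombination ℤ g) fun b => (congrArg L.aug (e b)).trans ?_⟩,
    Hom.ext (LinearMap.ext h1), Hom.ext (LinearMap.ext h2)⟩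
  · refine le_of_le_of_eq ?_ (e b).symm
    rcases b with b | p
    exacts [F.pos b, G.pos _]
  · replace k : g b b' ≠ 0 := e b ▸ k
    rcases b with b | p
    exacts [F.dim b _ k, G.dim _ _ k]
  · rcases b with b | p
    exacts [(F.bd _).trans (h1 _).symm, (G.bd _).trans (h2 _).symm]
  · rcases b with b | p
    exacts [(F.aug _).trans ((am_aug _ _).trans (am_aug (amQ S c) (.inl b)).symm),
      (G.aug _).trans ((am_aug _ _).trans (am_aug (amQ S c) (.inr p)).symm)]

theorem am_glue {X : OmegaCat} (φ : K.cyl.nu ⟶ X) (ψ : sph.cyl.nu ⟶ X)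
    (h : (ofCell (S.atom c)).cyl.nu ≫ φ = (trunc false (K.dim c)).cyl.nu ≫ ψ) :
    ∃ χ : (amQ S c).cyl.nu ⟶ X, (amI S c).cyl.nu ≫ χ = φ ∧ (amJ S c).cyl.nu ≫ χ = ψ := by
  let ξ : (amQ S c).cyl.B → X.C := fun b => Sum.elim (fun e => φ.f (S.cyl.atom (e, b.2)))
    (fun p => ψ.f (St.sph.cyl.atom (p.1, b.2))) b.1
  have a1 : ∀ b o, (amI S c).cyl.cell (S.cyl.atom (b, o)) = (amT S c).cyl.atom (.inl b, o) :=
    fun b o => Hom.cyl_cylO _ _ _
  have a2 : ∀ (p : {p // amNew (K.dim c) p}) o, (amJ S c).cyl.cell (St.sph.cyl.atom (p.1, o)) =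
      (amT S c).cyl.atom (.inr p, o) := fun p o => Hom.cyl_cylO _ _ _
  have key : ∀ (n : ℕ) (F : (amQ S c).cyl.nu.C → X.C), OmegaCat.PFun n F →
      (∀ b, (amQ S c).cyl.dim b < n → F ((amT S c).cyl.atom b) = ξ b) →
      (∀ u, K.cyl.nu.DimLT n u → F ((amI S c).cyl.cell u) = φ.f u) ∧
        ∀ u, sph.cyl.nu.DimLT n u → F ((amJ S c).cyl.cell u) = ψ.f u := fun n F hF hξ => by
    have k1 := S.cyl.pfun_ext (hF.precomp (amI S c).cyl.nu) (φ.pFun n) fun b hb =>
      (congrArg F (a1 b.1 b.2)).trans (hξ (.inl b.1, b.2) hb)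
    refine ⟨k1, St.sph.cyl.pfun_ext (hF.precomp (amJ S c).cyl.nu) (ψ.pFun n) fun ⟨p, o⟩ hp => ?_⟩
    by_cases k : amNew (K.dim c) p
    · exact (congrArg F (a2 ⟨p, k⟩ o)).trans (hξ (.inr ⟨p, k⟩, o) hp)
    · have e1 : (amJ S c).cyl.cell (cylO o (sat p.1 p.2)) =
          (amI S c).cyl.cell ((ofCell (S.atom c)).cyl.cell (cylO o (sat p.1 p.2))) := by
        rw [Hom.cyl_cylO, Hom.cyl_cylO, Hom.cyl_cylO, amJ_sat S c k]
      have e2 : (trunc false (K.dim c)).cyl.cell (cylO o (sat p.1 p.2)) = cylO o (sat p.1 p.2) := by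
        rw [Hom.cyl_cylO, (am_trunc k).2]
      have e4 : sph.cyl.nu.DimLT n (cylO o (sat p.1 p.2)) :=
        (St.sph.cyl.dimLT_atom (b := (p, o))).2 hp
      change F ((amJ S c).cyl.cell (cylO o (sat p.1 p.2))) = ψ.f (cylO o (sat p.1 p.2))
      rw [e1, ← congrArg ψ.f e2, ← am_congr h]
      exact k1 _ (e4.map (ofCell (S.atom c)).cyl.nu)
  obtain ⟨χ, hχ⟩ := (amT S c).cyl.exists_hom ξ (fun ⟨b, o⟩ => by
      rcases b with b | p
      exacts [(φ.map_d _ _ _).symm.trans (congrArg φ.f (S.cyl.d_atom (b := (b, o)) _ le_rfl)),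
        (ψ.map_d _ _ _).symm.trans (congrArg ψ.f (St.sph.cyl.d_atom (b := (p.1, o)) _ le_rfl))])
    fun n F hF hξ ⟨b, o⟩ _ a k hk => by
      obtain ⟨k1, k2⟩ := key n F hF hξ
      rcases b with b | p
      · rw [← a1, ← Hom.cell_d, k1 _ ⟨k, hk, Cell.d_ge _ le_rfl⟩]
        exact (φ.map_d _ _ _).symm
      · rw [← a2, ← Hom.cell_d, k2 _ ⟨k, hk, Cell.d_ge _ le_rfl⟩]
        exact (ψ.map_d _ _ _).symm
  exact ⟨χ, OmegaCat.hom_ext fun u => let ⟨n, hu⟩ := OmegaCat.exists_dimLT u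
      (key n χ.f (χ.pFun n) fun b _ => hχ b).1 u hu,
    OmegaCat.hom_ext fun u => let ⟨n, hu⟩ := OmegaCat.exists_dimLT u
      (key n χ.f (χ.pFun n) fun b _ => hχ b).2 u hu⟩

end

theorem nonempty_att (S : St K) (c : K.B) : Nonempty (Att S c) := by
  refine ⟨⟨amQ S c, amT S c, amI S c, amJ S c, ?_, fun b => ⟨.inl b, rfl, rfl⟩,
    fun k a h => ⟨.inr ⟨(k, a), h⟩, rfl, rfl⟩, fun b' => ?_, am_desc S c, am_glue S c⟩⟩
  · rw [amJ_sat S c (p := (K.dim c, false)) (by simp [amNew]), ofCell_sat, S.d_atom _ le_rfl]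
  · rcases b' with b | p
    exacts [.inl ⟨b, rfl, rfl⟩, .inr ⟨p.1.2, rfl⟩]

theorem Att.pext {S : St K} {c : K.B} (A : Att S c) {X : OmegaCat} {n : ℕ}
    {F G : A.Q.cyl.nu.C → X.C} (hF : OmegaCat.PFun n F) (hG : OmegaCat.PFun n G)
    (h1 : ∀ u, K.cyl.nu.DimLT n u → F (A.i.cyl.cell u) = G (A.i.cyl.cell u))
    (h2 : ∀ u, sph.cyl.nu.DimLT n u → F (A.j.cyl.cell u) = G (A.j.cyl.cell u))
    (u : Cell A.Q.cyl) (hu : A.Q.cyl.nu.DimLT n u) : F u = G u := by
  refine A.T.cyl.pfun_ext hF hG (fun ⟨b', o⟩ hb => ?_) u hu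
  change F (cylO o (A.T.atom b')) = G (cylO o (A.T.atom b'))
  rcases A.all b' with ⟨b, e, e'⟩ | ⟨a, e'⟩
  · rw [e', ← Hom.cyl_cylO]
    exact h1 _ ((S.cyl.dimLT_atom (b := (b, o))).2
      ((congrArg (· + if o = none then 1 else 0) e).symm.trans_lt hb))
  · rw [e', ← Hom.cyl_cylO]
    exact h2 _ ((St.sph.cyl.dimLT_atom (b := ((A.Q.dim b', a), o))).2 hb)

theorem Att.ext {S : St K} {c : K.B} (A : Att S c) {X : OmegaCat} {F G : A.Q.cyl.nu ⟶ X}
    (h1 : A.i.cyl.nu ≫ F = A.i.cyl.nu ≫ G) (h2 : A.j.cyl.nu ≫ F = A.j.cyl.nu ≫ G) : F = G :=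
  OmegaCat.hom_ext fun u => let ⟨n, hu⟩ := OmegaCat.exists_dimLT u
    A.pext (F.pFun n) (G.pFun n) (fun v _ => congrArg (fun H => OmegaCat.Hom.f H v) h1)
      (fun v _ => congrArg (fun H => OmegaCat.Hom.f H v) h2) u hu

end ADC

end Vale.Agent.P213
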