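import Vale.Agent.P213.Cyl

/-! The interface of the object of oplax paths. -/

open CategoryTheory

noncomputable section

namespace Vale.Agent.P213

/-- An object `G` of oplax paths in `X`: maps `ν K ⟶ G` are maps `ν (K ⊗ I) ⟶ X`. -/
structure PathData (X : OmegaCat) where
  G : OmegaCat
  ncat : ∀ n : ℕ∞, IsNCat n X → IsNCat n G
  pi : Bool → (G ⟶ X)
  tau : X ⟶ G
  hat : ∀ {K : ADC}, (K.cyl.nu ⟶ X) → (K.nu ⟶ G)
  hat_nat : ∀ {K L : ADC} (F : K.Hom L) (φ : L.cyl.nu ⟶ X), F.nu ≫ hat φ = hat (F.cyl.nu ≫ φ)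
  hat_pi : ∀ {K : ADC} (φ : K.cyl.nu ⟶ X) (e : Bool), hat φ ≫ pi e = (K.inc e).nu ≫ φ
  hat_tau : ∀ {K : ADC} (F : K.nu ⟶ X), F ≫ tau = hat (K.proj.nu ≫ F)
  tau_pi : ∀ e, tau ≫ pi e = 𝟙 X
  bij : ∀ {K : ADC}, K.St → Function.Bijective (hat (K := K))

end Vale.Agent.P213
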