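import Vale.Agent.P213.Fam
import Vale.Agent.P213.Path

/-! Oplax transformations give simplicial homotopies. -/

open CategoryTheory Limits Opposite Simplicial MonoidalCategory SSet

set_option backward.isDefEq.respectTransparency false

noncomputable section

namespace Vale.Agent.P213

open ADC

theorem prism_bij {X : OmegaCat} (D : PathData X) (m : ℕ) :
    Function.Bijective (D.hat (K := simplexADC (Fin (m + 1)))) :=
  D.bij (exists_st (V := Fin (m + 1))).choose

/-- The inverse of `hat` on orientals. -/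
def prismInv {X : OmegaCat} (D : PathData X) {m : ℕ} (F : Ori m ⟶ D.G) :
    (simplexADC (Fin (m + 1))).cyl.nu ⟶ X :=
  ((prism_bij D m).2 F).choose

theorem prism_hat {X : OmegaCat} (D : PathData X) {m : ℕ} (F : Ori m ⟶ D.G) :
    D.hat (prismInv D F) = F :=
  ((prism_bij D m).2 F).choose_spec

theorem prism_nat {X : OmegaCat} (D : PathData X) {k m : ℕ} (θ : Fin (k + 1) →o Fin (m + 1))
    (F : Ori m ⟶ D.G) :
    prismInv D ((simplexMap θ).nu ≫ F) = (simplexMap θ).cyl.nu ≫ prismInv D F :=
  (prism_bij D k).1 (by rw [prism_hat, ← D.hat_nat, prism_hat])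

theorem prism_end {X : OmegaCat} (D : PathData X) {m : ℕ} (F : Ori m ⟶ D.G) (e : Bool) :
    ((simplexADC (Fin (m + 1))).inc e).nu ≫ prismInv D F = F ≫ D.pi e := by
  rw [← D.hat_pi, prism_hat]

/-- A simplex of the interval as a monotone map to `Bool`. -/
def prismT {V : Type} [Preorder V] (t : V →o Fin 2) : V →o Bool where
  toFun i := decide (t i = 1)
  monotone' i j h := by
    have := t.monotone h
    by_cases k : t i = 1
    · rw [k] at this
      have k' : t j = 1 := le_antisymm (Fin.le_last _) this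
      simp [k, k']
    · simp [k]

/-- The simplices of the homotopy. -/
def prismApp {X Y : OmegaCat} (D : PathData Y) (H : X ⟶ D.G) {m : ℕ} (σ : Ori m ⟶ X)
    (t : Fin (m + 1) →o Fin 2) : Ori m ⟶ Y :=
  (aw (prismT t)).nu ≫ prismInv D (σ ≫ H)

theorem prismApp_nat {X Y : OmegaCat} (D : PathData Y) (H : X ⟶ D.G) {k m : ℕ}
    (θ : Fin (k + 1) →o Fin (m + 1)) (σ : Ori m ⟶ X) (t : Fin (m + 1) →o Fin 2) :
    prismApp D H ((simplexMap θ).nu ≫ σ) (t.comp θ) = (simplexMap θ).nu ≫ prismApp D H σ t := by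
  rw [prismApp, prismApp, Category.assoc, prism_nat, ← Category.assoc, ← Category.assoc,
    ← Hom.comp_nu, ← Hom.comp_nu, aw_nat]
  rfl

theorem prismApp_const {X Y : OmegaCat} (D : PathData Y) (H : X ⟶ D.G) {m : ℕ} (σ : Ori m ⟶ X)
    (t : Fin (m + 1) →o Fin 2) (e : Bool) (h : ∀ i, prismT t i = e) :
    prismApp D H σ t = σ ≫ H ≫ D.pi e := by
  rw [prismApp, aw_const _ e h, prism_end, Category.assoc]

theorem PathData.htp {n : ℕ∞} {X Y : NCat n} (D : PathData Y.obj) (H : X.obj ⟶ D.G) {F G : X ⟶ Y}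
    (h0 : H ≫ D.pi false = F.hom) (h1 : H ≫ D.pi true = G.hom) :
    Htp ((streetNerve n).map F) ((streetNerve n).map G) := by
  refine Htp.of_map
    { app := fun m => ↾fun x => prismApp (m := m.unop.len) D H x.1 (stdSimplex.asOrderHom x.2)
      naturality := fun m k θ => ?_ } ?_ ?_
  · ext x
    exact prismApp_nat D H θ.unop.toOrderHom x.1 (stdSimplex.asOrderHom x.2)
  · ext m σ
    refine (prismApp_const D H σ _ false fun i => rfl).trans ?_
    rw [h0]
    rfl
  · ext m σ
    refine (prismApp_const D H σ _ true fun i => rfl).trans ?_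
    rw [h1]
    rfl

end Vale.Agent.P213
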