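import Vale.Agent.P213.Gam
import Vale.Agent.P213.Path

/-! The object of oplax paths exists. -/

open CategoryTheory

set_option backward.isDefEq.respectTransparency false

noncomputable section

namespace Vale.Agent.P213

open ADC OmegaCat

variable {X : OmegaCat} {K L : ADC}

theorem hatc_sat (φ : K.cyl.nu ⟶ X) (u : Cell K) (o : Option Bool) (j : ℕ) (a : Bool) :
    (hatc φ u).1.f (cylO o (sat j a)) = φ.f (cylO o (u.d a j)) := by
  rw [← ofCell_sat, ← Hom.cyl_cylO]
  rfl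

theorem hatc_inj {φ : K.cyl.nu ⟶ X} {ψ : L.cyl.nu ⟶ X} {u : Cell K} {v : Cell L}
    (h : hatc φ u = hatc ψ v) (o : Option Bool) : φ.f (cylO o u) = ψ.f (cylO o v) := by
  obtain ⟨k, hk⟩ := K.nu.fin u
  obtain ⟨l, hl⟩ := L.nu.fin v
  have h1 : u.d false (k + l) = u := d_of_d (X := K.nu) hk (by omega)
  have h2 : v.d false (k + l) = v := d_of_d (X := L.nu) hl (by omega)
  rw [← h1, ← h2, ← hatc_sat, ← hatc_sat, h]

/-- The three cells that describe a path. -/
def GC.ev (o : Option Bool) (g : GC X) : X.C := g.1.f (cylO o (g.real₁ 0).choose)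

theorem ev_hatc (o : Option Bool) (φ : K.cyl.nu ⟶ X) (u : Cell K) :
    (hatc φ u).ev o = φ.f (cylO o u) :=
  hatc_inj ((hatc φ u).real₁ 0).choose_spec.1 o

theorem GC.ev_d (o : Option Bool) (g : GC X) (j : ℕ) (a : Bool) :
    (g.d a j).ev o = g.1.f (cylO o (sat j a)) := ev_hatc o _ _

/-- The end points of a path. -/
def gpi (X : OmegaCat) (e : Bool) : Gam X ⟶ X where
  f := GC.ev (some e)
  map_d a k g := by
    obtain ⟨u, h, -⟩ := GC.real₁ g 0
    rw [← h]
    exact (congrArg _ (hatc_d _ u a k).symm).trans ((ev_hatc _ _ _).trans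
      ((((sph.inc e).nu ≫ g.1).map_d a k u).trans (congrArg _ (ev_hatc (some e) g.1 u).symm)))
  map_comp c := by
    obtain ⟨K, φ, u, v, rfl, rfl, h⟩ := GC.real₂ c
    rw [ev_hatc, ev_hatc]
    exact (congrArg _ (hatc_comp φ h).symm).trans ((ev_hatc _ _ _).trans
      (((K.inc e).nu ≫ φ).map_comp h))

theorem exists_sph (x : X.C) : ∃ p : (sph.nu ⟶ X) × Cell sph, p.1.f p.2 = x := by
  obtain ⟨F, hF⟩ := St.sph.exists_hom (fun p => X.d p.2 p.1 x) (fun p => X.d_ge _ le_rfl)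
    fun n F _ h p hp a k l => by
      have l' : k < p.1 := l.trans_eq hp.symm
      exact (X.d_lt _ l').trans ((h (k, a) l).symm.trans (congrArg F (sat_d _ _ _ l').symm))
  obtain ⟨k, hk⟩ := X.fin x
  exact ⟨(F, sat k false), (hF (k, false)).trans hk⟩

theorem hatc_proj {F : K.nu ⟶ X} {G : L.nu ⟶ X} {u : Cell K} {v : Cell L} (h : F.f u = G.f v) :
    hatc (K.proj.nu ≫ F) u = hatc (L.proj.nu ≫ G) v := by
  have e : (ofCell u).nu ≫ F = (ofCell v).nu ≫ G := St.sph.hom_ext fun p =>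
    (congrArg F.f (ofCell_sat u _ _)).trans ((F.map_d _ _ u).trans (h ▸
      ((congrArg G.f (ofCell_sat v _ _)).trans (G.map_d _ _ v)).symm))
  refine Subtype.ext ?_
  simp only [hatc]
  rw [← Category.assoc, ← Category.assoc, ← Hom.comp_nu, ← Hom.comp_nu, Hom.cyl_proj, Hom.cyl_proj,
    Hom.comp_nu, Hom.comp_nu, Category.assoc, Category.assoc, e]

/-- The constant path. -/
def tauv (x : X.C) : GC X := hatc (sph.proj.nu ≫ (exists_sph x).choose.1) (exists_sph x).choose.2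

theorem tauv_eq (F : K.nu ⟶ X) (u : Cell K) : tauv (F.f u) = hatc (K.proj.nu ≫ F) u :=
  hatc_proj (exists_sph _).choose_spec

theorem tauv_d (a : Bool) (k : ℕ) (x : X.C) : tauv (X.d a k x) = (tauv x).d a k := by
  obtain ⟨⟨F, u⟩, rfl⟩ := exists_sph x
  rw [← F.map_d, tauv_eq, tauv_eq]
  exact hatc_d _ _ _ _

theorem ev_tauv (e : Bool) (x : X.C) : (tauv x).ev (some e) = x := by
  obtain ⟨⟨F, u⟩, rfl⟩ := exists_sph x
  rw [tauv_eq, ev_hatc]
  exact congrArg (fun H : sph.Hom sph => F.f (H.cell u)) (inc_proj sph e)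

/-- The constant paths. -/
def gtau (X : OmegaCat) : X ⟶ Gam X where
  f := tauv
  map_d := tauv_d
  map_comp {n x y} c := by
    obtain ⟨K, φ, u, v, h1, h2, h⟩ := GC.real₂ (g := tauv x) (h := tauv y) (n := n)
      (by rw [← tauv_d, ← tauv_d, c])
    have e1 : ((K.inc false).nu ≫ φ).f u = x := by rw [← ev_tauv false x, ← h1, ev_hatc]; rfl
    have e2 : ((K.inc false).nu ≫ φ).f v = y := by rw [← ev_tauv false y, ← h2, ev_hatc]; rfl
    rw [← e1, ← e2, ← Hom.map_comp _ h, tauv_eq, tauv_eq, tauv_eq]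
    exact hatc_comp _ h

theorem cylO_d_congr {u v : Cell K} {a : Bool} {k : ℕ} (h : u.d a k = v.d a k) (o : Option Bool) :
    (cylO o u).d a k = (cylO o v).d a k :=
  Cell.ext' fun b ⟨c, o'⟩ => by
    have h1 := congrArg (fun w : Cell K => w.x a c) h
    have h2 := congrArg (fun w : Cell K => w.x b c) h
    have h3 : K.dim c ≤ K.cyl.dim (c, o') := Nat.le_add_right _ _
    simp only [Cell.d_apply, cylO_apply] at h1 h2 ⊢
    split_ifs at h1 h2 ⊢ <;> omega

theorem gam_ncat (n : ℕ∞) (h : IsNCat n X) : IsNCat n (Gam X) := fun k g l => by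
  have E : ∀ {a o} {u v : Cell sph}, u.d a k = v.d a k → g.1.f (cylO o u) = g.1.f (cylO o v) :=
    fun {a o u v} e => by
      rw [← d_of_d (b := a) (h k (g.1.f (cylO o u)) l) le_rfl,
        ← d_of_d (b := a) (h k (g.1.f (cylO o v)) l) le_rfl, ← g.1.map_d, ← g.1.map_d]
      exact congrArg _ (cylO_d_congr e o)
  refine Subtype.ext (St.sph.cyl.hom_ext fun ⟨⟨j, a⟩, o⟩ => (hatc_sat _ _ o j a).trans ?_)
  change _ = g.1.f (cylO o (sat j a))
  rcases lt_trichotomy j k with i | rfl | i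
  · rw [sat_d _ _ _ i]
  · rw [d_sat _ _ _ le_rfl]
    exact (E ((d_sat _ _ _ le_rfl).trans (sat_d _ false _ j.lt_succ_self).symm)).trans
      (E ((d_sat _ _ _ le_rfl).trans (sat_d _ false _ j.lt_succ_self).symm)).symm
  · rw [d_sat _ _ _ i.le]
    exact E ((d_sat _ _ _ le_rfl).trans (sat_d _ _ _ i).symm)

theorem hat_aux (S : St K) (Φ : K.nu ⟶ Gam X) {N : ℕ} {F : K.cyl.nu.C → X.C} (hF : PFun N F)
    (h : ∀ b, K.cyl.dim b < N → F (S.cyl.atom b) = GC.ev b.2 (Φ.f (S.atom b.1))) (u : Cell K)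
    (w : Cell sph.cyl) (hw : sph.cyl.nu.DimLT N w) :
    F ((ofCell u).cyl.cell w) = (Φ.f u).1.f w := by
  obtain ⟨M, hu⟩ := exists_dimLT (X := K.nu) u
  induction M generalizing u w with
  | zero => exact absurd hu.choose_spec.1 (Nat.not_lt_zero _)
  | succ M ih =>
    refine S.gen (fun u => ∀ w, sph.cyl.nu.DimLT N w → F ((ofCell u).cyl.cell w) = (Φ.f u).1.f w)
      (fun b hb => St.sph.cyl.pfun_ext (hF.precomp (ofCell _).cyl.nu) ((Φ.f _).1.pFun N)
        fun ⟨⟨j, a⟩, o⟩ l => ?_) (fun k u v _ _ e h1 h2 w hw => ?_) u hu w hw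
    · have e : ∀ u, (Φ.f u).1.f (cylO o (sat j a)) = GC.ev o (Φ.f (u.d a j)) := fun u =>
        (GC.ev_d o _ j a).symm.trans (congrArg _ (Φ.map_d a j u).symm)
      have e' : ∀ u : Cell K, (ofCell u).cyl.cell (cylO o (sat j a)) = cylO o (u.d a j) := fun u =>
        by rw [Hom.cyl_cylO, ofCell_sat]
      refine (congrArg F (e' _)).trans (Eq.trans ?_ (e _).symm)
      rcases le_or_gt (K.dim b) j with i | i
      · rw [S.d_atom a i]
        exact h (b, o) (lt_of_le_of_lt (Nat.add_le_add_right i _) l)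
      · have := ih ((S.atom b).d a j) (cylO o (sat j a)) (St.sph.cyl.dimLT_atom.2 l)
          (dimLT_d (X := K.nu) a _ (by omega))
        rwa [e, e', Cell.d_ge _ le_rfl] at this
    · obtain ⟨L, φ, u', v', a1, a2, e'⟩ := GC.real₂ (Φ.cmp e)
      refine (kp hF (φ.pFun N) e e' (fun w hw => (h1 w hw).trans (a1 ▸ rfl))
        (fun w hw => (h2 w hw).trans (a2 ▸ rfl)) w hw).trans ?_
      have := (Φ.map_comp e).trans (a1 ▸ a2 ▸ (hatc_comp φ e').symm)
      exact congrArg (fun g : GC X => g.1.f w) this.symm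

theorem hat_bijective (S : St K) : Function.Bijective (hat (K := K) (X := X)) := by
  refine ⟨fun φ ψ h => ?_, fun Φ => ?_⟩
  · refine S.cyl.hom_ext fun b => ?_
    have e : hatc φ (S.atom b.1) = hatc ψ (S.atom b.1) :=
      congrArg (fun H : K.nu ⟶ Gam X => H.f (S.atom b.1)) h
    exact hatc_inj e b.2
  have e : ∀ b : K.cyl.B, GC.ev b.2 (Φ.f (S.atom b.1)) =
      (Φ.f (S.atom b.1)).1.f (St.sph.cyl.atom ((K.dim b.1, false), b.2)) := fun b =>
    (congrArg _ ((congrArg Φ.f (S.d_atom false le_rfl)).symm.trans (Φ.map_d _ _ _))).trans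
      (GC.ev_d _ _ _ _)
  obtain ⟨φ, h⟩ := S.cyl.exists_hom (fun b => GC.ev b.2 (Φ.f (S.atom b.1)))
    (fun b => by
      rw [e, ← Hom.map_d]
      exact congrArg _ (St.sph.cyl.d_atom false le_rfl))
    fun N F hF h b hb a k l => by
      rw [e, ← Hom.map_d, ← hat_aux S Φ hF h _ _ (dimLT_d a _ l)]
      refine congrArg F ((Hom.cell_d _ _ _ _).trans (congrArg _ ((Hom.cyl_cylO _ _ _).trans ?_)))
      exact congrArg _ ((ofCell_sat _ _ _).trans (S.d_atom false le_rfl))
  refine ⟨φ, hom_ext fun u => Subtype.ext (hom_ext fun w => ?_)⟩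
  obtain ⟨N, hw⟩ := exists_dimLT w
  exact hat_aux S Φ (φ.pFun N) (fun b _ => h b) u w hw

theorem nonempty_pathData (X : OmegaCat) : Nonempty (PathData X) :=
  ⟨{ G := Gam X
     ncat := gam_ncat
     pi := gpi X
     tau := gtau X
     hat := hat
     hat_nat := fun F φ => hom_ext fun u => (hatc_map F φ u).symm
     hat_pi := fun φ e => hom_ext fun u => ev_hatc (some e) φ u
     hat_tau := fun F => hom_ext fun u => tauv_eq F u
     tau_pi := fun e => hom_ext (ev_tauv e)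
     bij := hat_bijective }⟩

end Vale.Agent.P213
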