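import Vale.Agent.P213.PO
import Vale.Agent.P213.Prism
import Vale.Agent.P213.Rep

/-! Adjoining a principal lower set does not change the homotopy type. -/

open CategoryTheory Limits Opposite Simplicial MonoidalCategory SSet

set_option backward.isDefEq.respectTransparency false

noncomputable section

namespace Vale.Agent.P213

open ADC OmegaCat

variable {B : Type} [PartialOrder B] {n : ℕ∞} {A D E : Set B} {X : OmegaCat} {P : NCat n}
  {hA : A ⊆ D} {f : Fam A X} {j : X ⟶ P.obj} {g : Fam D P.obj}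

theorem Fam.app_eq {Y : OmegaCat} (g : Fam D Y) {m : ℕ} {σ τ : Fin (m + 1) →o B} (h : ∀ i, σ i ∈ D)
    (h' : ∀ i, τ i ∈ D) (e : ∀ i, σ i = τ i) : g.app σ h = g.app τ h' := by
  obtain rfl : σ = τ := OrderHom.ext _ _ (funext e)
  rfl

/-- Appending a last vertex to a simplex. -/
def snocO {C : Type} [PartialOrder C] {m : ℕ} (τ : Fin (m + 1) →o C) (y : C) (h : ∀ i, τ i ≤ y) :
    Fin (m + 2) →o C :=
  ⟨Fin.lastCases y τ, fun i k l => by
    cases i using Fin.lastCases <;> cases k using Fin.lastCases <;>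
      simp only [Fin.lastCases_last, Fin.lastCases_castSucc]
    exacts [le_rfl, absurd l (Fin.castSucc_lt_last _).not_ge, h _,
      τ.mono (Fin.castSucc_le_castSucc_iff.1 l)]⟩

theorem snocO_last {C : Type} [PartialOrder C] {m : ℕ} (τ : Fin (m + 1) →o C) (y : C)
    (h : ∀ i, τ i ≤ y) : snocO τ y h (Fin.last _) = y :=
  Fin.lastCases_last (motive := fun _ => C)

theorem snocO_cs {C : Type} [PartialOrder C] {m : ℕ} (τ : Fin (m + 1) →o C) (y : C)
    (h : ∀ i, τ i ≤ y) (i : Fin (m + 1)) : snocO τ y h i.castSucc = τ i :=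
  Fin.lastCases_castSucc (motive := fun _ => C) i

/-- The front face. -/
def csO (m : ℕ) : Fin (m + 1) →o Fin (m + 2) :=
  ⟨Fin.castSucc, fun _ _ => Fin.castSucc_le_castSucc_iff.2⟩

open Classical in
/-- The characteristic function of the complement of a lower set. -/
def chiO (hE : IsLowerSet E) : B →o Bool :=
  ⟨fun b => decide (b ∉ E), fun _ _ l => by
    rw [Bool.le_iff_imp, decide_eq_true_iff, decide_eq_true_iff]
    exact fun h k => h (hE l k)⟩

theorem chiO_false (hE : IsLowerSet E) {b : B} (h : b ∈ E) : chiO hE b = false := by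
  simpa [chiO] using h

theorem chiO_true (hE : IsLowerSet E) {b : B} (h : b ∉ E) : chiO hE b = true := by
  simpa [chiO] using h

theorem exists_cylFam {Y : OmegaCat} (g : Fam D Y) (hE : IsLowerSet E) {y : B} (hy : y ∈ D)
    (φ : B → B) (h1 : ∀ b ∈ E, φ b = b) (h2 : MonotoneOn φ D) (h3 : ∀ b ∈ D, φ b ∈ D)
    (h4 : ∀ b ∈ D, b ∉ E → φ b ≤ y) :
    ∃ Φ : ∀ {m : ℕ} (σ : Fin (m + 1) →o B), (∀ i, σ i ∈ D) →
        ((simplexADC (Fin (m + 1))).cyl.nu ⟶ Y),
      (∀ {k m : ℕ} (θ : Fin (k + 1) →o Fin (m + 1)) (σ : Fin (m + 1) →o B) (h : ∀ i, σ i ∈ D),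
        (simplexMap θ).cyl.nu ≫ Φ σ h = Φ (σ.comp θ) fun _ => h _) ∧
      (∀ {m : ℕ} (σ : Fin (m + 1) →o B) (h : ∀ i, σ i ∈ D), σ (Fin.last m) ∈ E →
        Φ σ h = (proj _).nu ≫ g.app σ h) ∧
      (∀ {m : ℕ} (σ τ : Fin (m + 1) →o B) (h : ∀ i, σ i ∈ D) (h' : ∀ i, τ i ∈ D),
        (∀ i, τ i = φ (σ i)) → (inc _ false).nu ≫ Φ σ h = g.app τ h') ∧
      (∀ {m : ℕ} (σ τ : Fin (m + 1) →o B) (h : ∀ i, σ i ∈ D) (h' : ∀ i, τ i ∈ D),
        (∀ i, σ i ∈ E → τ i = σ i) → (∀ i, σ i ∉ E → τ i = y) →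
        (inc _ true).nu ≫ Φ σ h = g.app τ h') := by
  classical
  let s : ∀ {m : ℕ} (σ : Fin (m + 1) →o B), (∀ i, σ i ∈ D) → σ (Fin.last m) ∉ E →
      Fin (m + 2) →o B := fun σ h l => snocO ⟨φ ∘ σ, fun i k e => h2 (h i) (h k) (σ.mono e)⟩ y
        fun i => (h2 (h i) (h _) (σ.mono (Fin.le_last i))).trans (h4 _ (h _) l)
  have s1 : ∀ {m : ℕ} (σ : Fin (m + 1) →o B) h l, s σ h l (Fin.last _) = y :=
    fun σ h l => snocO_last _ _ _
  have s2 : ∀ {m : ℕ} (σ : Fin (m + 1) →o B) h l i, s σ h l i.castSucc = φ (σ i) :=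
    fun σ h l i => snocO_cs _ _ _ i
  have s3 : ∀ {m : ℕ} (σ : Fin (m + 1) →o B) h l i, s σ h l i ∈ D := fun σ h l i => by
    cases i using Fin.lastCases
    · exact (s1 σ h l).symm ▸ hy
    · exact s2 σ h l _ ▸ h3 _ (h _)
  clear_value s
  have low : ∀ {m : ℕ} (σ : Fin (m + 1) →o B), σ (Fin.last m) ∈ E → ∀ i, σ i ∈ E :=
    fun σ l i => hE (σ.mono (Fin.le_last i)) l
  refine ⟨fun {m} σ h => if l : σ (Fin.last m) ∈ E then (proj _).nu ≫ g.app σ h else
    (hmo (csO m) ((chiO hE).comp σ)).nu ≫ g.app (s σ h l) (s3 σ h l), fun {k m} θ σ h => ?_,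
    fun σ h l => dif_pos l, fun {m} σ τ h h' e => ?_, fun {m} σ τ h h' e e' => ?_⟩
  · beta_reduce
    by_cases l : σ (Fin.last m) ∈ E
    · rw [dif_pos l, dif_pos (show (σ.comp θ) (Fin.last k) ∈ E from low σ l _), ← Category.assoc, ← Hom.comp_nu, Hom.cyl_proj,
        Hom.comp_nu, Category.assoc, g.nat]
    rw [dif_neg l, ← Category.assoc, ← Hom.comp_nu, hmo_pre]
    by_cases l' : (σ.comp θ) (Fin.last k) ∈ E
    · rw [dif_pos l', hmo_low _ _ fun i => chiO_false hE (low _ l' i), Hom.comp_nu, Category.assoc,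
        g.nat]
      exact congrArg _ (g.app_eq _ _ fun i => (s2 σ h l _).trans (h1 _ (low _ l' i)))
    · obtain ⟨θ', t1, t2⟩ : ∃ θ' : Fin (k + 2) →o Fin (m + 2), θ' (Fin.last _) = Fin.last _ ∧
          ∀ i : Fin (k + 1), θ' i.castSucc = (θ i).castSucc :=
        ⟨snocO ((csO m).comp θ) (Fin.last _) fun i => Fin.le_last _, snocO_last _ _ _,
          snocO_cs _ _ _⟩
      have e : (csO m).comp θ = θ'.comp (csO k) := OrderHom.ext _ _ (funext fun i => (t2 i).symm)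
      rw [dif_neg l', e, ← hmo_post _ _ θ' t1, Hom.comp_nu, Category.assoc, g.nat]
      refine congrArg _ (g.app_eq _ _ fun i => ?_)
      cases i using Fin.lastCases
      · exact (congrArg (s σ h l) t1).trans ((s1 _ _ _).trans (s1 _ _ _).symm)
      · exact (congrArg (s σ h l) (t2 _)).trans ((s2 _ _ _ _).trans (s2 (σ.comp θ) _ _ _).symm)
  · beta_reduce
    split_ifs with l
    · rw [← Category.assoc, ← Hom.comp_nu, inc_proj, Hom.id_nu, Category.id_comp]
      exact g.app_eq _ _ fun i => ((e i).trans (h1 _ (low σ l i))).symm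
    · rw [← Category.assoc, ← Hom.comp_nu, inc_hmo, g.nat]
      exact g.app_eq _ _ fun i => (s2 σ h l i).trans (e i).symm
  · beta_reduce
    split_ifs with l
    · rw [← Category.assoc, ← Hom.comp_nu, inc_proj, Hom.id_nu, Category.id_comp]
      exact g.app_eq _ _ fun i => (e i (low σ l i)).symm
    · rw [← Category.assoc, ← Hom.comp_nu, inc_hmo, g.nat]
      refine g.app_eq _ _ fun i => ?_
      change s σ h l (if chiO hE (σ i) = true then ⊤ else i.castSucc) = _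
      by_cases k : σ i ∈ E
      · rw [chiO_false hE k, if_neg Bool.false_ne_true, s2, h1 _ k, e i k]
      · rw [chiO_true hE k, if_pos rfl, e' i k]
        exact s1 _ _ _

theorem IsPO.exists_path (h : IsPO n hA f j g) (Q : PathData P.obj) (hAE : A ⊆ E)
    (hE : IsLowerSet E) {y : B} (hy : y ∈ D) (φ : B → B) (h1 : ∀ b ∈ E, φ b = b)
    (h2 : MonotoneOn φ D) (h3 : ∀ b ∈ D, φ b ∈ D) (h4 : ∀ b ∈ D, b ∉ E → φ b ≤ y) :
    ∃ H : P.obj ⟶ Q.G, (∀ e, j ≫ H ≫ Q.pi e = j) ∧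
      (∀ {m : ℕ} (σ τ : Fin (m + 1) →o B) (h : ∀ i, σ i ∈ D) (h' : ∀ i, τ i ∈ D),
        (∀ i, τ i = φ (σ i)) → g.app σ h ≫ H ≫ Q.pi false = g.app τ h') ∧
      (∀ {m : ℕ} (σ τ : Fin (m + 1) →o B) (h : ∀ i, σ i ∈ D) (h' : ∀ i, τ i ∈ D),
        (∀ i, σ i ∈ E → τ i = σ i) → (∀ i, σ i ∉ E → τ i = y) →
        g.app σ h ≫ H ≫ Q.pi true = g.app τ h') := by
  obtain ⟨Φ, a1, a2, a3, a4⟩ := exists_cylFam g hE hy φ h1 h2 h3 h4
  obtain ⟨H, b1, b2⟩ := h.desc (Q.ncat n h.hP) (j ≫ Q.tau)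
    ⟨fun σ k => Q.hat (Φ σ k), fun θ σ k => by rw [Q.hat_nat, a1]⟩
    (Fam.ext (funext fun m => funext fun σ => funext fun k => by
      change f.app σ k ≫ j ≫ Q.tau = Q.hat (Φ σ _)
      rw [a2 σ _ (hAE (k _)), ← Q.hat_tau, ← Category.assoc]
      exact congrArg (fun F : Fam A P.obj => F.app σ k ≫ Q.tau) h.w))
  have b3 : ∀ {m : ℕ} (σ : Fin (m + 1) →o B) (k : ∀ i, σ i ∈ D), g.app σ k ≫ H = Q.hat (Φ σ k) :=
    fun σ k => congrArg (fun F : Fam D Q.G => F.app σ k) b2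
  refine ⟨H, fun e => by rw [← Category.assoc, b1, Category.assoc, Q.tau_pi, Category.comp_id],
    fun σ τ k k' e => ?_, fun σ τ k k' e e' => ?_⟩
  · rw [← Category.assoc, b3, Q.hat_pi, a3 σ τ k k' e]
  · rw [← Category.assoc, b3, Q.hat_pi, a4 σ τ k k' e e']

theorem IsPO.base_aux (h : IsPO n hA f j g) (hAE : A ⊆ E) (hE : IsLowerSet E) (hED : E ⊆ D)
    {y r : B} (hy : y ∈ D) (hD : ∀ b ∈ D, b ∉ E → b ≤ y)
    (hr : IsGreatest (E ∩ Set.Iic y) r) : WHE (usub (sv j g E)).ι := by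
  classical
  obtain ⟨Q⟩ := nonempty_pathData P.obj
  have mono : ∀ z, (∀ b ∈ E, b ≤ y → b ≤ z) → MonotoneOn (fun b => if b ∈ E then b else z) D :=
    fun z hz a _ b hb l => by
      dsimp only
      split_ifs with i k k
      exacts [l, hz a i (l.trans (hD b hb k)), absurd (hE l k) i, le_rfl]
  have mr := mono r fun b i k => hr.2 ⟨i, k⟩
  have my := mono y fun _ _ k => k
  have er : ∀ b, (if b ∈ E then b else r) ∈ E := fun b => by
    split_ifs with i
    exacts [i, hr.1.1]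
  obtain ⟨H, a1, a2, a3⟩ := h.exists_path Q hAE hE hy id (fun _ _ => rfl) monotoneOn_id
    (fun _ k => k) hD
  obtain ⟨H', b1, b2, b3⟩ := h.exists_path Q hAE hE hy (fun b => if b ∈ E then b else r)
    (fun _ k => if_pos k) mr (fun b _ => hED (er b)) fun b _ k => (if_neg k).trans_le hr.1.2
  have e1 : H ≫ Q.pi false = 𝟙 _ := h.ext h.hP _ _ ((a1 _).trans (Category.comp_id _).symm)
    (Fam.ext (funext fun m => funext fun σ => funext fun k => a2 σ σ k k fun _ => rfl))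
  have e2 : H' ≫ Q.pi true = H ≫ Q.pi true := h.ext h.hP _ _ ((b1 _).trans (a1 _).symm)
    (Fam.ext (funext fun m => funext fun σ => funext fun k => by
      let τ : Fin (m + 1) →o B :=
        ⟨fun i => if σ i ∈ E then σ i else y, fun i l e => my (k i) (k l) (σ.mono e)⟩
      have k' : ∀ i, τ i ∈ D := fun i => by
        change (if σ i ∈ E then σ i else y) ∈ D
        split_ifs
        exacts [k i, hy]
      exact (b3 σ τ k k' (fun _ i => if_pos i) fun _ i => if_neg i).trans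
        (a3 σ τ k k' (fun _ i => if_pos i) fun _ i => if_neg i).symm))
  have s := h.sv_sieve hAE hE
  have e3 : ∀ x, sv j g E ((H' ≫ Q.pi false).f x) :=
    h.gen (s.preimage _).closed (fun z => Or.inl ⟨X.d true 0 z, (j.map_d _ _ _).trans
      (congrArg (fun F : X ⟶ P.obj => P.obj.d true 0 (F.f z)) (b1 false).symm)⟩) fun m σ k u => by
        let τ : Fin (m + 1) →o B :=
          ⟨fun i => if σ i ∈ E then σ i else r, fun i l e => mr (k i) (k l) (σ.mono e)⟩
        refine (congrArg (fun F : Ori m ⟶ P.obj => sv j g E (F.f u))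
          (b2 σ τ k (fun i => hED (er _)) fun _ => rfl)).mpr (sieve_of_last s _ ?_ u)
        rw [Fam.app_vtx, h.sv_ob hAE hE]
        exact er _
  obtain ⟨j', g', c1, c2, c3⟩ := h.restrict hAE hE hED
  have e4 : subι s.closed ≫ H' ≫ Q.pi false = subι s.closed := c3.ext h.hP _ _
    (by rw [← Category.assoc, c1, b1]) (Fam.ext (funext fun m => funext fun σ => funext fun k => by
      have e : g'.app σ k ≫ subι _ = g.app σ fun i => hED (k i) :=
        congrArg (fun F : Fam E P.obj => F.app σ k) c2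
      change g'.app σ k ≫ _ = g'.app σ k ≫ _
      rw [← Category.assoc, e]
      exact b2 σ σ _ _ fun i => (if_pos (k i)).symm))
  let R : P ⟶ P := ObjectProperty.homMk (H' ≫ Q.pi false)
  refine WHE.of_he _ (Subcomplex.lift ((streetNerve n).map R) ?_) ?_ ?_
  · rintro m _ ⟨σ, rfl⟩ u
    exact e3 _
  · refine (congrArg (Htp · _) ?_).mpr (Htp.refl _)
    ext m σ
    exact Subtype.ext (hom_ext fun u =>
      congrArg (fun F : sub s.closed ⟶ P.obj => F.f ⟨_, σ.2 u⟩) e4)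
  · rw [← (streetNerve n).map_id]
    exact (Q.htp (F := R) (G := ObjectProperty.homMk (H ≫ Q.pi true)) H' rfl e2).trans
      (Q.htp (F := 𝟙 P) H e1 rfl).symm

theorem IsPO.base (h : IsPO n hA f j g) (hAE : A ⊆ E) (hE : IsLowerSet E) {y r : B}
    (hD : E ∪ Set.Iic y ⊆ D) (hr : IsGreatest (E ∩ Set.Iic y) r) :
    WHE (Subcomplex.homOfLE (usub_mono (sv_mono j g (Set.subset_union_left :
      E ⊆ E ∪ Set.Iic y)))) := by
  have hA' : A ⊆ E ∪ Set.Iic y := hAE.trans Set.subset_union_left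
  have hE' : IsLowerSet (E ∪ Set.Iic y) := hE.union (isLowerSet_Iic y)
  obtain ⟨j', g', c1, c2, c3⟩ := h.restrict hA' hE' hD
  let P' : NCat n := ⟨sub (h.sv_sieve hA' hE').closed, c3.hP⟩
  let i : P' ⟶ P := ObjectProperty.homMk (subι _)
  have w := IsPO.base_aux (P := P') c3 hAE hE Set.subset_union_left (Or.inr le_rfl)
    (fun b k l => k.resolve_left l) hr
  have e : sv j' g' E = fun x => sv j g E (i.hom.f x) := funext fun x => propext (by
    have a1 : ∀ z, (j'.f z).1 = j.f z := fun z => congrArg (fun F : X ⟶ P.obj => F.f z) c1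
    have a2 : ∀ b hb, (g'.ob b hb).1 = g.ob b (hD hb) := fun b hb =>
      congrArg (fun F : Fam _ P.obj => F.ob b hb) c2
    exact or_congr (exists_congr fun z => by rw [← a1]; exact Subtype.ext_iff)
      ⟨fun ⟨b, hb, k, l⟩ => ⟨b, hD hb, k, (a2 b hb).symm.trans (congrArg Subtype.val l)⟩,
        fun ⟨b, _, k, l⟩ => ⟨b, Or.inl k, k, Subtype.ext ((a2 b _).trans l)⟩⟩)
  rw [e] at w
  obtain ⟨e1, h1⟩ := exists_usub_iso i Subtype.val_injective (sv j g E) fun x k =>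
    ⟨⟨x, sv_mono j g Set.subset_union_left x k⟩, rfl⟩
  obtain ⟨e2, h2⟩ := exists_usub_iso i Subtype.val_injective (sv j g (E ∪ Set.Iic y)) fun x k =>
    ⟨⟨x, k⟩, rfl⟩
  have t : usub (X := P') (fun x => sv j g (E ∪ Set.Iic y) (i.hom.f x)) = ⊤ :=
    top_le_iff.1 fun _ σ _ u => (OmegaCat.Hom.f σ u).2
  let k := Subcomplex.lift (𝟙 _) (t.ge.trans' le_top)
  have : IsIso k := ⟨Subcomplex.ι _, rfl, rfl⟩
  refine WHE.of_precomp e1.hom _ (WHE.of_isIso _) ?_
  refine (congrArg (fun F => WHE F) ?_).mpr (WHE.comp_mem _ _ w (WHE.of_isIso (k ≫ e2.hom)))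
  rw [← cancel_mono (Subcomplex.ι _), Category.assoc, Subcomplex.homOfLE_ι, h1, Category.assoc,
    Category.assoc, h2]
  rfl

end Vale.Agent.P213
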