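import Vale.Agent.P213.OC

/-! Limits, colimits and the left adjoint of the nerve. -/

open CategoryTheory Limits

set_option backward.isDefEq.respectTransparency false

noncomputable section

namespace Vale.Agent.P213

/-- Formal expressions in generators. -/
inductive UT (G : Type) : Type
  | gen (γ : G)
  | d (a : Bool) (k : ℕ) (t : UT G)
  | comp (k : ℕ) (s t : UT G)

namespace UT

variable {G : Type} {I : Type 1} (Y : I → OmegaCat) (g : ∀ i, G → (Y i).C)

/-- The value of an expression. -/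
def val (i : I) : UT G → (Y i).C
  | gen γ => g i γ
  | d a k t => (Y i).d a k (val i t)
  | comp k s t => (Y i).comp k (val i s) (val i t)

/-- Expressions whose composites are defined in every model. -/
def WF : UT G → Prop
  | gen _ => True
  | d _ _ t => WF t
  | comp k s t => WF s ∧ WF t ∧
      ∀ i, (Y i).d true k (val Y g i s) = (Y i).d false k (val Y g i t)

/-- Equality of values in every model. -/
def rel : Setoid {t : UT G // WF Y g t} where
  r s t := ∀ i, val Y g i s.1 = val Y g i t.1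
  iseqv := ⟨fun _ _ => rfl, fun h i => (h i).symm, fun h k i => (h i).trans (k i)⟩

/-- Evaluation of classes. -/
def ev (i : I) : Quotient (rel Y g) → (Y i).C :=
  Quotient.lift (fun t => val Y g i t.1) fun _ _ h => h i

theorem ev_ext {x y : Quotient (rel Y g)} (h : ∀ i, ev Y g i x = ev Y g i y) : x = y := by
  induction x using Quotient.inductionOn
  induction y using Quotient.inductionOn
  exact Quotient.sound h

theorem ev_out (i : I) (x : Quotient (rel Y g)) : val Y g i x.out.1 = ev Y g i x :=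
  congrArg (ev Y g i) x.out_eq

/-- Sources and targets of classes. -/
def qd (a : Bool) (k : ℕ) (x : Quotient (rel Y g)) : Quotient (rel Y g) :=
  Quotient.mk _ ⟨d a k x.out.1, x.out.2⟩

theorem ev_d (i : I) (a : Bool) (k : ℕ) (x : Quotient (rel Y g)) :
    ev Y g i (qd Y g a k x) = (Y i).d a k (ev Y g i x) :=
  congrArg ((Y i).d a k) (ev_out Y g i x)

open Classical in
/-- Composition of classes. -/
def qc (k : ℕ) (x y : Quotient (rel Y g)) : Quotient (rel Y g) :=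
  if h : qd Y g true k x = qd Y g false k y then
    Quotient.mk _ ⟨comp k x.out.1 y.out.1, x.out.2, y.out.2, fun i => by
      rw [ev_out, ev_out, ← ev_d, ← ev_d, h]⟩
  else x

variable {Y g}

theorem ev_cmp {k : ℕ} {x y : Quotient (rel Y g)} (h : qd Y g true k x = qd Y g false k y)
    (i : I) : (Y i).d true k (ev Y g i x) = (Y i).d false k (ev Y g i y) := by
  rw [← ev_d, ← ev_d, h]

theorem ev_c {k : ℕ} {x y : Quotient (rel Y g)} (h : qd Y g true k x = qd Y g false k y)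
    (i : I) : ev Y g i (qc Y g k x y) = (Y i).comp k (ev Y g i x) (ev Y g i y) := by
  rw [qc, dif_pos h, ← ev_out, ← ev_out Y g i x, ← ev_out Y g i y]
  exact (ev_out Y g i _).trans rfl

theorem ev_c' {k : ℕ} {x y : Quotient (rel Y g)}
    (h : ∀ i, (Y i).d true k (ev Y g i x) = (Y i).d false k (ev Y g i y)) (i : I) :
    ev Y g i (qc Y g k x y) = (Y i).comp k (ev Y g i x) (ev Y g i y) :=
  ev_c (ev_ext Y g fun j => by rw [ev_d, ev_d, h]) i

theorem exists_dim (hd : ∀ γ, ∃ m, ∀ i, (Y i).DimLT m (g i γ)) (t : UT G) (ht : WF Y g t) :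
    ∃ m, ∀ i, (Y i).DimLT m (val Y g i t) := by
  induction t with
  | gen γ => exact hd γ
  | d a k t ih => exact (ih ht).imp fun m h i => (h i).d a k
  | comp k s t ihs iht =>
    obtain ⟨m, hm⟩ := ihs ht.1
    obtain ⟨l, hl⟩ := iht ht.2.1
    exact ⟨max m l, fun i => OmegaCat.DimLT.comp (ht.2.2 i) ((hm i).mono (le_max_left _ _))
      ((hl i).mono (le_max_right _ _))⟩

/-- The omega-category of classes of expressions. -/
@[implicit_reducible] def cat (hd : ∀ γ, ∃ m, ∀ i, (Y i).DimLT m (g i γ)) : OmegaCat where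
  C := Quotient (rel Y g)
  d := qd Y g
  comp := qc Y g
  d_lt x h := ev_ext Y g fun i => by rw [ev_d, ev_d, ev_d, (Y i).d_lt _ h]
  d_ge x h := ev_ext Y g fun i => by rw [ev_d, ev_d, (Y i).d_ge _ h]
  id_comp n x := ev_ext Y g fun i => by
    rw [ev_c' fun j => by rw [ev_d, (Y j).d_ge _ le_rfl], ev_d, (Y i).id_comp]
  comp_id n x := ev_ext Y g fun i => by
    rw [ev_c' fun j => by rw [ev_d, (Y j).d_ge _ le_rfl], ev_d, (Y i).comp_id]
  src_comp h := ev_ext Y g fun i => by rw [ev_d, ev_d, ev_c h, (Y i).src_comp (ev_cmp h i)]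
  tgt_comp h := ev_ext Y g fun i => by rw [ev_d, ev_d, ev_c h, (Y i).tgt_comp (ev_cmp h i)]
  d_comp h k := ev_ext Y g fun i => by
    rw [ev_d, ev_c h, (Y i).d_comp (ev_cmp h i) k,
      ev_c' fun j => by rw [ev_d, ev_d, OmegaCat.d_cmp (ev_cmp h j) k], ev_d, ev_d]
  assoc h k := ev_ext Y g fun i => by
    rw [ev_c' fun j => by rw [ev_c h, (Y j).tgt_comp (ev_cmp h j), ev_cmp k], ev_c h,
      ev_c' fun j => by rw [ev_c k, (Y j).src_comp (ev_cmp k j), ev_cmp h], ev_c k,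
      (Y i).assoc (ev_cmp h i) (ev_cmp k i)]
  interchange {m n x y z w} l h k j := ev_ext Y g fun i => by
    have j' : ∀ i, (Y i).d true m (ev Y g i y) = (Y i).d false m (ev Y g i w) := fun i => by
      rw [← OmegaCat.d_lt_eq (ev_cmp h i) l, ← OmegaCat.d_lt_eq (ev_cmp k i) l, ev_cmp j]
    rw [ev_c' fun i => by
        rw [ev_c h, ev_c k, OmegaCat.d_comp_lt (ev_cmp h i) l, OmegaCat.d_comp_lt (ev_cmp k i) l,
          ev_cmp j], ev_c h, ev_c k,
      ev_c' fun i => by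
        rw [ev_c j, ev_c' j', (Y i).d_comp (ev_cmp j i) l.ne', (Y i).d_comp (j' i) l.ne',
          ev_cmp h, ev_cmp k], ev_c j, ev_c' j',
      (Y i).interchange l (ev_cmp h i) (ev_cmp k i) (ev_cmp j i)]
  fin x := by
    obtain ⟨m, hm⟩ := exists_dim hd x.out.1 x.out.2
    refine ⟨m, ev_ext Y g fun i => ?_⟩
    rw [ev_d, ← ev_out]
    exact OmegaCat.dimLT_succ.1 ((hm i).mono m.le_succ)

/-- Evaluation as a functor. -/
def evF (hd : ∀ γ, ∃ m, ∀ i, (Y i).DimLT m (g i γ)) (i : I) : cat hd ⟶ Y i :=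
  ⟨ev Y g i, ev_d Y g i, fun h => ev_c h i⟩

theorem cat_ext (hd : ∀ γ, ∃ m, ∀ i, (Y i).DimLT m (g i γ)) {Z : OmegaCat} (f f' : cat hd ⟶ Z)
    (h : ∀ γ, f.f (Quotient.mk _ ⟨gen γ, trivial⟩) = f'.f (Quotient.mk _ ⟨gen γ, trivial⟩)) :
    f = f' := by
  refine OmegaCat.hom_ext fun x => ?_
  induction x using Quotient.inductionOn with | _ t => ?_
  obtain ⟨t, ht⟩ := t
  induction t with
  | gen γ => exact h γ
  | d a k t ih =>
    have e : Quotient.mk (rel Y g) ⟨d a k t, ht⟩ = (cat hd).d a k (Quotient.mk _ ⟨t, ht⟩) :=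
      ev_ext Y g fun i => (ev_d Y g i a k (Quotient.mk _ ⟨t, ht⟩)).symm
    rw [e, f.map_d, f'.map_d, ih]
  | comp k s t ihs iht =>
    have c : (cat hd).d true k (Quotient.mk _ ⟨s, ht.1⟩) =
        (cat hd).d false k (Quotient.mk _ ⟨t, ht.2.1⟩) :=
      ev_ext Y g fun i => (ev_d Y g i _ k _).trans
        ((ht.2.2 i).trans (ev_d Y g i false k (Quotient.mk _ ⟨t, ht.2.1⟩)).symm)
    have e : Quotient.mk (rel Y g) ⟨comp k s t, ht⟩ =
        (cat hd).comp k (Quotient.mk _ ⟨s, ht.1⟩) (Quotient.mk _ ⟨t, ht.2.1⟩) :=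
      ev_ext Y g fun i => (ev_c c i).symm
    rw [e, f.map_comp c, f'.map_comp c, ihs, iht]

end UT

/-- The universal `n`-category with generators `G` for a class `V` of assignments. -/
theorem exists_univ (n : ℕ∞) {G : Type} (dim : G → ℕ) (V : ∀ Y : NCat n, (G → Y.obj.C) → Prop)
    (hV : ∀ Y g, V Y g → ∀ γ, Y.obj.d false (dim γ) (g γ) = g γ) :
    ∃ (U : NCat n) (u : G → U.obj.C),
      (∀ Y g, V Y g → ∃ f : U ⟶ Y, ∀ γ, f.hom.f (u γ) = g γ) ∧
      (∀ (Y : NCat n) (f f' : U ⟶ Y), (∀ γ, f.hom.f (u γ) = f'.hom.f (u γ)) → f = f') ∧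
      ∀ x y : U.obj.C, (∀ Y g (f : U ⟶ Y), V Y g → (∀ γ, f.hom.f (u γ) = g γ) →
        f.hom.f x = f.hom.f y) → x = y := by
  let I : Type 1 := Σ Y : NCat n, {g : G → Y.obj.C // V Y g}
  have hd : ∀ γ, ∃ m, ∀ i : I, i.1.obj.DimLT m (i.2.1 γ) :=
    fun γ => ⟨dim γ + 1, fun i => OmegaCat.dimLT_succ.2 (hV _ _ i.2.2 γ)⟩
  refine ⟨⟨UT.cat hd, fun k x hk => UT.ev_ext _ _ fun i =>
      (UT.ev_d _ _ i false k x).trans (i.1.property k _ hk)⟩,
    fun γ => Quotient.mk _ ⟨.gen γ, trivial⟩,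
    fun Y g h => ⟨ObjectProperty.homMk (UT.evF hd ⟨Y, g, h⟩), fun _ => rfl⟩,
    fun Y f f' h => ObjectProperty.hom_ext _ (UT.cat_ext hd _ _ h),
    fun x y h => UT.ev_ext _ _ fun i =>
      h i.1 i.2.1 (ObjectProperty.homMk (UT.evF hd i)) i.2.2 fun _ => rfl⟩

/-- The universal `n`-category under a diagram of omega-categories. -/
theorem exists_univ_diag (n : ℕ∞) {ι : Type} (A : ι → OmegaCat) (R : ∀ i j, (A i ⟶ A j) → Prop) :
    ∃ (U : NCat n) (c : ∀ i, A i ⟶ U.obj), (∀ i j φ, R i j φ → φ ≫ c j = c i) ∧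
      (∀ (Y : NCat n) (c' : ∀ i, A i ⟶ Y.obj), (∀ i j φ, R i j φ → φ ≫ c' j = c' i) →
        ∃ f : U ⟶ Y, ∀ i, c i ≫ f.hom = c' i) ∧
      ∀ (Y : NCat n) (f f' : U ⟶ Y), (∀ i, c i ≫ f.hom = c i ≫ f'.hom) → f = f' := by
  choose dim hdim using fun γ : Σ i, (A i).C => (A γ.1).fin γ.2
  obtain ⟨U, u, h1, h2, h3⟩ := exists_univ n dim (fun Y g => ∃ c' : ∀ i, A i ⟶ Y.obj,
    (∀ i j φ, R i j φ → φ ≫ c' j = c' i) ∧ ∀ i x, g ⟨i, x⟩ = (c' i).f x) (by
      rintro Y g ⟨c', -, e⟩ ⟨i, x⟩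
      rw [e, ← (c' i).map_d, hdim ⟨i, x⟩])
  have hd : ∀ i a k x, u ⟨i, (A i).d a k x⟩ = U.obj.d a k (u ⟨i, x⟩) := fun i a k x =>
    h3 _ _ fun Y g f ⟨c', _, e⟩ hf => by rw [f.hom.map_d, hf, hf, e, e, (c' i).map_d]
  refine ⟨U, fun i => ⟨fun x => u ⟨i, x⟩, hd i, fun {k x y} h =>
      h3 _ _ fun Y g f ⟨c', _, e⟩ hf => ?_⟩,
    fun i j φ hφ => OmegaCat.hom_ext fun x => h3 _ _ fun Y g f ⟨c', hc, e⟩ hf => ?_,
    fun Y c' hc => ?_, fun Y f f' h => h2 Y f f' fun γ => ?_⟩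
  · rw [f.hom.map_comp (by rw [← hd, ← hd, h]), hf, hf, hf, e, e, e, (c' i).map_comp h]
  · refine (hf ⟨j, φ.f x⟩).trans (Eq.trans ?_ (hf ⟨i, x⟩).symm)
    rw [e, e, ← hc i j φ hφ]
    rfl
  · obtain ⟨f, hf⟩ := h1 Y (fun γ => (c' γ.1).f γ.2) ⟨c', hc, fun _ _ => rfl⟩
    exact ⟨f, fun i => OmegaCat.hom_ext fun x => hf ⟨i, x⟩⟩
  · exact congrArg (fun F : A γ.1 ⟶ Y.obj => F.f γ.2) (h γ.1)

instance (n : ℕ∞) : HasColimitsOfSize.{0, 0} (NCat n) := by
  refine ⟨fun J _ => ⟨fun F => ?_⟩⟩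
  obtain ⟨U, c, h1, h2, h3⟩ := exists_univ_diag n (fun j : J => (F.obj j).obj)
    fun i j φ => ∃ e : i ⟶ j, φ = (F.map e).hom
  have h4 := fun s : Cocone F => h2 s.pt (fun j => (s.ι.app j).hom) (by
    rintro i j _ ⟨e, rfl⟩
    exact congrArg InducedCategory.Hom.hom (s.w e))
  choose desc hdesc using h4
  exact ⟨⟨⟨⟨U, fun j => ObjectProperty.homMk (c j), fun i j e => ObjectProperty.hom_ext _
      ((h1 i j _ ⟨e, rfl⟩).trans (Category.comp_id _).symm)⟩,
    desc, fun s j => ObjectProperty.hom_ext _ (hdesc s j), fun s m hm => h3 _ _ _ fun j =>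
      (congrArg InducedCategory.Hom.hom (hm j)).trans (hdesc s j).symm⟩⟩⟩

theorem univ_closed {X Y Z : OmegaCat} (f : X ⟶ Z) (g : Y ⟶ Z) :
    (X.prod Y).Closed fun p => f.f p.1 = g.f p.2 :=
  ⟨fun a k p h => (f.map_d a k p.1).trans ((congrArg _ h).trans (g.map_d a k p.2).symm),
    fun k _ _ e h h' => (f.map_comp (congrArg Prod.fst e)).trans
      ((congrArg₂ (Z.comp k) h h').trans (g.map_comp (congrArg Prod.snd e)).symm)⟩

/-- First projection. -/
def univFst (X Y : OmegaCat) : X.prod Y ⟶ X := ⟨Prod.fst, fun _ _ _ => rfl, fun _ => rfl⟩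

/-- Second projection. -/
def univSnd (X Y : OmegaCat) : X.prod Y ⟶ Y := ⟨Prod.snd, fun _ _ _ => rfl, fun _ => rfl⟩

/-- Pairing. -/
def univLift {W X Y : OmegaCat} (f : W ⟶ X) (g : W ⟶ Y) : W ⟶ X.prod Y :=
  ⟨fun w => (f.f w, g.f w), fun a k w => Prod.ext (f.map_d a k w) (g.map_d a k w),
    fun e => Prod.ext (f.map_comp e) (g.map_comp e)⟩

theorem univ_hasPullback {n : ℕ∞} {X Y Z : NCat n} (f : X ⟶ Z) (g : Y ⟶ Z) :
    HasLimit (cospan f g) := by
  let P : NCat n := ⟨OmegaCat.sub (univ_closed f.hom g.hom), OmegaCat.sub_ncat _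
    fun k x hk => Prod.ext (X.property k x.1 hk) (Y.property k x.2 hk)⟩
  let p : P ⟶ X := ObjectProperty.homMk (OmegaCat.subι _ ≫ univFst _ _)
  let q : P ⟶ Y := ObjectProperty.homMk (OmegaCat.subι _ ≫ univSnd _ _)
  have w : p ≫ f = q ≫ g := ObjectProperty.hom_ext _ (OmegaCat.hom_ext fun x => x.2)
  exact ⟨⟨⟨PullbackCone.mk p q w, PullbackCone.IsLimit.mk w
    (fun s => ObjectProperty.homMk (OmegaCat.subLift _ (univLift s.fst.hom s.snd.hom)
      fun y => congrArg (fun F : s.pt ⟶ Z => F.hom.f y) s.condition))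
    (fun _ => rfl) (fun _ => rfl) fun s m h1 h2 => ObjectProperty.hom_ext _
      (OmegaCat.hom_ext fun y => Subtype.ext (Prod.ext
        (congrArg (fun F : s.pt ⟶ X => F.hom.f y) h1)
        (congrArg (fun F : s.pt ⟶ Y => F.hom.f y) h2)))⟩⟩⟩

instance (n : ℕ∞) : HasFiniteLimits (NCat n) := by
  have : HasTerminal (NCat n) := (IsTerminal.ofUniqueHom (Y := (⟨OmegaCat.pt, fun _ _ _ => rfl⟩ :
    NCat n)) (fun X => ObjectProperty.homMk X.obj.toPt) fun _ _ => rfl).hasTerminal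
  have := @univ_hasPullback n
  have : HasPullbacks (NCat n) := hasPullbacks_of_hasLimit_cospan _
  exact hasFiniteLimits_of_hasTerminal_and_pullbacks

theorem streetNerve_isRightAdjoint (n : ℕ∞) : (streetNerve n).IsRightAdjoint := by
  have h : ∀ K : SSet.{0}, ∃ (U : NCat n) (η : K ⟶ (streetNerve n).obj U), ∀ Y : NCat n,
      Function.Bijective fun f : U ⟶ Y => η ≫ (streetNerve n).map f := by
    intro K
    obtain ⟨U, c, h1, h2, h3⟩ := exists_univ_diag n
      (fun i : Σ m : SimplexCategoryᵒᵖ, K.obj m => oriental.obj i.1.unop)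
      fun i j φ => ∃ θ : j.1 ⟶ i.1, K.map θ j.2 = i.2 ∧ φ = oriental.map θ.unop
    refine ⟨U, ⟨fun m => ↾fun x => c ⟨m, x⟩, fun m m' θ => ?_⟩, fun Y => ⟨fun f f' e => ?_,
      fun g => ?_⟩⟩
    · ext x
      exact (h1 ⟨m', K.map θ x⟩ ⟨m, x⟩ _ ⟨θ, rfl, rfl⟩).symm
    · exact h3 Y f f' fun i =>
        congrArg (fun F : K ⟶ (streetNerve n).obj Y => F.app i.1 i.2) e
    · obtain ⟨f, hf⟩ := h2 Y (fun i => g.app i.1 i.2) (by
        rintro i j _ ⟨θ, e, rfl⟩
        rw [← e]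
        exact (congrArg (fun F : K.obj j.1 ⟶ _ => F j.2) (g.naturality θ)).symm)
      refine ⟨f, ?_⟩
      ext m x
      exact hf ⟨m, x⟩
  choose U η hη using h
  exact (Adjunction.adjunctionOfEquivLeft (fun K Y => Equiv.ofBijective _ (hη K Y))
    fun K Y Y' g f => by
      simp only [Equiv.ofBijective_apply, Functor.map_comp, Category.assoc]).isRightAdjoint

/-- A colimit is generated by the images of the cocone maps. -/
theorem colim_gen {n : ℕ∞} {J : Type} [Category.{0} J] {F : J ⥤ NCat n} {c : Cocone F}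
    (hc : IsColimit c) {S : c.pt.obj.C → Prop} (hS : c.pt.obj.Closed S)
    (h : ∀ j x, S ((c.ι.app j).hom.f x)) (x : c.pt.obj.C) : S x := by
  let P : NCat n := ⟨OmegaCat.sub hS, OmegaCat.sub_ncat hS c.pt.property⟩
  let s : Cocone F := ⟨P, fun j => ObjectProperty.homMk (OmegaCat.subLift hS (c.ι.app j).hom (h j)),
    fun i j e => ObjectProperty.hom_ext _ (OmegaCat.hom_ext fun y => Subtype.ext
      (congrArg (fun G : F.obj i ⟶ c.pt => G.hom.f y) (c.w e)))⟩
  let p : P ⟶ c.pt := ObjectProperty.homMk (OmegaCat.subι hS)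
  have e : hc.desc s ≫ p = 𝟙 _ := hc.hom_ext fun j => by
    rw [hc.fac_assoc]
    rfl
  have e' : ((hc.desc s).hom.f x).1 = x := congrArg (fun G : c.pt ⟶ c.pt => G.hom.f x) e
  exact e' ▸ ((hc.desc s).hom.f x).2

end Vale.Agent.P213
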