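import Vale.Agent.P213.Fam
import Vale.Agent.P213.Univ

/-! Chains of sieve inclusions. -/

open CategoryTheory Limits Opposite Simplicial MonoidalCategory SSet

set_option backward.isDefEq.respectTransparency false

noncomputable section

namespace Vale.Agent.P213

variable {n : ℕ∞}

/-- Inclusions of sieves. -/
def SI (n : ℕ∞) : MorphismProperty (NCat n) := fun _ _ j => OmegaCat.SieveIncl j.hom

instance : (SI n).IsMultiplicative where
  id_mem X := OmegaCat.SieveIncl.id X.obj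
  comp_mem _ _ hf hg := OmegaCat.SieveIncl.comp hf hg

theorem chain_iso {X Y : NCat n} (e : X ≅ Y) : SI n e.hom := by
  have h1 : ∀ x, e.inv.hom.f (e.hom.hom.f x) = x := fun x =>
    congrArg (fun φ : X ⟶ X => φ.hom.f x) e.hom_inv_id
  have h2 : ∀ y, e.hom.hom.f (e.inv.hom.f y) = y := fun y =>
    congrArg (fun φ : Y ⟶ Y => φ.hom.f y) e.inv_hom_id
  exact ⟨Function.LeftInverse.injective h1,
    ⟨fun y => ⟨fun _ => ⟨_, h2 _⟩, fun _ => ⟨_, h2 _⟩⟩, fun y _ => ⟨_, h2 _⟩⟩⟩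

instance : (SI n).RespectsIso :=
  MorphismProperty.RespectsIso.mk _ (fun e _ hf => (SI n).comp_mem _ _ (chain_iso e) hf)
    (fun e _ hf => (SI n).comp_mem _ _ hf (chain_iso e))

section

variable {J : Type} [LinearOrder J] {F : J ⥤ NCat n}

theorem chain_mm {i k l : J} (a : i ⟶ k) (b : k ⟶ l) (d : i ⟶ l) (x : (F.obj i).obj.C) :
    (F.map b).hom.f ((F.map a).hom.f x) = (F.map d).hom.f x := by
  rw [Subsingleton.elim d (a ≫ b), F.map_comp]
  rfl

theorem chain_w (c : Cocone F) {i k : J} (a : i ⟶ k) (x : (F.obj i).obj.C) :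
    (c.ι.app k).hom.f ((F.map a).hom.f x) = (c.ι.app i).hom.f x :=
  congrArg (fun φ : F.obj i ⟶ c.pt => φ.hom.f x) (c.w a)

/-- Two cells of a chain become equal later. -/
def ChainRel (F : J ⥤ NCat n) {r s : J} (z : (F.obj r).obj.C) (y : (F.obj s).obj.C) : Prop :=
  ∃ (t : J) (a : r ⟶ t) (b : s ⟶ t), (F.map a).hom.f z = (F.map b).hom.f y

theorem chainRel_iff (hF : ∀ {i k : J} (a : i ⟶ k), SI n (F.map a)) {r s t : J} (a : r ⟶ t)
    (b : s ⟶ t) (z : (F.obj r).obj.C) (y : (F.obj s).obj.C) :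
    ChainRel F z y ↔ (F.map a).hom.f z = (F.map b).hom.f y := by
  refine ⟨fun ⟨t', a', b', h⟩ => ?_, fun h => ⟨t, a, b, h⟩⟩
  apply (hF (homOfLE (le_max_left t t'))).inj
  have u : t' ⟶ max t t' := homOfLE (le_max_right t t')
  rw [chain_mm a _ (a' ≫ u), chain_mm b _ (b' ≫ u), ← chain_mm a' u, ← chain_mm b' u, h]

theorem chain_kappa (hF : ∀ {i k : J} (a : i ⟶ k), SI n (F.map a)) {r : J}
    (Q : OmegaCat.ConeData (F.obj r).obj) (s : J) :
    ∃ κ : (F.obj s).obj ⟶ Q.Q, ∀ y z, κ.f y = Q.ι.f z ↔ ChainRel F z y := by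
  have a : r ⟶ max r s := homOfLE (le_max_left r s)
  have b : s ⟶ max r s := homOfLE (le_max_right r s)
  have hS := (hF a).sieve.preimage (F.map b).hom
  obtain ⟨φ, hφ⟩ := OmegaCat.exists_lift_of_injective (F.map a).hom (hF a).inj
    (OmegaCat.subι hS.closed ≫ (F.map b).hom) fun z => z.2
  have hφ' : ∀ y hy, (F.map a).hom.f (φ.f ⟨y, hy⟩) = (F.map b).hom.f y := fun y hy =>
    congrArg (fun ψ : OmegaCat.sub hS.closed ⟶ _ => ψ.f ⟨y, hy⟩) hφ
  obtain ⟨κ, h1, h2⟩ := Q.desc hS φ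
  refine ⟨κ, fun y z => ?_⟩
  rw [chainRel_iff hF a b]
  constructor
  · intro h
    have hy := h2 y z h
    rw [h1 y hy] at h
    rw [← Q.incl.inj h, hφ' y hy]
  · intro h
    rw [h1 y ⟨z, h⟩]
    congr 1
    apply (hF a).inj
    rw [hφ', h]

theorem chain_desc (hn : 1 ≤ n) (hF : ∀ {i k : J} (a : i ⟶ k), SI n (F.map a)) {c : Cocone F}
    (hc : IsColimit c) {r : J} (Q : OmegaCat.ConeData (F.obj r).obj) :
    ∃ κ : c.pt.obj ⟶ Q.Q, ∀ s y z, κ.f ((c.ι.app s).hom.f y) = Q.ι.f z ↔ ChainRel F z y := by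
  choose κ hκ using chain_kappa hF Q
  let c' : Cocone F :=
    { pt := ⟨Q.Q, Q.ncat n hn (F.obj r).property⟩
      ι :=
        { app := fun s => ObjectProperty.homMk (κ s)
          naturality := fun s s' a => by
            apply ObjectProperty.hom_ext
            refine Q.ext ((F.map a).hom ≫ κ s') (κ s) fun y z => ?_
            have u : r ⟶ max r s' := homOfLE (le_max_left r s')
            have v : s' ⟶ max r s' := homOfLE (le_max_right r s')
            rw [OmegaCat.comp_f, hκ, hκ, chainRel_iff hF u v, chainRel_iff hF u (a ≫ v),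
              chain_mm a v (a ≫ v)] } }
  refine ⟨(hc.desc c').hom, fun s y z => ?_⟩
  rw [← hκ]
  have : (hc.desc c').hom.f ((c.ι.app s).hom.f y) = (κ s).f y :=
    congrArg (fun φ : F.obj s ⟶ c'.pt => φ.hom.f y) (hc.fac c' s)
  rw [this]

theorem chain_inj (hn : 1 ≤ n) (hF : ∀ {i k : J} (a : i ⟶ k), SI n (F.map a)) {c : Cocone F}
    (hc : IsColimit c) (r : J) : Function.Injective (c.ι.app r).hom.f := by
  obtain ⟨Q⟩ := OmegaCat.nonempty_cone (F.obj r).obj
  obtain ⟨κ, hκ⟩ := chain_desc hn hF hc Q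
  intro y y' h
  have h1 := (hκ r y y).2 ⟨r, 𝟙 r, 𝟙 r, rfl⟩
  rw [h, hκ, chainRel_iff hF (𝟙 r) (𝟙 r)] at h1
  exact (hF (𝟙 r)).inj h1

theorem chain_surj (hn : 1 ≤ n) (hF : ∀ {i k : J} (a : i ⟶ k), SI n (F.map a)) {c : Cocone F}
    (hc : IsColimit c) (x : c.pt.obj.C) : ∃ s y, (c.ι.app s).hom.f y = x := by
  refine colim_gen hc (S := fun x => ∃ s y, (c.ι.app s).hom.f y = x) ⟨?_, ?_⟩
    (fun j x => ⟨j, x, rfl⟩) x
  · rintro a k _ ⟨s, y, rfl⟩
    exact ⟨s, _, (c.ι.app s).hom.map_d a k y⟩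
  · rintro k _ _ e ⟨s, y, rfl⟩ ⟨s', y', rfl⟩
    have u : s ⟶ max s s' := homOfLE (le_max_left s s')
    have v : s' ⟶ max s s' := homOfLE (le_max_right s s')
    rw [← chain_w c u, ← chain_w c v] at e ⊢
    refine ⟨max s s', _, (c.ι.app (max s s')).hom.map_comp ?_⟩
    apply chain_inj hn hF hc
    rw [OmegaCat.Hom.map_d, OmegaCat.Hom.map_d]
    exact e

theorem chain_SI (hn : 1 ≤ n) (hF : ∀ {i k : J} (a : i ⟶ k), SI n (F.map a)) {c : Cocone F}
    (hc : IsColimit c) (r : J) : SI n (c.ι.app r) := by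
  obtain ⟨Q⟩ := OmegaCat.nonempty_cone (F.obj r).obj
  obtain ⟨κ, hκ⟩ := chain_desc hn hF hc Q
  have e : (fun x => ∃ z, (c.ι.app r).hom.f z = x) = fun x => ∃ z, Q.ι.f z = κ.f x := by
    funext x
    apply propext
    constructor
    · rintro ⟨z, rfl⟩
      exact ⟨z, ((hκ r z z).2 ⟨r, 𝟙 r, 𝟙 r, rfl⟩).symm⟩
    · rintro ⟨z, hz⟩
      obtain ⟨s, y, rfl⟩ := chain_surj hn hF hc x
      obtain ⟨t, a, b, h⟩ := (hκ s y z).1 hz.symm
      exact ⟨z, by rw [← chain_w c a, ← chain_w c b, h]⟩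
  refine ⟨chain_inj hn hF hc r, ?_⟩
  have := Q.incl.sieve.preimage κ
  rw [← e] at this
  exact this

end

theorem chain_colim (hn : 1 ≤ n) {J : Type} [LinearOrder J] [Nonempty J] {F : J ⥤ NCat n}
    (hF : ∀ {i k : J} (a : i ⟶ k), SI n (F.map a)) {c : Cocone F} (hc : IsColimit c) :
    (∀ i, SI n (c.ι.app i)) ∧ Nonempty (IsColimit ((streetNerve n).mapCocone c)) := by
  refine ⟨chain_SI hn hF hc, ⟨evaluationJointlyReflectsColimits _ fun m => ?_⟩⟩
  refine Types.FilteredColimit.isColimitOf' _ _ (fun σ => ?_) fun i σ τ h => ⟨i, 𝟙 i, ?_⟩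
  · obtain ⟨⟨m⟩⟩ := m
    let σ' : Ori m ⟶ c.pt.obj := σ
    obtain ⟨s, y, hy⟩ := chain_surj hn hF hc (σ'.f (vtx (Fin.last m)))
    obtain ⟨τ, hτ⟩ := OmegaCat.exists_lift_of_injective (c.ι.app s).hom (chain_inj hn hF hc s) σ'
      (sieve_of_last (chain_SI hn hF hc s).sieve σ' ⟨y, hy⟩)
    exact ⟨s, τ, hτ.symm⟩
  · congr 1
    let σ' : oriental.obj m.unop ⟶ (F.obj i).obj := σ
    let τ' : oriental.obj m.unop ⟶ (F.obj i).obj := τ
    have h' : σ' ≫ (c.ι.app i).hom = τ' ≫ (c.ι.app i).hom := h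
    change σ' = τ'
    exact OmegaCat.hom_ext fun u => chain_inj hn hF hc i
      (congrArg (fun φ : oriental.obj m.unop ⟶ c.pt.obj => φ.f u) h')

/-- In a transfinite composition of sieve inclusions all maps are sieve inclusions. -/
theorem chain_map (hn : 1 ≤ n) {J : Type} [LinearOrder J] [SuccOrder J] [OrderBot J]
    [WellFoundedLT J] (F : J ⥤ NCat n) [F.IsWellOrderContinuous]
    (hF : ∀ i, ¬IsMax i → SI n (F.map (homOfLE (Order.le_succ i)))) {i k : J} (a : i ⟶ k) :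
    SI n (F.map a) := by
  induction k using SuccOrder.limitRecOn generalizing i with
  | isMin k hk =>
    obtain rfl : i = k := le_antisymm a.le (hk a.le)
    rw [Subsingleton.elim a (𝟙 i), F.map_id]
    exact (SI n).id_mem _
  | succ k hk ih =>
    rcases a.le.eq_or_lt with rfl | h
    · rw [Subsingleton.elim a (𝟙 _), F.map_id]
      exact (SI n).id_mem _
    · have h' : i ≤ k := (Order.lt_succ_iff_of_not_isMax hk).1 h
      rw [Subsingleton.elim a (homOfLE h' ≫ homOfLE (Order.le_succ k)), F.map_comp]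
      exact (SI n).comp_mem _ _ (ih _) (hF k hk)
  | isSuccLimit k hk ih =>
    rcases a.le.eq_or_lt with rfl | h
    · rw [Subsingleton.elim a (𝟙 _), F.map_id]
      exact (SI n).id_mem _
    · exact chain_SI hn (fun {u v} b => ih v.1 v.2 _) (F.isColimitOfIsWellOrderContinuous k hk)
        ⟨i, h⟩

theorem chain_cont (hn : 1 ≤ n) {J : Type} [LinearOrder J] [SuccOrder J] [OrderBot J]
    [WellFoundedLT J] (F : J ⥤ NCat n) [F.IsWellOrderContinuous]
    (hF : ∀ i, ¬IsMax i → SI n (F.map (homOfLE (Order.le_succ i)))) :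
    (F ⋙ streetNerve n).IsWellOrderContinuous := by
  refine ⟨fun m hm => ?_⟩
  have : Nonempty (Set.Iio m) := ⟨⟨⊥, hm.bot_lt⟩⟩
  have h := chain_colim hn (F := (Set.principalSegIio m).monotone.functor ⋙ F)
    (fun {u v} b => chain_map hn F hF ((Set.principalSegIio m).monotone.functor.map b))
    (F.isColimitOfIsWellOrderContinuous m hm)
  exact h.2

end Vale.Agent.P213
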