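import Vale.Agent.P213.OC

/-! Adjoining a terminal object. -/

open CategoryTheory

set_option backward.isDefEq.respectTransparency false

noncomputable section

namespace Vale.Agent.P213

namespace OmegaCat

/-- An omega-category `Q` obtained from `Z` by adjoining a strictly terminal object. -/
structure ConeData (Z : OmegaCat) where
  Q : OmegaCat
  ι : Z ⟶ Q
  incl : SieveIncl ι
  ncat : ∀ n : ℕ∞, 1 ≤ n → IsNCat n Z → IsNCat n Q
  ext : ∀ {Y : OmegaCat} (F G : Y ⟶ Q), (∀ y z, F.f y = ι.f z ↔ G.f y = ι.f z) → F = G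
  desc : ∀ {Y : OmegaCat} {S : Y.C → Prop} (h : Y.IsSieve S) (φ : sub h.closed ⟶ Z),
    ∃ F : Y ⟶ Q, (∀ y (hy : S y), F.f y = ι.f (φ.f ⟨y, hy⟩)) ∧ ∀ y z, F.f y = ι.f z → S y

/-- Cells of the cone. -/
inductive CnC (Z : OmegaCat) : Type
  | old (x : Z.C)
  | top
  | arr (o : {z : Z.C // Z.d false 0 z = z})

namespace CnC

variable {Z : OmegaCat}

/-- Sources and targets in the cone. -/
def d (a : Bool) (k : ℕ) : CnC Z → CnC Z
  | old x => old (Z.d a k x)
  | top => top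
  | arr o => if k = 0 then (if a = true then top else old o.1) else arr o

/-- Composition in the cone. -/
def cp (k : ℕ) : CnC Z → CnC Z → CnC Z
  | old x, old y => old (Z.comp k x y)
  | old x, arr _ => arr ⟨Z.d false 0 x, Z.d_ge _ le_rfl⟩
  | old x, top => old x
  | top, _ => top
  | arr o, _ => arr o

@[simp] theorem d_old (a : Bool) (k : ℕ) (x : Z.C) : d a k (old x) = old (Z.d a k x) := rfl
@[simp] theorem d_top (a : Bool) (k : ℕ) : d a k (top : CnC Z) = top := rfl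
@[simp] theorem d_arr_t (o) : d true 0 (arr o : CnC Z) = top := rfl
@[simp] theorem d_arr_f (o) : d false 0 (arr o : CnC Z) = old o.1 := rfl
@[simp] theorem d_arr_s (a : Bool) (k : ℕ) (o) : d a (k + 1) (arr o : CnC Z) = arr o := rfl
@[simp] theorem cp_oo (k : ℕ) (x y : Z.C) : cp k (old x) (old y) = old (Z.comp k x y) := rfl
@[simp] theorem cp_oa (k : ℕ) (x : Z.C) (o) :
    cp k (old x) (arr o) = arr ⟨Z.d false 0 x, Z.d_ge _ le_rfl⟩ := rfl
@[simp] theorem cp_t (k : ℕ) (y : CnC Z) : cp k top y = top := by cases y <;> rfl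
@[simp] theorem cp_a (k : ℕ) (o) (y : CnC Z) : cp k (arr o) y = arr o := by cases y <;> rfl

theorem ob_d (o : {z : Z.C // Z.d false 0 z = z}) (a : Bool) (k : ℕ) : Z.d a k o.1 = o.1 :=
  d_of_d o.2 k.zero_le

theorem cmp_cases {n : ℕ} {x y : CnC Z} (h : d true n x = d false n y) :
    (∃ a b, x = old a ∧ y = old b ∧ Z.d true n a = Z.d false n b) ∨
    (∃ a o, n = 0 ∧ x = old a ∧ y = arr o ∧ Z.d true 0 a = o.1) ∨ (x = top ∧ y = top) ∨
    (∃ o, n = 0 ∧ x = arr o ∧ y = top) ∨ ∃ o k, n = k + 1 ∧ x = arr o ∧ y = arr o := by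
  rcases n with _ | n <;> rcases x with x | _ | x <;> rcases y with y | _ | y <;> simp_all

theorem d_comp_zero {n : ℕ} {x y : Z.C} (h : Z.d true n x = Z.d false n y) :
    Z.d false 0 (Z.comp n x y) = Z.d false 0 x := by
  rcases n with _ | n
  · exact Z.src_comp h
  · exact d_comp_lt h n.succ_pos

/-- The cone. -/
@[implicit_reducible] def cone (Z : OmegaCat) : OmegaCat where
  C := CnC Z
  d := d
  comp := cp
  d_lt {a b m n} x h := by
    obtain ⟨n, rfl⟩ := Nat.exists_eq_add_one.2 (Nat.zero_lt_of_lt h)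
    rcases x with x | _ | o
    · exact congrArg old (Z.d_lt x h)
    · rfl
    · rfl
  d_ge {a b m n} x h := by
    rcases x with x | _ | o
    · exact congrArg old (Z.d_ge x h)
    · rfl
    · rcases n with _ | n
      · cases a
        · exact congrArg old (ob_d o b m)
        · rfl
      · obtain ⟨m, rfl⟩ := Nat.exists_eq_add_one.2 (Nat.zero_lt_of_lt h)
        rfl
  id_comp n x := by
    rcases x with x | _ | o
    · exact congrArg old (Z.id_comp n x)
    · rfl
    · rcases n with _ | n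
      · exact congrArg arr (Subtype.ext o.2)
      · rfl
  comp_id n x := by
    rcases x with x | _ | o
    · exact congrArg old (Z.comp_id n x)
    · rfl
    · exact cp_a _ _ _
  src_comp h := by
    rcases cmp_cases h with ⟨a, b, rfl, rfl, e⟩ | ⟨a, o, rfl, rfl, rfl, e⟩ | ⟨rfl, rfl⟩ |
      ⟨o, rfl, rfl, rfl⟩ | ⟨o, k, rfl, rfl, rfl⟩
    · exact congrArg old (Z.src_comp e)
    all_goals rfl
  tgt_comp h := by
    rcases cmp_cases h with ⟨a, b, rfl, rfl, e⟩ | ⟨a, o, rfl, rfl, rfl, e⟩ | ⟨rfl, rfl⟩ |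
      ⟨o, rfl, rfl, rfl⟩ | ⟨o, k, rfl, rfl, rfl⟩
    · exact congrArg old (Z.tgt_comp e)
    all_goals rfl
  d_comp {a m n x y} h k := by
    rcases cmp_cases h with ⟨x, y, rfl, rfl, e⟩ | ⟨x, o, rfl, rfl, rfl, e⟩ | ⟨rfl, rfl⟩ |
      ⟨o, rfl, rfl, rfl⟩ | ⟨o, l, rfl, rfl, rfl⟩
    · exact congrArg old (Z.d_comp e k)
    · obtain ⟨m, rfl⟩ := Nat.exists_eq_add_one.2 (Nat.pos_of_ne_zero k)
      exact congrArg arr (Subtype.ext (Z.d_lt x m.succ_pos).symm)
    · rfl
    · obtain ⟨m, rfl⟩ := Nat.exists_eq_add_one.2 (Nat.pos_of_ne_zero k)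
      rfl
    · rcases m with _ | m
      · cases a
        · have := Z.id_comp (l + 1) o.1
          rw [ob_d] at this
          exact congrArg old this.symm
        · rfl
      · rfl
  assoc {n x y z} h k := by
    rcases cmp_cases h with ⟨x, y, rfl, rfl, e⟩ | ⟨x, o, rfl, rfl, rfl, e⟩ | ⟨rfl, rfl⟩ |
      ⟨o, rfl, rfl, rfl⟩ | ⟨o, l, rfl, rfl, rfl⟩
    · rcases z with z | _ | o
      · exact congrArg old (Z.assoc e (old.inj k))
      · exact absurd k (by simp)
      · exact congrArg arr (Subtype.ext (d_comp_zero e))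
    all_goals simp
  interchange {m n x y z w} l h k j := by
    obtain ⟨n, rfl⟩ := Nat.exists_eq_add_one.2 (Nat.zero_lt_of_lt l)
    rcases cmp_cases h with ⟨x, y, rfl, rfl, e⟩ | ⟨x, o, e0, -⟩ | ⟨rfl, rfl⟩ |
      ⟨o, e0, -⟩ | ⟨o, l, -, rfl, rfl⟩
    · rcases cmp_cases k with ⟨z, w, rfl, rfl, e'⟩ | ⟨x, o, e0, -⟩ | ⟨rfl, rfl⟩ |
        ⟨o, e0, -⟩ | ⟨o, l, -, rfl, rfl⟩
      · exact congrArg old (Z.interchange l e e' (old.inj j))
      · omega
      · exact absurd j (by simp)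
      · omega
      · exact congrArg arr (Subtype.ext (d_comp_zero e))
    · omega
    · simp
    · omega
    · simp
  fin x := by
    rcases x with x | _ | o
    · exact (Z.fin x).imp fun n e => congrArg old e
    · exact ⟨0, rfl⟩
    · exact ⟨1, rfl⟩

theorem eq_of_src {x y : CnC Z} (hx : ∀ z, x ≠ old z) (hy : ∀ z, y ≠ old z)
    (h : ∀ z, d false 0 x = old z ↔ d false 0 y = old z) : x = y := by
  rcases x with x | _ | o
  · exact absurd rfl (hx x)
  · rcases y with y | _ | o'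
    · exact absurd rfl (hy y)
    · rfl
    · exact absurd ((h o'.1).2 rfl) (by simp)
  · rcases y with y | _ | o'
    · exact absurd rfl (hy y)
    · exact absurd ((h o.1).1 rfl) (by simp)
    · exact congrArg arr (Subtype.ext (old.inj ((h o'.1).2 rfl)))

section Desc

variable {Y : OmegaCat} {S : Y.C → Prop} (h : Y.IsSieve S) (φ : sub h.closed ⟶ Z)

open Classical in
/-- The value on cells outside the sieve. -/
def outF (y : Y.C) : CnC Z :=
  if h0 : S (Y.d false 0 y) then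
    arr ⟨φ.f ⟨Y.d false 0 y, h0⟩, (φ.map_d false 0 _).symm.trans
      (congrArg φ.f (Subtype.ext (Y.d_ge y le_rfl)))⟩
  else top

open Classical in
/-- The extension of a functor on a sieve. -/
def descF (y : Y.C) : CnC Z := if hy : S y then old (φ.f ⟨y, hy⟩) else outF h φ y

theorem descF_pos {y : Y.C} (hy : S y) : descF h φ y = old (φ.f ⟨y, hy⟩) := dif_pos hy

theorem descF_neg {y : Y.C} (hy : ¬ S y) : descF h φ y = outF h φ y := dif_neg hy

theorem outF_congr {y y' : Y.C} (e : Y.d false 0 y = Y.d false 0 y') :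
    outF h φ y = outF h φ y' := by
  unfold outF
  by_cases k : S (Y.d false 0 y)
  · rw [dif_pos k, dif_pos (e ▸ k)]
    exact congrArg arr (Subtype.ext (congrArg φ.f (Subtype.ext e)))
  · rw [dif_neg k, dif_neg (e ▸ k)]

theorem outF_neg {y : Y.C} (hy : ¬ S (Y.d false 0 y)) : outF h φ y = top := dif_neg hy

theorem outF_pos {y : Y.C} (hy : S (Y.d false 0 y)) :
    ∃ e, outF h φ y = arr ⟨φ.f ⟨Y.d false 0 y, hy⟩, e⟩ := ⟨_, dif_pos hy⟩

theorem outF_ne (y : Y.C) (z : Z.C) : outF h φ y ≠ old z := by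
  unfold outF
  split_ifs <;> simp

theorem descF_d (a : Bool) (n : ℕ) (y : Y.C) : descF h φ (Y.d a n y) = d a n (descF h φ y) := by
  by_cases hy : S y
  · rw [descF_pos h φ hy, descF_pos h φ (h.closed.d a n y hy)]
    exact congrArg old (φ.map_d a n ⟨y, hy⟩)
  rw [descF_neg h φ hy]
  rcases n with _ | n
  · cases a
    · by_cases h0 : S (Y.d false 0 y)
      · obtain ⟨e, e'⟩ := outF_pos h φ h0
        rw [descF_pos h φ h0, e']
        rfl
      · rw [descF_neg h φ h0, outF_neg h φ h0, outF_neg h φ (by rwa [Y.d_ge y le_rfl])]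
        rfl
    · have h1 : ¬ S (Y.d true 0 y) := fun k => hy ((h.tgt y).2 k)
      rw [descF_neg h φ h1, outF_neg h φ (by rwa [Y.d_ge y le_rfl])]
      unfold outF
      split_ifs <;> rfl
  · have h1 : ¬ S (Y.d a (n + 1) y) := fun k => hy (by
      rw [h.tgt] at k ⊢
      rwa [Y.d_lt y n.succ_pos] at k)
    rw [descF_neg h φ h1, outF_congr h φ (Y.d_lt y n.succ_pos)]
    unfold outF
    split_ifs <;> rfl

theorem descF_comp {n : ℕ} {x y : Y.C} (e : Y.d true n x = Y.d false n y) :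
    descF h φ (Y.comp n x y) = cp n (descF h φ x) (descF h φ y) := by
  have t : Y.d true 0 (Y.comp n x y) = Y.d true 0 y := by
    rcases n with _ | n
    · exact Y.tgt_comp e
    · exact (d_comp_lt e n.succ_pos).trans (d_lt_eq e n.succ_pos)
  by_cases hy : S y
  · have hx : S x := by
      rcases n with _ | n
      · rw [h.tgt, e]
        exact h.src y hy
      · rw [h.tgt, d_lt_eq e n.succ_pos]
        exact (h.tgt y).1 hy
    rw [descF_pos h φ hx, descF_pos h φ hy, descF_pos h φ (h.closed.comp n x y e hx hy)]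
    refine congrArg old ((congrArg φ.f (Subtype.ext ?_)).trans
      (φ.map_comp (n := n) (x := ⟨x, hx⟩) (y := ⟨y, hy⟩) (Subtype.ext e)))
    exact (h.closed.cp_val (x := ⟨x, hx⟩) (y := ⟨y, hy⟩) e).symm
  have hc : ¬ S (Y.comp n x y) := fun k => hy (by
    rw [h.tgt] at k ⊢
    rwa [t] at k)
  rw [descF_neg h φ hc, descF_neg h φ hy, outF_congr h φ (d_comp_zero e)]
  by_cases hx : S x
  · rcases n with _ | n
    · obtain ⟨e1, e2⟩ := outF_pos h φ (y := y) (e ▸ (h.tgt x).1 hx)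
      obtain ⟨e3, e4⟩ := outF_pos h φ (h.src x hx)
      rw [descF_pos h φ hx, e2, e4]
      exact congrArg arr (Subtype.ext (φ.map_d false 0 ⟨x, hx⟩))
    · refine absurd ?_ hy
      rw [h.tgt, ← d_lt_eq e n.succ_pos]
      exact (h.tgt x).1 hx
  · rw [descF_neg h φ hx]
    unfold outF
    split_ifs <;> simp

end Desc

end CnC

theorem nonempty_cone (Z : OmegaCat) : Nonempty (ConeData Z) := by
  refine ⟨⟨CnC.cone Z, ⟨CnC.old, fun _ _ _ => rfl, fun _ => rfl⟩,
    ⟨fun _ _ e => CnC.old.inj e, fun x => ?_, fun x hx => ?_⟩, fun n hn hZ k x hk => ?_,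
    fun F G h => hom_ext fun y => ?_, fun h φ => ⟨⟨CnC.descF h φ, CnC.descF_d h φ,
      CnC.descF_comp h φ⟩, fun y hy => CnC.descF_pos h φ hy, fun y z e => ?_⟩⟩⟩
  · rcases x with x | _ | o
    · exact iff_of_true ⟨x, rfl⟩ ⟨_, rfl⟩
    · rfl
    · exact iff_of_false (fun ⟨_, e⟩ => by cases e) fun ⟨_, e⟩ => by cases e
  · obtain ⟨x, rfl⟩ := hx
    exact ⟨_, rfl⟩
  · have h1 : 1 ≤ k := by exact_mod_cast hn.trans hk
    obtain ⟨k, rfl⟩ := Nat.exists_eq_add_one.2 h1
    rcases x with x | _ | o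
    · exact congrArg CnC.old (hZ _ x hk)
    · rfl
    · rfl
  · by_cases e : ∃ z, F.f y = CnC.old z
    · obtain ⟨z, e⟩ := e
      exact e.trans ((h y z).1 e).symm
    · refine CnC.eq_of_src (fun z k => e ⟨z, k⟩) (fun z k => e ⟨z, (h y z).2 k⟩) fun z => ?_
      have := h (_root_.Vale.Agent.P213.OmegaCat.d _ false 0 y) z
      rw [F.map_d, G.map_d] at this
      exact this
  · by_contra hy
    exact CnC.outF_ne h φ y z ((CnC.descF_neg h φ hy).symm.trans e)

theorem SieveIncl.id (X : OmegaCat) : SieveIncl (𝟙 X) :=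
  ⟨fun _ _ e => e, fun _ => iff_of_true ⟨_, rfl⟩ ⟨_, rfl⟩, fun _ _ => ⟨_, rfl⟩⟩

theorem SieveIncl.comp {X Y Z : OmegaCat} {i : X ⟶ Y} {j : Y ⟶ Z} (hi : SieveIncl i)
    (hj : SieveIncl j) : SieveIncl (i ≫ j) := by
  refine ⟨hj.inj.comp hi.inj, fun z => ⟨?_, ?_⟩, ?_⟩
  · rintro ⟨x, rfl⟩
    exact ⟨_, (i ≫ j).map_d true 0 x⟩
  · rintro ⟨x, e⟩
    obtain ⟨y, rfl⟩ := (hj.sieve.tgt z).2 ⟨_, e⟩
    obtain ⟨x', rfl⟩ := (hi.sieve.tgt y).2 ⟨x, hj.inj (e.trans (j.map_d true 0 y).symm)⟩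
    exact ⟨x', rfl⟩
  · rintro _ ⟨x, rfl⟩
    exact ⟨_, (i ≫ j).map_d false 0 x⟩

theorem IsSieve.sieveIncl {X : OmegaCat} {S : X.C → Prop} (h : X.IsSieve S) :
    SieveIncl (subι h.closed) := by
  have e : (fun y => ∃ x, (subι h.closed).f x = y) = S :=
    funext fun y => propext ⟨fun ⟨x, k⟩ => k ▸ x.2, fun k => ⟨⟨y, k⟩, rfl⟩⟩
  exact ⟨Subtype.val_injective, by rw [e]; exact h⟩

/-- Lifting through an injective functor. -/
theorem exists_lift_of_injective {X Y Z : OmegaCat} (j : X ⟶ Y) (hj : Function.Injective j.f)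
    (F : Z ⟶ Y) (hF : ∀ z, ∃ x, j.f x = F.f z) : ∃ G : Z ⟶ X, G ≫ j = F := by
  choose g hg using hF
  refine ⟨⟨g, fun a n z => hj ?_, fun {n x y} e => hj ?_⟩, hom_ext hg⟩
  · rw [hg, j.map_d, hg, F.map_d]
  · rw [hg, j.map_comp (hj (by rw [j.map_d, j.map_d, hg, hg, F.cmp e])), hg, hg, F.map_comp e]

/-- A bijective functor is an isomorphism. -/
theorem isIso_of_bijective {X Y : OmegaCat} (F : X ⟶ Y) (h : Function.Bijective F.f) : IsIso F := by
  obtain ⟨G, hG⟩ := exists_lift_of_injective F h.1 (𝟙 Y) h.2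
  exact ⟨G, hom_ext fun x => h.1 (congrArg (fun H : Y ⟶ Y => H.f (F.f x)) hG), hG⟩

end OmegaCat

end Vale.Agent.P213
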