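import Vale.Agent.P213.OC

/-! Cylinders of complexes, the infinite sphere, complexes with ordered atoms. -/

open CategoryTheory Finsupp

set_option backward.isDefEq.respectTransparency false

noncomputable section

namespace Vale.Agent.P213

namespace ADC

variable {K L M : ADC}

/-- The identity chain map. -/
def Hom.id (K : ADC) : K.Hom K where
  f := LinearMap.id
  pos _ := single_nonneg.2 zero_le_one
  dim _ _ h := by rw [(single_apply_ne_zero.1 h).1]
  bd _ := rfl
  aug _ := rfl

theorem cy_single {B : Type} (b : B) (r : ℤ) : single b r = r • single b (1 : ℤ) := by simp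

theorem cy_supp {B B' : Type} (f : (B →₀ ℤ) →ₗ[ℤ] (B' →₀ ℤ)) {x : B →₀ ℤ} {c : B'}
    (h : f x c ≠ 0) : ∃ b, x b ≠ 0 ∧ f (single b 1) c ≠ 0 := by
  rw [← x.sum_single, Finsupp.sum, map_sum, finsetSum_apply] at h
  obtain ⟨b, hb, h⟩ := Finset.exists_ne_zero_of_sum_ne_zero h
  rw [cy_single, map_smul, Finsupp.smul_apply] at h
  exact ⟨b, mem_support_iff.1 hb, right_ne_zero_of_smul h⟩

theorem Hom.supp (F : K.Hom L) {x : K.B →₀ ℤ} {c : L.B} (h : F.f x c ≠ 0) :
    ∃ b, x b ≠ 0 ∧ F.f (single b 1) c ≠ 0 :=
  cy_supp F.f h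

/-- Composition of chain maps. -/
def Hom.comp (F : K.Hom L) (G : L.Hom M) : K.Hom M where
  f := G.f ∘ₗ F.f
  pos b := G.nonneg (F.pos b)
  dim b c h := by
    obtain ⟨e, h1, h2⟩ := G.supp h
    rw [G.dim e c h2, F.dim b e h1]
  bd x := by simp only [LinearMap.comp_apply, G.bd, F.bd]
  aug x := by simp only [LinearMap.comp_apply, G.aug, F.aug]

theorem Hom.comp_cell (F : K.Hom L) (G : L.Hom M) (u : Cell K) :
    (F.comp G).cell u = G.cell (F.cell u) := rfl

theorem Hom.comp_nu (F : K.Hom L) (G : L.Hom M) : (F.comp G).nu = F.nu ≫ G.nu := rfl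

theorem Hom.id_nu (K : ADC) : (Hom.id K).nu = 𝟙 K.nu := rfl

theorem Hom.comp_assoc {N : ADC} (F : K.Hom L) (G : L.Hom M) (H : M.Hom N) :
    (F.comp G).comp H = F.comp (G.comp H) := rfl

theorem Hom.ext' {F G : K.Hom L} (h : ∀ b, F.f (single b 1) = G.f (single b 1)) : F = G :=
  Hom.ext (Finsupp.lhom_ext' fun b => LinearMap.ext_ring (h b))

/-- The sign given by the parity of the dimension. -/
def sgn (K : ADC) : (K.B →₀ ℤ) →ₗ[ℤ] (K.B →₀ ℤ) :=
  linearCombination ℤ fun b => single b ((-1) ^ K.dim b)

theorem cy_sgn_single (b : K.B) (r : ℤ) :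
    K.sgn (single b r) = ((-1) ^ K.dim b * r) • single b (1 : ℤ) := by
  rw [sgn, linearCombination_single, smul_single, smul_single, smul_eq_mul, smul_eq_mul, mul_one,
    mul_comm]

theorem sgn_apply (x : K.B →₀ ℤ) (c : K.B) : K.sgn x c = (-1) ^ K.dim c * x c := by
  classical
  induction x using Finsupp.induction_linear with
  | zero => simp
  | add x y hx hy => simp only [map_add, Finsupp.add_apply, hx, hy, mul_add]
  | single b r =>
    rw [cy_sgn_single, Finsupp.smul_apply, single_apply, single_apply]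
    split_ifs with h
    · subst h; simp
    · simp

theorem sgn_sgn (x : K.B →₀ ℤ) : K.sgn (K.sgn x) = x := by
  ext c
  rw [sgn_apply, sgn_apply, ← mul_assoc, ← mul_pow]
  simp

theorem bd_sgn (x : K.B →₀ ℤ) : K.bd (K.sgn x) = -K.sgn (K.bd x) := by
  induction x using Finsupp.induction_linear with
  | zero => simp
  | add x y hx hy => simp only [map_add, hx, hy, neg_add]
  | single b r =>
    ext c
    rw [cy_sgn_single, cy_single b r, map_smul, map_smul, Finsupp.neg_apply, sgn_apply,
      Finsupp.smul_apply, Finsupp.smul_apply, smul_eq_mul, smul_eq_mul]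
    by_cases h : K.bd (single b 1) c = 0
    · simp [h]
    · rw [← K.bd_dim b c h, pow_succ]
      ring

theorem cy_aug_single (b : K.B) (r : ℤ) :
    K.aug (single b r) = if K.dim b = 0 then r else 0 := by
  rw [aug, linearCombination_single]
  split_ifs <;> simp

theorem aug_sgn (x : K.B →₀ ℤ) : K.aug (K.sgn x) = K.aug x := by
  induction x using Finsupp.induction_linear with
  | zero => simp
  | add x y hx hy => simp only [map_add, hx, hy]
  | single b r =>
    rw [cy_sgn_single, map_smul, cy_aug_single, cy_aug_single]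
    split_ifs with h
    · simp [h]
    · simp

theorem Hom.map_sgn (F : K.Hom L) (x : K.B →₀ ℤ) : F.f (K.sgn x) = L.sgn (F.f x) := by
  induction x using Finsupp.induction_linear with
  | zero => simp
  | add x y hx hy => simp only [map_add, hx, hy]
  | single b r =>
    ext c
    rw [cy_sgn_single, cy_single b r, map_smul, map_smul, sgn_apply,
      Finsupp.smul_apply, Finsupp.smul_apply, smul_eq_mul, smul_eq_mul]
    by_cases h : F.f (single b 1) c = 0
    · simp [h]
    · rw [F.dim b c h]
      ring

/-- The chain `x ⊗ o`, where `none` is the edge of the interval. -/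
def tens {B : Type} (o : Option Bool) : (B →₀ ℤ) →ₗ[ℤ] (B × Option Bool →₀ ℤ) :=
  lmapDomain ℤ ℤ fun b => (b, o)

theorem tens_single {B : Type} (o : Option Bool) (b : B) (r : ℤ) :
    tens o (single b r) = single (b, o) r := mapDomain_single

theorem tens_apply {B : Type} (o o' : Option Bool) (x : B →₀ ℤ) (c : B) :
    tens o x (c, o') = if o = o' then x c else 0 := by
  classical
  induction x using Finsupp.induction_linear with
  | zero => simp
  | add x y hx hy =>
    simp only [map_add, Finsupp.add_apply, hx, hy]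
    split_ifs <;> simp
  | single b r =>
    rw [tens_single, single_apply, single_apply]
    by_cases h : o = o' <;> by_cases k : b = c <;> simp [h, k]

/-- A linear map on a cylinder given by three linear maps. -/
def cylLift {B A : Type} [AddCommGroup A] (g : Option Bool → (B →₀ ℤ) →ₗ[ℤ] A) :
    (B × Option Bool →₀ ℤ) →ₗ[ℤ] A :=
  linearCombination ℤ fun p => g p.2 (single p.1 1)

theorem cylLift_tens {B A : Type} [AddCommGroup A] (g : Option Bool → (B →₀ ℤ) →ₗ[ℤ] A)
    (o : Option Bool) (x : B →₀ ℤ) : cylLift g (tens o x) = g o x := by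
  induction x using Finsupp.induction_linear with
  | zero => simp
  | add x y hx hy => simp only [map_add, hx, hy]
  | single b r =>
    rw [tens_single, cylLift, linearCombination_single, ← map_smul, ← cy_single]

theorem cy_lift_single {B A : Type} [AddCommGroup A] (g : Option Bool → (B →₀ ℤ) →ₗ[ℤ] A)
    (o : Option Bool) (b : B) : cylLift g (single (b, o) 1) = g o (single b 1) := by
  rw [← tens_single, cylLift_tens]

theorem cy_tens_nonneg {B : Type} (o : Option Bool) {x : B →₀ ℤ} (hx : 0 ≤ x) : 0 ≤ tens o x :=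
  fun p => by
    obtain ⟨c, o'⟩ := p
    rw [tens_apply]
    split_ifs
    exacts [hx c, le_rfl]

theorem cyl_ext {B A : Type} [AddCommGroup A] {f g : (B × Option Bool →₀ ℤ) →ₗ[ℤ] A}
    (h : ∀ o x, f (tens o x) = g (tens o x)) : f = g :=
  Finsupp.lhom_ext' fun p => LinearMap.ext_ring (by
    have := h p.2 (single p.1 1)
    rwa [tens_single] at this)

/-- The tensor product with the interval. -/
@[implicit_reducible] def cyl (K : ADC) : ADC where
  B := K.B × Option Bool
  dim p := K.dim p.1 + if p.2 = none then 1 else 0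
  bd := cylLift fun o => tens o ∘ₗ K.bd +
    if o = none then (tens (some true) - tens (some false)) ∘ₗ K.sgn else 0
  bd_dim := by
    rintro ⟨b, o⟩ ⟨c, o'⟩ h
    rw [cy_lift_single] at h
    have h1 := K.bd_dim b c
    have h2 : K.sgn (single b 1) c ≠ 0 → K.dim c = K.dim b := fun k => by
      rw [sgn_apply] at k
      rw [(single_apply_ne_zero.1 (right_ne_zero_of_mul k)).1]
    rcases o with _ | _ | _ <;> rcases o' with _ | _ | _ <;>
      simp [tens_apply] at h ⊢ <;> first | exact h1 h | exact h2 h

theorem cy_bd_tens (o : Option Bool) (x : K.B →₀ ℤ) : K.cyl.bd (tens o x) = (tens o ∘ₗ K.bd +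
    if o = none then (tens (some true) - tens (some false)) ∘ₗ K.sgn else 0 :
      (K.B →₀ ℤ) →ₗ[ℤ] (K.B × Option Bool →₀ ℤ)) x :=
  cylLift_tens (fun o => tens o ∘ₗ K.bd +
    if o = none then (tens (some true) - tens (some false)) ∘ₗ K.sgn else 0) o x

theorem cyl_bd_some (e : Bool) (x : K.B →₀ ℤ) :
    K.cyl.bd (tens (some e) x) = tens (some e) (K.bd x) :=
  (cy_bd_tens (some e) x).trans (by simp)

theorem cyl_bd_none (x : K.B →₀ ℤ) : K.cyl.bd (tens none x) =
    tens none (K.bd x) + (tens (some true) (K.sgn x) - tens (some false) (K.sgn x)) :=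
  (cy_bd_tens none x).trans (by simp)

theorem cyl_aug (o : Option Bool) (x : K.B →₀ ℤ) :
    K.cyl.aug (tens o x) = if o = none then 0 else K.aug x := by
  induction x using Finsupp.induction_linear with
  | zero => simp
  | add x y hx hy =>
    simp only [map_add, hx, hy]
    split_ifs <;> simp
  | single b r =>
    rw [tens_single, cy_aug_single (K := K.cyl), cy_aug_single]
    change (if K.dim b + (if o = none then 1 else 0) = 0 then r else 0) = _
    by_cases h : o = none <;> simp [h]

theorem cy_ind {B : Type} {P : (B × Option Bool →₀ ℤ) → Prop} (h0 : P 0)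
    (ha : ∀ x y, P x → P y → P (x + y)) (h : ∀ o x, P (tens o x)) (x : B × Option Bool →₀ ℤ) :
    P x := by
  induction x using Finsupp.induction_linear with
  | zero => exact h0
  | add x y hx hy => exact ha x y hx hy
  | single p r =>
    have := h p.2 (single p.1 r)
    rwa [tens_single] at this

theorem cy_of_bd (F G : K.Hom L) (h : (K.B →₀ ℤ) →ₗ[ℤ] (L.B →₀ ℤ))
    (bd : ∀ x, L.bd (h x) = h (K.bd x) + (G.f (K.sgn x) - F.f (K.sgn x)))
    (x : K.B × Option Bool →₀ ℤ) :
    L.bd (cylLift (fun o => o.elim h fun e => if e then G.f else F.f) x) =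
      cylLift (fun o => o.elim h fun e => if e then G.f else F.f) (K.cyl.bd x) := by
  induction x using cy_ind with
  | h0 => simp
  | ha x y hx hy => simp only [map_add, hx, hy]
  | h o x =>
    rcases o with _ | _ | _
    · rw [cyl_bd_none]
      simp only [map_add, map_sub, cylLift_tens]
      exact bd x
    · rw [cyl_bd_some]
      simp only [cylLift_tens]
      exact F.bd x
    · rw [cyl_bd_some]
      simp only [cylLift_tens]
      exact G.bd x

theorem cy_of_aug (F G : K.Hom L) (h : (K.B →₀ ℤ) →ₗ[ℤ] (L.B →₀ ℤ))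
    (dim : ∀ b c, h (single b 1) c ≠ 0 → L.dim c = K.dim b + 1) (x : K.B × Option Bool →₀ ℤ) :
    L.aug (cylLift (fun o => o.elim h fun e => if e then G.f else F.f) x) = K.cyl.aug x := by
  induction x using cy_ind with
  | h0 => simp
  | ha x y hx hy => simp only [map_add, hx, hy]
  | h o x =>
    rw [cyl_aug, cylLift_tens]
    rcases o with _ | _ | _
    · have e := L.aug_filter (· ≠ 0) (h x)
      rw [if_neg (by simp)] at e
      rw [if_pos rfl, ← e]
      congr 1
      ext c
      rw [filter_apply]
      split_ifs with k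
      · rfl
      · by_contra l
        obtain ⟨b, -, l⟩ := cy_supp h l
        exact k (by rw [dim b c l]; omega)
    · exact F.aug x
    · exact G.aug x

/-- A chain map out of a cylinder: two chain maps and a positive chain homotopy. -/
def Hom.ofCyl (F G : K.Hom L) (h : (K.B →₀ ℤ) →ₗ[ℤ] (L.B →₀ ℤ)) (pos : ∀ b, 0 ≤ h (single b 1))
    (dim : ∀ b c, h (single b 1) c ≠ 0 → L.dim c = K.dim b + 1)
    (bd : ∀ x, L.bd (h x) = h (K.bd x) + (G.f (K.sgn x) - F.f (K.sgn x))) : K.cyl.Hom L where
  f := cylLift fun o => o.elim h fun e => if e then G.f else F.f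
  pos := by
    rintro ⟨b, o⟩
    refine le_of_le_of_eq ?_ (cy_lift_single _ o b).symm
    rcases o with _ | _ | _
    exacts [pos b, F.pos b, G.pos b]
  dim := by
    rintro ⟨b, o⟩ c k
    have k := (congrArg (fun y : L.B →₀ ℤ => y c) (cy_lift_single _ o b)).symm.trans_ne k
    rcases o with _ | _ | _
    exacts [dim b c k, F.dim b c k, G.dim b c k]
  bd := cy_of_bd F G h bd
  aug := cy_of_aug F G h dim

theorem cy_ofCyl_tens (F G : K.Hom L) (h pos dim bd) (o : Option Bool) (x : K.B →₀ ℤ) :
    (Hom.ofCyl F G h pos dim bd).f (tens o x) =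
      (o.elim h fun e => if e then G.f else F.f : _ →ₗ[ℤ] _) x :=
  cylLift_tens (fun o => o.elim h fun e => if e then G.f else F.f) o x

/-- The inclusion of an end. -/
def inc (K : ADC) (e : Bool) : K.Hom K.cyl where
  f := tens (some e)
  pos _ := cy_tens_nonneg _ (single_nonneg.2 zero_le_one)
  dim b c h := by
    have h := (congrArg (fun y : K.B × Option Bool →₀ ℤ => y c)
      (tens_single (some e) b 1)).symm.trans_ne h
    rw [(single_apply_ne_zero.1 h).1]
    rfl
  bd := cyl_bd_some e
  aug x := cyl_aug _ x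

/-- The projection of the cylinder. -/
def proj (K : ADC) : K.cyl.Hom K :=
  Hom.ofCyl (Hom.id K) (Hom.id K) 0 (fun _ => le_rfl) (fun _ _ h => absurd rfl h) fun _ => by simp

/-- The cylinder on a chain map. -/
def Hom.cyl (F : K.Hom L) : K.cyl.Hom L.cyl :=
  Hom.ofCyl (F.comp (L.inc false)) (F.comp (L.inc true)) (tens none ∘ₗ F.f)
    (fun b => cy_tens_nonneg _ (F.pos b))
    (by
      rintro b ⟨c, o⟩ h
      have h' := (tens_apply none o (F.f (single b 1)) c).symm.trans_ne h
      clear h
      split_ifs at h' with k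
      · subst k
        exact congrArg (· + 1) (F.dim b c h')
      · exact absurd rfl h')
    (fun x => by
      refine (cyl_bd_none (F.f x)).trans ?_
      rw [F.bd, ← F.map_sgn]
      rfl)

theorem Hom.cyl_tens (F : K.Hom L) (o : Option Bool) (x : K.B →₀ ℤ) :
    F.cyl.f (tens o x) = tens o (F.f x) := by
  refine (cy_ofCyl_tens _ _ _ _ _ _ o x).trans ?_
  rcases o with _ | _ | _ <;> rfl

theorem inc_ofCyl (F G : K.Hom L) (h pos dim bd) (e : Bool) :
    (K.inc e).comp (Hom.ofCyl F G h pos dim bd) = if e then G else F := by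
  refine Hom.ext (LinearMap.ext fun x => ?_)
  refine (cylLift_tens (fun o => o.elim h fun e => if e then G.f else F.f) (some e) x).trans ?_
  cases e <;> rfl

theorem ofCyl_none (F G : K.Hom L) (h pos dim bd) (x : K.B →₀ ℤ) :
    (Hom.ofCyl F G h pos dim bd).f (tens none x) = h x :=
  cylLift_tens (fun o => o.elim h fun e => if e then G.f else F.f) none x

theorem Hom.cyl_ext {F G : K.cyl.Hom L} (h : ∀ e, (K.inc e).comp F = (K.inc e).comp G)
    (h' : ∀ x, F.f (tens none x) = G.f (tens none x)) : F = G := by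
  refine Hom.ext (ADC.cyl_ext fun o x => ?_)
  rcases o with _ | e
  · exact h' x
  · exact congrArg (fun H : K.Hom L => H.f x) (h e)

theorem Hom.cyl_id (K : ADC) : (Hom.id K).cyl = Hom.id K.cyl :=
  Hom.ext (ADC.cyl_ext fun o x => Hom.cyl_tens _ o x)

theorem Hom.cyl_comp (F : K.Hom L) (G : L.Hom M) : (F.comp G).cyl = F.cyl.comp G.cyl :=
  Hom.ext (ADC.cyl_ext fun o x => by
    change (F.comp G).cyl.f _ = G.cyl.f (F.cyl.f _)
    rw [Hom.cyl_tens, Hom.cyl_tens, Hom.cyl_tens]
    rfl)

theorem Hom.inc_cyl (F : K.Hom L) (e : Bool) : (K.inc e).comp F.cyl = F.comp (L.inc e) :=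
  Hom.ext (LinearMap.ext fun x => F.cyl_tens (some e) x)

theorem cy_proj_tens (o : Option Bool) (x : K.B →₀ ℤ) :
    K.proj.f (tens o x) = if o = none then 0 else x := by
  refine (cy_ofCyl_tens _ _ _ _ _ _ o x).trans ?_
  rcases o with _ | _ | _ <;> rfl

theorem Hom.cyl_proj (F : K.Hom L) : F.cyl.comp L.proj = K.proj.comp F :=
  Hom.ext (ADC.cyl_ext fun o x => by
    change L.proj.f (F.cyl.f _) = F.f (K.proj.f _)
    rw [Hom.cyl_tens, cy_proj_tens, cy_proj_tens]
    split_ifs
    · exact (map_zero _).symm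
    · rfl)

theorem inc_proj (K : ADC) (e : Bool) : (K.inc e).comp K.proj = Hom.id K :=
  Hom.ext (LinearMap.ext fun x => cy_proj_tens (some e) x)

theorem cy_filter_nonneg {B : Type} (P : B → Prop) [DecidablePred P] {x : B →₀ ℤ} (hx : 0 ≤ x) :
    0 ≤ x.filter P := fun c => by
  rw [filter_apply]
  split_ifs
  exacts [hx c, le_rfl]

/-- The chains of the cylinder on a cell. -/
def cyX (u : Cell K) (a : Bool) : K.B × Option Bool →₀ ℤ :=
  tens none (u.x a) + tens (some a) ((u.x a).filter fun c => Even (K.dim c)) +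
    tens (some !a) ((u.x a).filter fun c => ¬Even (K.dim c))

theorem cy_cell_bd (u : Cell K) (a : Bool) : K.cyl.bd (cyX u a) = cyX u true - cyX u false := by
  have e : K.cyl.bd (cyX u a) = (tens none (K.bd (u.x a)) + (tens (some true) (K.sgn (u.x a)) -
      tens (some false) (K.sgn (u.x a))) +
      tens (some a) (K.bd ((u.x a).filter fun c => Even (K.dim c))) +
      tens (some !a) (K.bd ((u.x a).filter fun c => ¬Even (K.dim c))) :
        K.B × Option Bool →₀ ℤ) := by
    rw [← cyl_bd_none, ← cyl_bd_some, ← cyl_bd_some]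
    exact (map_add K.cyl.bd _ _).trans (congrArg (· + _) (map_add K.cyl.bd _ _))
  refine e.trans ?_
  rw [bd_filter Even, bd_filter (¬Even ·), u.bd_x]
  refine Finsupp.ext fun p : K.B × Option Bool => ?_
  obtain ⟨c, o⟩ := p
  simp only [cyX, Finsupp.add_apply, Finsupp.sub_apply, tens_apply, filter_apply, sgn_apply,
    Nat.even_add_one]
  by_cases h : Even (K.dim c)
  · rcases o with _ | _ | _ <;> cases a <;> simp [h, sub_eq_add_neg]
  · rcases o with _ | _ | _ <;> cases a <;>
      simp [h, (Nat.not_even_iff_odd.1 h).neg_one_pow, sub_eq_add_neg]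

theorem cy_cell_aug (u : Cell K) (a : Bool) : K.cyl.aug (cyX u a) = 1 := by
  have e : K.cyl.aug (cyX u a) = K.cyl.aug (tens none (u.x a)) +
      K.cyl.aug (tens (some a) ((u.x a).filter fun c => Even (K.dim c))) +
      K.cyl.aug (tens (some !a) ((u.x a).filter fun c => ¬Even (K.dim c))) := by
    rw [← map_add, ← map_add]
    rfl
  rw [e, cyl_aug, cyl_aug, cyl_aug, aug_filter Even, aug_filter (¬Even ·), u.aug_x]
  simp

/-- The cylinder on a cell. -/
def cylCell (u : Cell K) : Cell K.cyl where
  x a := tens none (u.x a) + tens (some a) ((u.x a).filter fun c => Even (K.dim c)) +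
    tens (some !a) ((u.x a).filter fun c => ¬Even (K.dim c))
  pos a := add_nonneg (add_nonneg (cy_tens_nonneg _ (u.pos a))
    (cy_tens_nonneg _ (cy_filter_nonneg _ (u.pos a))))
    (cy_tens_nonneg _ (cy_filter_nonneg _ (u.pos a)))
  bd_x := cy_cell_bd u
  aug_x := cy_cell_aug u

/-- The three cells of the cylinder attached to a cell. -/
def cylO (o : Option Bool) (u : Cell K) : Cell K.cyl := o.elim (cylCell u) fun e => (K.inc e).cell u

theorem cylO_apply (o : Option Bool) (u : Cell K) (a : Bool) (c : K.B) (o' : Option Bool) :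
    (cylO o u).x a (c, o') = if o = o' ∨ (o = none ∧ o' = some (if Even (K.dim c) then a else !a))
      then u.x a c else 0 := by
  rcases o with _ | e
  · change cyX u a (c, o') = _
    simp only [cyX, Finsupp.add_apply, tens_apply, filter_apply]
    by_cases h : Even (K.dim c) <;> rcases o' with _ | _ | _ <;> cases a <;> simp [h]
  · refine (tens_apply (some e) o' (u.x a) c).trans ?_
    simp

theorem Hom.cyl_cylO (F : K.Hom L) (o : Option Bool) (u : Cell K) :
    F.cyl.cell (cylO o u) = cylO o (F.cell u) := by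
  refine Cell.ext (funext fun a => ?_)
  rcases o with _ | e
  · have e : F.cyl.f (cyX u a) = F.cyl.f (tens none (u.x a)) +
        F.cyl.f (tens (some a) ((u.x a).filter fun c => Even (K.dim c))) +
        F.cyl.f (tens (some !a) ((u.x a).filter fun c => ¬Even (K.dim c))) := by
      rw [← map_add, ← map_add]
      rfl
    refine e.trans ?_
    rw [Hom.cyl_tens, Hom.cyl_tens, Hom.cyl_tens, F.filter Even, F.filter (¬Even ·)]
    rfl
  · exact F.cyl_tens (some e) (u.x a)

/-- Atoms that are compatible with an ordering of the basis: a strongly loop-free unital basis. -/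
structure St (K : ADC) where
  α : Type
  [ord : LinearOrder α]
  rk : K.B → α
  atom : K.B → Cell K
  top : ∀ b a c, K.dim b ≤ K.dim c → (atom b).x a c = (single b 1 : K.B →₀ ℤ) c
  neg : ∀ b c, c ≠ b → (atom b).x false c ≠ 0 → rk c < rk b
  pos : ∀ b c, c ≠ b → (atom b).x true c ≠ 0 → rk b < rk c

attribute [instance] St.ord

theorem St.d_atom (S : St K) (a : Bool) {k : ℕ} {b : K.B} (h : K.dim b ≤ k) :
    (S.atom b).d a k = S.atom b :=
  Cell.ext' fun e c => by
    rw [Cell.d_apply]
    split_ifs with h1 h2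
    · rfl
    · rw [S.top b a c (by omega), S.top b e c (by omega)]
    · rw [S.top b e c (by omega), single_eq_of_ne fun l => by subst l; omega]

theorem St.dimLT_atom (S : St K) {n : ℕ} {b : K.B} : K.nu.DimLT n (S.atom b) ↔ K.dim b < n := by
  refine ⟨fun ⟨k, hk, e⟩ => ?_, fun h => ⟨K.dim b, h, S.d_atom false le_rfl⟩⟩
  have e' : ((S.atom b).d false k).x false b = (S.atom b).x false b :=
    congrArg (fun w : Cell K => w.x false b) e
  rw [Cell.d_apply, S.top b false b le_rfl, single_eq_same] at e'
  split_ifs at e' <;> omega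

theorem dimLT_iff {n : ℕ} {u : Cell K} :
    K.nu.DimLT n u ↔ 0 < n ∧ ∀ a c, u.x a c ≠ 0 → K.dim c < n := by
  refine ⟨fun ⟨k, hk, e⟩ => ⟨by omega, fun a c h => ?_⟩, fun ⟨h0, h⟩ => ⟨n - 1, by omega, ?_⟩⟩
  · have e' : (u.d false k).x a c = u.x a c := congrArg (fun w : Cell K => w.x a c) e
    rw [Cell.d_apply] at e'
    split_ifs at e'
    · omega
    · omega
    · exact absurd e'.symm h
  · refine Cell.ext' (u := u.d false (n - 1)) fun e c => ?_
    rw [Cell.d_apply]
    split_ifs with h1 h2
    · rfl
    · have : K.bd (u.x false) c = 0 := by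
        by_contra l
        obtain ⟨b, l1, l2⟩ := cy_supp K.bd l
        have := h _ _ l1
        have := K.bd_dim _ _ l2
        omega
      rw [u.bd_x, Finsupp.sub_apply] at this
      cases e
      · rfl
      · omega
    · by_contra l
      have := h e c (Ne.symm l)
      omega

/-- The atoms of a cylinder. -/
def St.cyl (S : St K) : St K.cyl where
  α := S.α ×ₗ ℤ
  rk p := toLex (S.rk p.1, p.2.elim 0 fun e => if e = decide (Even (K.dim p.1)) then 1 else -1)
  atom p := cylO p.2 (S.atom p.1)
  top := by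
    classical
    rintro ⟨b, o⟩ a ⟨c, o'⟩ h
    have h : K.dim b + (if o = none then 1 else 0) ≤ K.dim c + if o' = none then 1 else 0 := h
    refine (cylO_apply o (S.atom b) a c o').trans ?_
    change _ = (single (b, o) (1 : ℤ) : K.B × Option Bool →₀ ℤ) (c, o')
    rw [← tens_single, tens_apply]
    by_cases k : o = o'
    · subst k
      rw [if_pos (Or.inl rfl), if_pos rfl, S.top b a c (by omega)]
    · rw [if_neg k]
      refine ite_eq_right_iff.2 fun l => ?_
      obtain ⟨rfl, rfl⟩ := l.resolve_left k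
      simp only [if_true, reduceCtorEq, if_false] at h
      rw [S.top b a c (by omega), single_eq_of_ne fun l => by subst l; omega]
  neg := by
    rintro ⟨b, o⟩ ⟨c, o'⟩ h k
    obtain ⟨l, k⟩ := ite_ne_right_iff.1 ((cylO_apply o (S.atom b) false c o').symm.trans_ne k)
    by_cases e : c = b
    · subst e
      obtain ⟨rfl, rfl⟩ := l.resolve_left fun l => h (by rw [l])
      refine Prod.Lex.toLex_lt_toLex.2 (Or.inr ⟨rfl, ?_⟩)
      by_cases j : Even (K.dim c) <;> simp [j]
    · exact Prod.Lex.toLex_lt_toLex.2 (Or.inl (S.neg b c e k))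
  pos := by
    rintro ⟨b, o⟩ ⟨c, o'⟩ h k
    obtain ⟨l, k⟩ := ite_ne_right_iff.1 ((cylO_apply o (S.atom b) true c o').symm.trans_ne k)
    by_cases e : c = b
    · subst e
      obtain ⟨rfl, rfl⟩ := l.resolve_left fun l => h (by rw [l])
      refine Prod.Lex.toLex_lt_toLex.2 (Or.inr ⟨rfl, ?_⟩)
      by_cases j : Even (K.dim c) <;> simp [j]
    · exact Prod.Lex.toLex_lt_toLex.2 (Or.inl (S.pos b c e k))

/-- The infinite sphere, with two cells in each dimension. -/
@[implicit_reducible] def sph : ADC where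
  B := ℕ × Bool
  dim p := p.1
  bd := linearCombination ℤ fun p =>
    if p.1 = 0 then 0 else single (p.1 - 1, true) 1 - single (p.1 - 1, false) 1
  bd_dim := by
    rintro ⟨j, a⟩ ⟨i, e⟩ h
    rw [linearCombination_single, one_smul] at h
    split_ifs at h with k
    · exact absurd rfl h
    · by_contra l
      rw [Finsupp.sub_apply, single_eq_of_ne fun m => l (by rw [(Prod.mk.inj m).1]; omega),
        single_eq_of_ne fun m => l (by rw [(Prod.mk.inj m).1]; omega)] at h
      exact h rfl

theorem cy_sph_bd (j : ℕ) (a : Bool) : sph.bd (single (j, a) 1) =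
    if j = 0 then 0 else single (j - 1, true) 1 - single (j - 1, false) 1 :=
  (linearCombination_single _ _ _).trans (one_smul _ _)

theorem cy_sph_aug (j : ℕ) (a : Bool) : sph.aug (single (j, a) 1) = if j = 0 then 1 else 0 :=
  cy_aug_single (K := sph) (j, a) 1

/-- The linear map underlying `ofCell`. -/
def cyOf (u : Cell K) : (ℕ × Bool →₀ ℤ) →ₗ[ℤ] (K.B →₀ ℤ) :=
  linearCombination ℤ fun p => (u.x p.2).filter fun c => K.dim c = p.1

theorem cyOf_single (u : Cell K) (j : ℕ) (a : Bool) :
    cyOf u (single (j, a) 1) = (u.x a).filter fun c => K.dim c = j :=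
  (linearCombination_single _ _ _).trans (one_smul _ _)

theorem cyOf_bd (u : Cell K) : K.bd ∘ₗ cyOf u = cyOf u ∘ₗ sph.bd :=
  Finsupp.lhom_ext' fun ⟨j, a⟩ => LinearMap.ext_ring (by
    change K.bd (cyOf u (single (j, a) 1)) = cyOf u (sph.bd (single (j, a) 1))
    rw [cyOf_single, cy_sph_bd, bd_filter (· = j), u.bd_x]
    ext c
    split_ifs with h
    · subst h
      simp
    · have e := map_sub (cyOf u) (single (j - 1, true) 1) (single (j - 1, false) 1)
      refine Eq.trans ?_ (congrArg (fun y : K.B →₀ ℤ => y c) e).symm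
      simp only [cyOf_single, Finsupp.sub_apply, filter_apply]
      split_ifs <;> omega)

theorem cyOf_aug (u : Cell K) : K.aug ∘ₗ cyOf u = sph.aug :=
  Finsupp.lhom_ext' fun ⟨j, a⟩ => LinearMap.ext_ring (by
    change K.aug (cyOf u (single (j, a) 1)) = sph.aug (single (j, a) 1)
    rw [cyOf_single, cy_sph_aug, aug_filter (· = j), u.aug_x]
    split_ifs <;> omega)

/-- The chain map from the sphere that describes a cell. -/
def ofCell (u : Cell K) : sph.Hom K where
  f := linearCombination ℤ fun p => (u.x p.2).filter fun c => K.dim c = p.1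
  pos p := le_of_le_of_eq (cy_filter_nonneg _ (u.pos p.2)) (cyOf_single u p.1 p.2).symm
  dim p c h := by
    have h' := (congrArg (fun y : K.B →₀ ℤ => y c) (cyOf_single u p.1 p.2)).symm.trans_ne h
    simp only [filter_apply] at h'
    split_ifs at h' with k
    · exact k
    · exact absurd rfl h'
  bd x := LinearMap.congr_fun (cyOf_bd u) x
  aug x := LinearMap.congr_fun (cyOf_aug u) x

theorem ofCell_single (u : Cell K) (j : ℕ) (a : Bool) :
    (ofCell u).f (single (j, a) 1) = (u.x a).filter fun c => K.dim c = j :=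
  (linearCombination_single _ _ _).trans (one_smul _ _)

/-- The atoms of the sphere. -/
def sat (j : ℕ) (a : Bool) : Cell sph where
  x b := single (j, a) 1 + ∑ i ∈ Finset.range j, single (i, b) 1
  pos b := add_nonneg (single_nonneg.2 zero_le_one)
    (Finset.sum_nonneg fun _ _ => single_nonneg.2 zero_le_one)
  bd_x b := by
    rw [map_add, map_sum, add_sub_add_left_eq_sub, ← Finset.sum_sub_distrib, add_comm]
    refine (congrArg₂ (· + ·) (Finset.sum_congr rfl fun i _ => cy_sph_bd i b)
      (cy_sph_bd j a)).trans ?_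
    refine (Finset.sum_range_succ (fun i => (if i = 0 then 0 else
      single (i - 1, true) 1 - single (i - 1, false) 1 : sph.B →₀ ℤ)) j).symm.trans ?_
    rw [Finset.sum_range_succ']
    simp
  aug_x b := by
    rw [map_add, map_sum, add_comm]
    refine (congrArg₂ (· + ·) (Finset.sum_congr rfl fun i _ => cy_sph_aug i b)
      (cy_sph_aug j a)).trans ?_
    refine (Finset.sum_range_succ (fun i => (if i = 0 then 1 else 0 : ℤ)) j).symm.trans ?_
    rw [Finset.sum_range_succ']
    simp

theorem sat_apply (j : ℕ) (a b : Bool) (i : ℕ) (e : Bool) :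
    (sat j a).x b (i, e) = if (i = j ∧ e = a) ∨ (i < j ∧ e = b) then 1 else 0 := by
  change (single (j, a) 1 + ∑ i ∈ Finset.range j, single (i, b) 1 : ℕ × Bool →₀ ℤ) (i, e) = _
  have e1 : ∀ k, (single (k, b) 1 : ℕ × Bool →₀ ℤ) (i, e) =
      if i = k then (if e = b then 1 else 0) else 0 := fun k => by
    rw [single_apply]
    by_cases h : i = k <;> by_cases h' : e = b <;> simp [h, h', @eq_comm _ k i, @eq_comm _ b e]
  rw [Finsupp.add_apply, finsetSum_apply]
  simp only [e1, Finset.sum_ite_eq, Finset.mem_range, single_apply, Prod.mk.injEq]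
  rcases lt_trichotomy i j with l | rfl | l
  · simp [l, l.ne, l.ne']
  · simp [eq_comm]
  · simp [l.ne, l.ne', l.not_gt]

/-- The ordered atoms of the sphere. -/
def St.sph : St sph where
  α := ℚ
  rk p := if p.2 then 1 / (p.1 + 1) else -1 / (p.1 + 1)
  atom p := sat p.1 p.2
  top := by
    rintro ⟨j, a⟩ b ⟨i, e⟩ h
    have h : j ≤ i := h
    refine (sat_apply j a b i e).trans ?_
    change _ = (single (j, a) (1 : ℤ) : ℕ × Bool →₀ ℤ) (i, e)
    rw [single_apply]
    refine if_congr ⟨?_, fun k => Or.inl ⟨(Prod.mk.inj k).1.symm, (Prod.mk.inj k).2.symm⟩⟩ rfl rfl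
    rintro (⟨rfl, rfl⟩ | ⟨k, -⟩)
    · rfl
    · omega
  neg := by
    rintro ⟨j, a⟩ ⟨i, e⟩ h k
    obtain ⟨l, -⟩ := ite_ne_right_iff.1 ((sat_apply j a false i e).symm.trans_ne k)
    · obtain ⟨l', rfl⟩ := l.resolve_left fun l => h (by rw [l.1, l.2])
      have l1 : (1 : ℚ) / (j + 1) < 1 / (i + 1) :=
        one_div_lt_one_div_of_lt (by positivity) (by exact_mod_cast Nat.succ_lt_succ l')
      have l2 : (0 : ℚ) < 1 / (j + 1) := by positivity
      cases a
      · simp only [Bool.false_eq_true, if_false, neg_div]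
        linarith
      · simp only [Bool.false_eq_true, if_false, if_true, neg_div]
        linarith
  pos := by
    rintro ⟨j, a⟩ ⟨i, e⟩ h k
    obtain ⟨l, -⟩ := ite_ne_right_iff.1 ((sat_apply j a true i e).symm.trans_ne k)
    · obtain ⟨l', rfl⟩ := l.resolve_left fun l => h (by rw [l.1, l.2])
      have l1 : (1 : ℚ) / (j + 1) < 1 / (i + 1) :=
        one_div_lt_one_div_of_lt (by positivity) (by exact_mod_cast Nat.succ_lt_succ l')
      have l2 : (0 : ℚ) < 1 / (j + 1) := by positivity
      cases a
      · simp only [Bool.false_eq_true, if_false, if_true, neg_div]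
        linarith
      · simp only [if_true]
        linarith

theorem ofCell_sat (u : Cell K) (j : ℕ) (a : Bool) : (ofCell u).cell (sat j a) = u.d a j := by
  refine Cell.ext' fun b c => ?_
  change cyOf u (single (j, a) 1 + ∑ i ∈ Finset.range j, single (i, b) 1) c = _
  rw [map_add, map_sum, Finsupp.add_apply, finsetSum_apply, Cell.d_apply]
  simp only [cyOf_single, filter_apply, Finset.sum_ite_eq, Finset.mem_range]
  split_ifs <;> omega

theorem sat_d (j : ℕ) (a b : Bool) {i : ℕ} (h : i < j) : (sat j a).d b i = sat i b := by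
  refine Cell.ext' ?_
  rintro e ⟨k, f⟩
  refine (Cell.d_apply b i (sat j a) e (k, f)).trans ?_
  change (if k < i then (sat j a).x e (k, f) else if k = i then (sat j a).x b (k, f) else 0) =
    (sat i b).x e (k, f)
  simp only [sat_apply]
  rcases lt_trichotomy k i with l | rfl | l
  · simp [l, l.ne, (l.trans h).ne, l.trans h]
  · simp [h, h.ne]
  · simp [l.ne', l.not_gt]

theorem sph_ext {F G : sph.Hom K} (h : ∀ j a, F.cell (sat j a) = G.cell (sat j a)) : F = G := by
  refine Hom.ext' ?_
  rintro ⟨j, a⟩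
  have e : ((sat j a).x a).filter (fun b => sph.dim b = j) = single (j, a) 1 := by
    refine Finsupp.ext ?_
    rintro ⟨i, b⟩
    rw [filter_apply]
    split_ifs with k
    · exact St.sph.top (j, a) a (i, b) k.ge
    · exact (single_eq_of_ne fun m => k (Prod.mk.inj m).1).symm
  have e' : F.f ((sat j a).x a) = G.f ((sat j a).x a) := congrArg (fun w : Cell K => w.x a) (h j a)
  rw [← e, F.filter (· = j), G.filter (· = j), e']

theorem ofCell_map (F : K.Hom L) (u : Cell K) : ofCell (F.cell u) = (ofCell u).comp F :=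
  sph_ext fun j a => by rw [Hom.comp_cell, ofCell_sat, ofCell_sat, F.cell_d]

/-- The truncation of the sphere. -/
def trunc (a : Bool) (k : ℕ) : sph.Hom sph := ofCell (sat k a)

theorem ofCell_d (u : Cell K) (a : Bool) (k : ℕ) : ofCell (u.d a k) = (trunc a k).comp (ofCell u) := by
  rw [trunc, ← ofCell_map, ofCell_sat]

end ADC

end Vale.Agent.P213
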