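import Mathlib

/-! Strict omega-categories, Steiner's functor `ν`, orientals, the Street nerve and the
Thomason classes of maps. -/

open CategoryTheory Finsupp

noncomputable section

namespace Vale.Agent.P213

/-- A small strict globular `ω`-category in one-sorted form (Street, Steiner): `d false n` and
`d true n` are the `n`-source and `n`-target, `comp n x y` is the composite of `x` followed by `y`
along dimension `n`; it only matters when `d true n x = d false n y`. -/
structure OmegaCat where
  C : Type
  d : Bool → ℕ → C → C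
  comp : ℕ → C → C → C
  d_lt : ∀ {a b m n} x, m < n → d b m (d a n x) = d b m x
  d_ge : ∀ {a b m n} x, n ≤ m → d b m (d a n x) = d a n x
  id_comp : ∀ n x, comp n (d false n x) x = x
  comp_id : ∀ n x, comp n x (d true n x) = x
  src_comp : ∀ {n x y}, d true n x = d false n y → d false n (comp n x y) = d false n x
  tgt_comp : ∀ {n x y}, d true n x = d false n y → d true n (comp n x y) = d true n y
  d_comp : ∀ {a m n x y}, d true n x = d false n y → m ≠ n →
    d a m (comp n x y) = comp n (d a m x) (d a m y)
  assoc : ∀ {n x y z}, d true n x = d false n y → d true n y = d false n z →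
    comp n (comp n x y) z = comp n x (comp n y z)
  interchange : ∀ {m n x y z w}, m < n → d true n x = d false n y → d true n z = d false n w →
    d true m x = d false m z →
    comp m (comp n x y) (comp n z w) = comp n (comp m x z) (comp m y w)
  fin : ∀ x, ∃ n, d false n x = x

namespace OmegaCat

/-- Strict `ω`-functors. -/
@[ext] structure Hom (X Y : OmegaCat) where
  f : X.C → Y.C
  map_d : ∀ a n x, f (X.d a n x) = Y.d a n (f x)
  map_comp : ∀ {n x y}, X.d true n x = X.d false n y → f (X.comp n x y) = Y.comp n (f x) (f y)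

instance : Category OmegaCat where
  Hom := Hom
  id _ := ⟨id, fun _ _ _ => rfl, fun _ => rfl⟩
  comp F G := ⟨G.f ∘ F.f, fun a n x => by simp [F.map_d, G.map_d], fun h => by
    simp only [Function.comp]
    rw [F.map_comp h, G.map_comp (by rw [← F.map_d, ← F.map_d, h])]⟩

end OmegaCat

/-- Strict `n`-categories: all cells of dimension above `n` are identities
(no condition for `n = ⊤`). -/
def IsNCat (n : ℕ∞) : ObjectProperty OmegaCat :=
  fun X => ∀ (k : ℕ) (x : X.C), n ≤ k → X.d false k x = x

/-- The category of small strict `n`-categories, `1 ≤ n ≤ ω`. -/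
abbrev NCat (n : ℕ∞) := (IsNCat n).FullSubcategory

/-- A graded free abelian group with a basis `B` and a boundary map of degree `-1`. -/
structure ADC where
  B : Type
  dim : B → ℕ
  bd : (B →₀ ℤ) →ₗ[ℤ] (B →₀ ℤ)
  bd_dim : ∀ b c, bd (single b 1) c ≠ 0 → dim c + 1 = dim b

namespace ADC

variable {K L M : ADC}

/-- The augmentation: the sum of the coefficients of the basis elements of degree zero. -/
def aug (K : ADC) : (K.B →₀ ℤ) →ₗ[ℤ] ℤ :=
  linearCombination ℤ fun b => if K.dim b = 0 then 1 else 0

/-- A cell of Steiner's `ω`-category `ν K`: a table of positive chains `x a` (the degree `n` part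
of `x false`, `x true` is the entry `x_n^-`, `x_n^+`) with `∂ x_{n+1}^a = x_n^+ - x_n^-` and
`ε x_0^a = 1`. -/
@[ext] structure Cell (K : ADC) where
  x : Bool → K.B →₀ ℤ
  pos : ∀ a, 0 ≤ x a
  bd_x : ∀ a, K.bd (x a) = x true - x false
  aug_x : ∀ a, K.aug (x a) = 1

theorem map_filter {B B' : Type} (f : (B →₀ ℤ) →ₗ[ℤ] (B' →₀ ℤ)) (P : B → Prop) (Q : B' → Prop)
    [DecidablePred P] [DecidablePred Q] (h : ∀ b c, f (single b 1) c ≠ 0 → (Q c ↔ P b))
    (x : B →₀ ℤ) : f (x.filter P) = (f x).filter Q := by
  induction x using Finsupp.induction_linear with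
  | zero => simp [filter_zero]
  | add x y hx hy => simp only [filter_add, map_add, hx, hy]
  | single b r =>
    have e : single b r = r • single b (1 : ℤ) := by simp
    ext c
    by_cases hb : P b
    · rw [filter_single_of_pos P hb, filter_apply]
      split_ifs with hc
      · rfl
      · rw [e, map_smul, Finsupp.smul_apply, not_not.1 fun h' => hc ((h b c h').2 hb), smul_zero]
    · rw [filter_single_of_neg P hb, filter_apply, map_zero]
      split_ifs with hc
      · rw [e, map_smul, Finsupp.smul_apply, not_not.1 fun h' => hb ((h b c h').1 hc), smul_zero]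
        rfl
      · rfl

theorem bd_filter (p : ℕ → Prop) [DecidablePred p] (x : K.B →₀ ℤ) :
    K.bd (x.filter fun b => p (K.dim b)) = (K.bd x).filter fun c => p (K.dim c + 1) :=
  map_filter _ _ _ (fun b c h => by rw [K.bd_dim b c h]) x

theorem aug_filter (p : ℕ → Prop) [DecidablePred p] (x : K.B →₀ ℤ) :
    K.aug (x.filter fun b => p (K.dim b)) = if p 0 then K.aug x else 0 := by
  induction x using Finsupp.induction_linear with
  | zero => simp [filter_zero]
  | add x y hx hy => simp only [filter_add, map_add, hx, hy]; split_ifs <;> simp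
  | single b r =>
    by_cases hb : p (K.dim b)
    · rw [filter_single_of_pos (fun b => p (K.dim b)) hb]
      split_ifs with h
      · rfl
      · simp [aug, show K.dim b ≠ 0 from fun e => h (e ▸ hb)]
    · rw [filter_single_of_neg (fun b => p (K.dim b)) hb]
      split_ifs with h
      · simp [aug, show K.dim b ≠ 0 from fun e => hb (e ▸ h)]
      · simp

/-- The `n`-source and `n`-target of a cell. -/
def Cell.d (a : Bool) (n : ℕ) (u : Cell K) : Cell K where
  x b := (u.x b).filter (fun c => K.dim c < n) + (u.x a).filter (fun c => K.dim c = n)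
  pos b c := by
    have := u.pos a c
    have := u.pos b c
    simp only [coe_add, Pi.add_apply, filter_apply, coe_zero, Pi.zero_apply] at *
    split_ifs <;> omega
  bd_x b := by
    rw [map_add, bd_filter (· < n), bd_filter (· = n), u.bd_x, u.bd_x]
    ext c
    simp only [coe_add, Pi.add_apply, filter_apply, coe_sub, Pi.sub_apply]
    split_ifs <;> omega
  aug_x b := by
    rw [map_add, aug_filter (· < n), aug_filter (· = n), u.aug_x, u.aug_x]
    split_ifs <;> omega

theorem Cell.d_apply (a : Bool) (n : ℕ) (u : Cell K) (b : Bool) (c : K.B) :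
    (u.d a n).x b c = if K.dim c < n then u.x b c else if K.dim c = n then u.x a c else 0 := by
  simp only [Cell.d, coe_add, Pi.add_apply, filter_apply]
  split_ifs <;> omega

theorem Cell.ext' {u v : Cell K} (h : ∀ a c, u.x a c = v.x a c) : u = v :=
  Cell.ext (funext fun a => Finsupp.ext (h a))

theorem Cell.cmp {n : ℕ} {u v : Cell K} (h : u.d true n = v.d false n) (c : K.B) :
    (K.dim c < n → u.x false c = v.x false c ∧ u.x true c = v.x true c) ∧
      (K.dim c = n → u.x true c = v.x false c) := by
  have h1 := congrArg (fun w : Cell K => w.x false c) h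
  have h2 := congrArg (fun w : Cell K => w.x true c) h
  simp only [Cell.d_apply] at h1 h2
  constructor <;> intro hc <;> simp_all

open Classical in
/-- The composite `u + v - d_n^+ u` of composable cells. -/
def Cell.comp (n : ℕ) (u v : Cell K) : Cell K :=
  if h : u.d true n = v.d false n then
    { x b := u.x b + v.x b - (u.d true n).x b
      pos b c := by
        have := u.pos b c
        have := v.pos b c
        have := Cell.cmp h c
        simp only [coe_add, Pi.add_apply, coe_sub, Pi.sub_apply, Cell.d_apply, coe_zero,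
          Pi.zero_apply] at *
        cases b <;> split_ifs <;> omega
      bd_x b := by
        rw [map_sub, map_add, u.bd_x, v.bd_x, Cell.bd_x]
        abel
      aug_x b := by rw [map_sub, map_add, u.aug_x, v.aug_x, Cell.aug_x]; rfl }
  else u

theorem Cell.comp_apply {n : ℕ} {u v : Cell K} (h : u.d true n = v.d false n) (b : Bool) (c : K.B) :
    (u.comp n v).x b c = u.x b c + v.x b c -
      if K.dim c < n then u.x b c else if K.dim c = n then u.x true c else 0 := by
  rw [Cell.comp, dif_pos h, ← Cell.d_apply]
  rfl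

theorem Cell.d_lt {a b : Bool} {m n : ℕ} (u : Cell K) (h : m < n) : (u.d a n).d b m = u.d b m :=
  Cell.ext' fun e c => by simp only [Cell.d_apply]; split_ifs <;> omega

theorem Cell.d_ge {a b : Bool} {m n : ℕ} (u : Cell K) (h : n ≤ m) : (u.d a n).d b m = u.d a n :=
  Cell.ext' fun e c => by simp only [Cell.d_apply]; split_ifs <;> omega

theorem Cell.src_comp {n : ℕ} {u v : Cell K} (h : u.d true n = v.d false n) :
    (u.comp n v).d false n = u.d false n :=
  Cell.ext' fun e c => by
    have := Cell.cmp h c
    simp only [Cell.d_apply, Cell.comp_apply h]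
    cases e <;> split_ifs <;> omega

theorem Cell.tgt_comp {n : ℕ} {u v : Cell K} (h : u.d true n = v.d false n) :
    (u.comp n v).d true n = v.d true n :=
  Cell.ext' fun e c => by
    simp only [Cell.d_apply, Cell.comp_apply h]
    cases e <;> split_ifs <;> omega

theorem Cell.d_comp {a : Bool} {m n : ℕ} {u v : Cell K} (h : u.d true n = v.d false n)
    (hm : m ≠ n) : (u.comp n v).d a m = (u.d a m).comp n (v.d a m) := by
  have h' : (u.d a m).d true n = (v.d a m).d false n := by
    rcases lt_or_gt_of_ne hm with k | k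
    · rw [Cell.d_ge _ k.le, Cell.d_ge _ k.le, ← u.d_lt (a := true) k, h, Cell.d_lt _ k]
    · rw [Cell.d_lt _ k, Cell.d_lt _ k, h]
  refine Cell.ext' fun e c => ?_
  simp only [Cell.d_apply, Cell.comp_apply h, Cell.comp_apply h']
  split_ifs <;> omega

open Classical in
/-- Steiner's `ω`-category `ν K`. -/
@[implicit_reducible] def nu (K : ADC) : OmegaCat where
  C := Cell K
  d := Cell.d
  comp := Cell.comp
  d_lt := Cell.d_lt
  d_ge := Cell.d_ge
  id_comp n u := Cell.ext' fun e c => by
    simp only [Cell.comp_apply (u.d_ge le_rfl), Cell.d_apply]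
    split_ifs <;> omega
  comp_id n u := Cell.ext' fun e c => by
    simp only [Cell.comp_apply (u.d_ge le_rfl).symm, Cell.d_apply]
    split_ifs <;> omega
  src_comp := Cell.src_comp
  tgt_comp := Cell.tgt_comp
  d_comp := Cell.d_comp
  assoc {n u v w} h k := Cell.ext' fun e c => by
    have := Cell.cmp h c
    simp only [Cell.comp_apply ((Cell.tgt_comp h).trans k), Cell.comp_apply h, Cell.comp_apply k,
      Cell.comp_apply (h.trans (Cell.src_comp k).symm)]
    cases e <;> split_ifs <;> omega
  interchange {m n u v w z} l h k j := Cell.ext' fun e c => by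
    have j1 : v.d true m = z.d false m := by
      rw [← v.d_lt (a := false) l, ← h, Cell.d_lt _ l, j, ← w.d_lt (a := true) l, k, Cell.d_lt _ l]
    have j2 : (u.comp n v).d true m = (w.comp n z).d false m := by
      rw [← Cell.d_lt (a := false) _ l, Cell.src_comp h, Cell.d_lt _ l, j,
        ← (w.comp n z).d_lt (a := false) l, Cell.src_comp k, Cell.d_lt _ l]
    have j3 : (u.comp m w).d true n = (v.comp m z).d false n := by
      rw [Cell.d_comp j l.ne', Cell.d_comp j1 l.ne', h, k]
    have := Cell.cmp h c
    have := Cell.cmp j c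
    simp only [Cell.comp_apply j2, Cell.comp_apply j3, Cell.comp_apply h, Cell.comp_apply k,
      Cell.comp_apply j, Cell.comp_apply j1]
    cases e <;> split_ifs <;> omega
  fin u := ⟨((u.x false).support ∪ (u.x true).support).sup K.dim + 1, Cell.ext' fun e c => by
    rw [Cell.d_apply]
    by_cases hc : c ∈ (u.x false).support ∪ (u.x true).support
    · rw [if_pos (Nat.lt_succ_of_le (Finset.le_sup (f := K.dim) hc))]
    · simp only [Finset.mem_union, mem_support_iff, not_or, not_not] at hc
      cases e <;> simp [hc.1, hc.2]⟩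

/-- Degree-preserving augmented chain maps that send positive chains to positive chains. -/
@[ext] structure Hom (K L : ADC) where
  f : (K.B →₀ ℤ) →ₗ[ℤ] (L.B →₀ ℤ)
  pos : ∀ b, 0 ≤ f (single b 1)
  dim : ∀ b c, f (single b 1) c ≠ 0 → L.dim c = K.dim b
  bd : ∀ x, L.bd (f x) = f (K.bd x)
  aug : ∀ x, L.aug (f x) = K.aug x

theorem Hom.nonneg (F : Hom K L) {x : K.B →₀ ℤ} (hx : 0 ≤ x) : 0 ≤ F.f x := by
  rw [← x.sum_single, Finsupp.sum, map_sum]
  refine Finset.sum_nonneg fun b _ => ?_
  rw [show single b (x b) = x b • single b (1 : ℤ) by simp, map_smul]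
  exact smul_nonneg (hx b) (F.pos b)

theorem Hom.filter (F : Hom K L) (p : ℕ → Prop) [DecidablePred p] (x : K.B →₀ ℤ) :
    F.f (x.filter fun b => p (K.dim b)) = (F.f x).filter fun c => p (L.dim c) :=
  map_filter _ _ _ (fun b c h => by rw [F.dim b c h]) x

/-- The action of a chain map on cells. -/
def Hom.cell (F : Hom K L) (u : Cell K) : Cell L where
  x a := F.f (u.x a)
  pos a := F.nonneg (u.pos a)
  bd_x a := by rw [F.bd, u.bd_x, map_sub]
  aug_x a := by rw [F.aug, u.aug_x]

theorem Hom.cell_d (F : Hom K L) (a : Bool) (n : ℕ) (u : Cell K) :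
    F.cell (u.d a n) = (F.cell u).d a n :=
  Cell.ext (funext fun b => by
    simp only [Hom.cell, Cell.d, map_add, F.filter (· < n), F.filter (· = n)])

theorem Hom.cell_comp (F : Hom K L) {n : ℕ} {u v : Cell K} (h : u.d true n = v.d false n) :
    F.cell (u.comp n v) = (F.cell u).comp n (F.cell v) := by
  have h' : (F.cell u).d true n = (F.cell v).d false n := by rw [← F.cell_d, ← F.cell_d, h]
  refine Cell.ext (funext fun b => ?_)
  rw [Cell.comp, Cell.comp, dif_pos h, dif_pos h']
  change F.f (_ - _) = _ - ((F.cell u).d true n).x b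
  rw [← F.cell_d, map_sub, map_add]
  rfl

/-- The `ω`-functor `ν F`. -/
def Hom.nu (F : Hom K L) : K.nu ⟶ L.nu := ⟨F.cell, F.cell_d, F.cell_comp⟩

end ADC

section Simplex

/-- Faces of the simplex with vertex set `V`. -/
abbrev Face (V : Type) : Type := {S : Finset V // S.Nonempty}

/-- The basis chain of a finite set of vertices (zero for the empty set). -/
def bas {V : Type} (S : Finset V) : Face V →₀ ℤ := if h : S.Nonempty then single ⟨S, h⟩ 1 else 0

theorem bas_ne {V : Type} {S : Finset V} {T : Face V} (h : bas S T ≠ 0) : T.1 = S := by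
  unfold bas at h
  split_ifs at h
  · exact congrArg Subtype.val (single_apply_ne_zero.1 h).1
  · exact absurd rfl h

theorem lc_bas {V M : Type} [AddCommGroup M] (g : Finset V → M) (h : g ∅ = 0) (S : Finset V) :
    linearCombination ℤ (fun T : Face V => g T.1) (bas S) = g S := by
  unfold bas
  split_ifs with k
  · exact (linearCombination_single _ _ _).trans (one_smul _ _)
  · rw [map_zero, Finset.not_nonempty_iff_eq_empty.1 k, h]

variable {V V' : Type} [LinearOrder V] [LinearOrder V']

/-- The boundary `∂ [i_0 < ... < i_k] = ∑ (-1)^j [i_0 < ... omit i_j ... < i_k]`. -/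
def bdL (V : Type) [LinearOrder V] : (Face V →₀ ℤ) →ₗ[ℤ] (Face V →₀ ℤ) :=
  linearCombination ℤ fun S => ∑ i ∈ S.1, (-1 : ℤ) ^ (S.1.filter (· < i)).card • bas (S.1.erase i)

theorem bd_bas (S : Finset V) :
    bdL V (bas S) = ∑ i ∈ S, (-1 : ℤ) ^ (S.filter (· < i)).card • bas (S.erase i) :=
  lc_bas (fun S => ∑ i ∈ S, (-1 : ℤ) ^ (S.filter (· < i)).card • bas (S.erase i)) rfl S

/-- The normalized chain complex of the simplex with vertex set `V`. -/
@[implicit_reducible] def simplexADC (V : Type) [LinearOrder V] : ADC where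
  B := Face V
  dim S := S.1.card - 1
  bd := bdL V
  bd_dim S T h := by
    rw [bdL, linearCombination_single, one_smul, finsetSum_apply] at h
    obtain ⟨i, hi, h⟩ := Finset.exists_ne_zero_of_sum_ne_zero h
    have e := bas_ne (right_ne_zero_of_smul h)
    have := T.2.card_pos
    rw [e, Finset.card_erase_of_mem hi] at *
    omega

open Classical in
/-- The image of a face under a map of vertex sets (zero if it degenerates). -/
def pushF (f : V → V') (S : Finset V) : Face V' →₀ ℤ :=
  if Set.InjOn f S then bas (S.image f) else 0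

/-- The map of chains induced by a map of vertex sets. -/
def pushL (f : V → V') : (Face V →₀ ℤ) →ₗ[ℤ] (Face V' →₀ ℤ) :=
  linearCombination ℤ fun S => pushF f S.1

omit [LinearOrder V] in
theorem pushL_bas (f : V → V') (S : Finset V) : pushL f (bas S) = pushF f S :=
  lc_bas _ (by simp [pushF, bas]) S

omit [LinearOrder V] in
theorem pushL_single (f : V → V') (S : Face V) (r : ℤ) : pushL f (single S r) = r • pushF f S.1 :=
  linearCombination_single _ _ _

theorem pushF_bd (f : V →o V') (S : Finset V) :
    bdL V' (pushF f S) =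
      ∑ i ∈ S, (-1 : ℤ) ^ (S.filter (· < i)).card • pushF f (S.erase i) := by
  by_cases h : Set.InjOn f S
  · rw [pushF, if_pos h, bd_bas, Finset.sum_image h]
    refine Finset.sum_congr rfl fun i hi => ?_
    have e : (S.image f).erase (f i) = (S.erase i).image f := by
      ext y
      simp only [Finset.mem_erase, Finset.mem_image]
      exact ⟨fun ⟨h1, x, hx, e⟩ => ⟨x, ⟨fun k => h1 (k ▸ e.symm), hx⟩, e⟩,
        fun ⟨x, hx, e⟩ => ⟨fun k => hx.1 (h hx.2 hi (e.trans k)), x, hx.2, e⟩⟩
    rw [pushF, if_pos (h.mono (Finset.erase_subset i S)), e, Finset.filter_image,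
      Finset.card_image_of_injOn (h.mono (Finset.filter_subset _ S)),
      Finset.filter_congr fun k hk => (f.mono.monotoneOn _).strictMonoOn_of_injOn h |>.lt_iff_lt hk hi]
  · rw [pushF, if_neg h, map_zero]
    obtain ⟨a, ha, b, hb, hab, e⟩ : ∃ a ∈ S, ∃ b ∈ S, a < b ∧ f a = f b := by
      by_contra k
      exact h fun a ha b hb e => le_antisymm (not_lt.1 fun l => k ⟨b, hb, a, ha, l, e.symm⟩)
        (not_lt.1 fun l => k ⟨a, ha, b, hb, l, e⟩)
    obtain ⟨j, hj, hm⟩ := (S.filter (a < ·)).exists_min_image id ⟨b, Finset.mem_filter.2 ⟨hb, hab⟩⟩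
    obtain ⟨hj, haj⟩ := Finset.mem_filter.1 hj
    have e' : f a = f j := (f.mono haj.le).antisymm
      (e ▸ f.mono (hm b (Finset.mem_filter.2 ⟨hb, hab⟩)))
    have c1 : S.filter (· < j) = insert a (S.filter (· < a)) := by
      ext k
      simp only [Finset.mem_filter, Finset.mem_insert]
      refine ⟨fun k1 => (lt_trichotomy k a).elim (fun l => Or.inr ⟨k1.1, l⟩) fun l => l.elim Or.inl
        fun l => absurd (hm k (Finset.mem_filter.2 ⟨k1.1, l⟩)) (not_le.2 k1.2), ?_⟩
      rintro (rfl | k1)
      exacts [⟨ha, haj⟩, ⟨k1.1, k1.2.trans haj⟩]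
    have c2 : ∀ {a j}, a ∈ S → a ≠ j → f a = f j → (S.erase j).image f = S.image f :=
      fun {a j} ha hn e => (Finset.image_subset_image (Finset.erase_subset j S)).antisymm
        (Finset.image_subset_iff.2 fun x hx => Finset.mem_image.2 (if k : x = j then
          ⟨a, Finset.mem_erase.2 ⟨hn, ha⟩, k ▸ e⟩ else ⟨x, Finset.mem_erase.2 ⟨k, hx⟩, rfl⟩))
    have c3 : pushF f (S.erase a) = pushF f (S.erase j) := by
      simp only [pushF, ← Finset.card_image_iff, c2 ha haj.ne e', c2 hj haj.ne' e'.symm,
        Finset.card_erase_of_mem ha, Finset.card_erase_of_mem hj]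
    rw [Finset.sum_eq_add_of_mem a j ha hj haj.ne fun k _ hk => ?_, c1,
      Finset.card_insert_of_notMem (by simp), c3, pow_succ, mul_neg_one, neg_smul, add_neg_cancel]
    rw [pushF, if_neg fun l => haj.ne (l (Finset.mem_erase.2 ⟨hk.1.symm, ha⟩)
      (Finset.mem_erase.2 ⟨hk.2.symm, hj⟩) e'), smul_zero]

theorem pushL_bd (f : V →o V') (x : Face V →₀ ℤ) : bdL V' (pushL f x) = pushL f (bdL V x) := by
  induction x using Finsupp.induction_linear with
  | zero => simp
  | add x y hx hy => simp only [map_add, hx, hy]
  | single S r =>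
    rw [pushL_single, bdL.eq_1 V, linearCombination_single]
    simp only [map_smul, map_sum, pushF_bd, pushL_bas]

theorem pushL_aug (f : V → V') (x : Face V →₀ ℤ) :
    (simplexADC V').aug (pushL f x) = (simplexADC V).aug x := by
  have e : ∀ {V : Type} [LinearOrder V] (S : Face V) (r : ℤ),
      (simplexADC V).aug (single S r) = r • if S.1.card - 1 = 0 then 1 else 0 :=
    fun _ _ => linearCombination_single _ _ _
  induction x using Finsupp.induction_linear with
  | zero => simp
  | add x y hx hy => simp only [map_add, hx, hy]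
  | single S r =>
    have := S.2.card_pos
    rw [pushL_single, map_smul, e, pushF]
    by_cases h : Set.InjOn f S.1
    · rw [if_pos h, bas, dif_pos (S.2.image f), e, one_smul, Finset.card_image_of_injOn h]
    · rw [if_neg h, map_zero, if_neg fun k =>
        h fun a ha b hb _ => Finset.card_le_one.1 (by omega) a ha b hb]

/-- The chain map induced by a monotone map. -/
def simplexMap (f : V →o V') : (simplexADC V).Hom (simplexADC V') where
  f := pushL f
  pos S := by
    refine le_of_le_of_eq ?_ (pushL_single f S 1).symm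
    rw [one_smul, pushF, bas]
    split_ifs
    exacts [single_nonneg.2 zero_le_one, le_rfl, le_rfl]
  dim S T h := by
    have h : pushF f S.1 T ≠ 0 := by rwa [← one_smul ℤ (pushF f S.1), ← pushL_single]
    rw [pushF] at h
    split_ifs at h with k
    · change T.1.card - 1 = S.1.card - 1
      rw [bas_ne h, Finset.card_image_of_injOn k]
    · exact absurd rfl h
  bd := pushL_bd f
  aug := pushL_aug f

theorem pushL_id (x : Face V →₀ ℤ) : pushL id x = x := by
  induction x using Finsupp.induction_linear with
  | zero => simp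
  | add x y hx hy => simp only [map_add, hx, hy]
  | single S r => simp [pushL_single, pushF, bas, S.2]

omit [LinearOrder V] in
theorem pushL_comp {V'' : Type} [LinearOrder V''] (f : V → V') (g : V' → V'') (x : Face V →₀ ℤ) :
    pushL (g ∘ f) x = pushL g (pushL f x) := by
  induction x using Finsupp.induction_linear with
  | zero => simp
  | add x y hx hy => simp only [map_add, hx, hy]
  | single S r =>
    simp only [pushL_single, map_smul]
    congr 1
    by_cases h : Set.InjOn f S.1
    · rw [pushF.eq_1 f, if_pos h, pushL_bas, pushF, pushF, Finset.image_image]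
      refine if_congr ?_ rfl rfl
      rw [Finset.coe_image]
      exact ⟨Set.InjOn.image_of_comp, fun k => k.comp h (Set.mapsTo_image _ _)⟩
    · rw [pushF.eq_1 f, if_neg h, map_zero, pushF, if_neg fun k => h (Set.InjOn.of_comp k)]

end Simplex

/-- The orientals `O_m = ν C(Δ^m)`, as a cosimplicial `ω`-category. -/
def oriental : SimplexCategory ⥤ OmegaCat where
  obj m := (simplexADC (Fin (m.len + 1))).nu
  map θ := (simplexMap θ.toOrderHom).nu
  map_id _ := OmegaCat.Hom.ext (funext fun _ => ADC.Cell.ext (funext fun _ => pushL_id _))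
  map_comp θ θ' := OmegaCat.Hom.ext (funext fun _ => ADC.Cell.ext (funext fun _ =>
    pushL_comp θ.toOrderHom θ'.toOrderHom _))

/-- The Street nerve `X ↦ (m ↦ Hom(O_m, X))` on strict `n`-categories. -/
def streetNerve (n : ℕ∞) : NCat n ⥤ SSet.{0} :=
  (IsNCat n).ι ⋙ yoneda ⋙ (Functor.whiskeringLeft _ _ _).obj oriental.op

/-- Simplicially homotopic maps (the equivalence relation generated by homotopies). -/
def Htp {X Y : SSet.{0}} : (X ⟶ Y) → (X ⟶ Y) → Prop :=
  Relation.EqvGen fun f g => Nonempty (SSet.Homotopy f g)

/-- Weak homotopy equivalences of simplicial sets: maps inducing bijections on homotopy classes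
of maps to every Kan complex. -/
def WHE : MorphismProperty SSet.{0} := fun X Y f => ∀ Z : SSet.{0}, SSet.KanComplex Z →
  (∀ g : X ⟶ Z, ∃ h : Y ⟶ Z, Htp (f ≫ h) g) ∧ ∀ h h' : Y ⟶ Z, Htp (f ≫ h) (f ≫ h') → Htp h h'

/-- Kan fibrations. -/
def KanFib : MorphismProperty SSet.{0} := SSet.modelCategoryQuillen.J.rlp

/-- The class `W_n`. -/
def Wn (n : ℕ∞) : MorphismProperty (NCat n) := WHE.inverseImage (streetNerve n)

/-- The class `F_n`. -/
def Fn (n : ℕ∞) : MorphismProperty (NCat n) :=
  KanFib.inverseImage (streetNerve n ⋙ SSet.ex ⋙ SSet.ex)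

/-- The class `C_n`. -/
def Cn (n : ℕ∞) : MorphismProperty (NCat n) := (Fn n ⊓ Wn n).llp

/-- The three classes form a model structure. -/
def IsModel {𝒞 : Type 1} [Category.{0} 𝒞] (C W F : MorphismProperty 𝒞) : Prop :=
  ∃ M : HomotopicalAlgebra.ModelCategory 𝒞, M.categoryWithCofibrations.cofibrations = C ∧
    M.categoryWithWeakEquivalences.weakEquivalences = W ∧ M.categoryWithFibrations.fibrations = F

end Vale.Agent.P213
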