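import Vale.Agent.P213.Defs

/-! Simplicial homotopies and weak homotopy equivalences: basic properties. -/

open CategoryTheory Limits Opposite Simplicial MonoidalCategory SSet

set_option backward.isDefEq.respectTransparency false

noncomputable section

namespace Vale.Agent.P213

/-- The map of nerves induced by a monotone map. -/
def nmap {P Q : Type} [PartialOrder P] [PartialOrder Q] (φ : P →o Q) : nerve P ⟶ nerve Q :=
  nerveMap φ.monotone.functor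

/-- The nerve of a subset of a poset, as a subcomplex. -/
def nsub {B : Type} [PartialOrder B] (A : Set B) : (nerve B).Subcomplex where
  obj _ := {σ | ∀ i, σ.obj i ∈ A}
  map _ _ h _ := h _

theorem nsub_mono {B : Type} [PartialOrder B] {A A' : Set B} (h : A ⊆ A') : nsub A ≤ nsub A' :=
  fun _ _ k i => h (k i)

/-- Trivial fibrations. -/
abbrev TFib : MorphismProperty SSet.{0} := modelCategoryQuillen.I.rlp

variable {X Y Z W : SSet.{0}}

theorem kan_iff : KanComplex X ↔ KanFib (terminal.from X) := by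
  open modelCategoryQuillen in
  exact (HomotopicalAlgebra.isFibrant_iff X).trans (modelCategoryQuillen.fibration_iff _)

theorem Htp.refl (f : X ⟶ Y) : Htp f f := Relation.EqvGen.refl f

theorem Htp.symm {f g : X ⟶ Y} (h : Htp f g) : Htp g f := Relation.EqvGen.symm _ _ h

theorem Htp.trans {f g k : X ⟶ Y} (h : Htp f g) (h' : Htp g k) : Htp f k :=
  Relation.EqvGen.trans _ _ _ h h'

theorem Htp.of_map {f g : X ⟶ Y} (H : X ⊗ Δ[1] ⟶ Y) (h0 : ι₀ ≫ H = f) (h1 : ι₁ ≫ H = g) :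
    Htp f g := by
  refine Relation.EqvGen.rel _ _ ⟨⟨H, h0, h1, ?_⟩⟩
  ext n ⟨⟨x, hx⟩, t⟩
  exact hx.elim

/-- Induction on homotopic maps. -/
theorem Htp.ind {R : (X ⟶ Y) → (X ⟶ Y) → Prop} (hR : Equivalence R)
    (h : ∀ H : X ⊗ Δ[1] ⟶ Y, R (ι₀ ≫ H) (ι₁ ≫ H)) {f g : X ⟶ Y} (k : Htp f g) : R f g := by
  induction k with
  | rel f g k =>
    obtain ⟨k⟩ := k
    have := h k.h
    rwa [SSet.Homotopy.h₀, SSet.Homotopy.h₁] at this
  | refl f => exact hR.refl f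
  | symm f g _ ih => exact hR.symm ih
  | trans f g k _ _ ih ih' => exact hR.trans ih ih'

theorem Htp.precomp {f g : X ⟶ Y} (h : Htp f g) (u : W ⟶ X) : Htp (u ≫ f) (u ≫ g) := by
  refine Htp.ind (R := fun f g => Htp (u ≫ f) (u ≫ g))
    ⟨fun _ => Htp.refl _, Htp.symm, Htp.trans⟩ (fun H => ?_) h
  exact Htp.of_map (u ▷ Δ[1] ≫ H) (by simp) (by simp)

theorem Htp.postcomp {f g : X ⟶ Y} (h : Htp f g) (v : Y ⟶ Z) : Htp (f ≫ v) (g ≫ v) := by
  refine Htp.ind (R := fun f g => Htp (f ≫ v) (g ≫ v))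
    ⟨fun _ => Htp.refl _, Htp.symm, Htp.trans⟩ (fun H => ?_) h
  exact Htp.of_map (H ≫ v) (by simp) (by simp)

/-- The isomorphism `X ⟶ X ⊗ Δ[0]`. -/
def khE (X : SSet.{0}) : X ⟶ X ⊗ Δ[0] :=
  CartesianMonoidalCategory.lift (𝟙 X) (stdSimplex.isTerminalObj₀.from X)

theorem khE_fst (X : SSet.{0}) : khE X ≫ CartesianMonoidalCategory.fst _ _ = 𝟙 X := by
  simp [khE]

theorem fst_khE (X : SSet.{0}) : CartesianMonoidalCategory.fst _ _ ≫ khE X = 𝟙 _ := by
  apply CartesianMonoidalCategory.hom_ext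
  · simp [khE]
  · exact stdSimplex.ext₀

theorem khE_nat (f : X ⟶ Y) : khE X ≫ f ▷ Δ[0] = f ≫ khE Y := by
  apply CartesianMonoidalCategory.hom_ext
  · simp [khE]
  · exact stdSimplex.ext₀

instance khE_epi (X : SSet.{0}) : Epi (khE X) :=
  (IsSplitEpi.mk' ⟨_, fst_khE X⟩).epi

theorem khE_δ₁ (X : SSet.{0}) : khE X ≫ X ◁ stdSimplex.δ (1 : Fin 2) = ι₀ := by
  apply CartesianMonoidalCategory.hom_ext
  · simp [khE]
  · simp [khE, stdSimplex.δ_one_eq_const]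

theorem khE_δ₀ (X : SSet.{0}) : khE X ≫ X ◁ stdSimplex.δ (0 : Fin 2) = ι₁ := by
  apply CartesianMonoidalCategory.hom_ext
  · simp [khE]
  · simp [khE, stdSimplex.δ_zero_eq_const]

theorem kh_euclid (hY : KanComplex Y) (H K : X ⊗ Δ[1] ⟶ Y) (h : ι₀ ≫ H = ι₀ ≫ K) :
    ∃ L : X ⊗ Δ[1] ⟶ Y, ι₀ ≫ L = ι₁ ≫ H ∧ ι₁ ≫ L = ι₁ ≫ K := by
  have hc : horn.IsCompatible (i := (0 : Fin 3)) (X := (ihom X).obj Y)
      (fun j _ => if j = 2 then MonoidalClosed.curry H else MonoidalClosed.curry K) := by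
    rw [horn.isCompatible_iff]
    intro j k hj hk hjk
    obtain ⟨rfl, rfl⟩ : j = 1 ∧ k = 2 :=
      (by decide : ∀ j k : Fin 3, j ≠ 0 → k ≠ 0 → j < k → j = 1 ∧ k = 2) j k hj hk hjk
    have e : X ◁ stdSimplex.δ (1 : Fin 2) ≫ K = X ◁ stdSimplex.δ (1 : Fin 2) ≫ H := by
      rw [← cancel_epi (khE X), ← Category.assoc, ← Category.assoc, khE_δ₁, h]
    show stdSimplex.δ (1 : Fin 2) ≫ MonoidalClosed.curry K =
      stdSimplex.δ (1 : Fin 2) ≫ MonoidalClosed.curry H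
    rw [← MonoidalClosed.curry_natural_left, ← MonoidalClosed.curry_natural_left, e]
  obtain ⟨φ, hφ⟩ := hc.exists_lift_of_kanComplex
  have h1 : stdSimplex.δ (1 : Fin 3) ≫ φ = MonoidalClosed.curry K := hφ 1 (by decide)
  have h2 : stdSimplex.δ (2 : Fin 3) ≫ φ = MonoidalClosed.curry H := hφ 2 (by decide)
  have e1 : stdSimplex.{0}.δ (1 : Fin 2) ≫ stdSimplex.δ (0 : Fin 3) =
      stdSimplex.δ (0 : Fin 2) ≫ stdSimplex.δ (2 : Fin 3) := by decide
  have e2 : stdSimplex.{0}.δ (0 : Fin 2) ≫ stdSimplex.δ (0 : Fin 3) =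
      stdSimplex.δ (0 : Fin 2) ≫ stdSimplex.δ (1 : Fin 3) := by decide
  refine ⟨MonoidalClosed.uncurry (stdSimplex.δ (0 : Fin 3) ≫ φ), ?_, ?_⟩
  · rw [← khE_δ₁, ← khE_δ₀, Category.assoc, Category.assoc,
      ← MonoidalClosed.uncurry_natural_left, ← Category.assoc, e1, Category.assoc, h2,
      MonoidalClosed.uncurry_natural_left, MonoidalClosed.uncurry_curry]
  · rw [← khE_δ₀, Category.assoc, Category.assoc,
      ← MonoidalClosed.uncurry_natural_left, ← Category.assoc, e2, Category.assoc, h1,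
      MonoidalClosed.uncurry_natural_left, MonoidalClosed.uncurry_curry]

theorem Htp.exists_of_kan (hY : KanComplex Y) {f g : X ⟶ Y} (h : Htp f g) :
    ∃ H : X ⊗ Δ[1] ⟶ Y, ι₀ ≫ H = f ∧ ι₁ ≫ H = g := by
  have hr : ∀ f : X ⟶ Y, ∃ H : X ⊗ Δ[1] ⟶ Y, ι₀ ≫ H = f ∧ ι₁ ≫ H = f := fun f =>
    ⟨CartesianMonoidalCategory.fst _ _ ≫ f, by simp, by simp⟩
  have hs : ∀ {f g : X ⟶ Y}, (∃ H : X ⊗ Δ[1] ⟶ Y, ι₀ ≫ H = f ∧ ι₁ ≫ H = g) →
      ∃ H : X ⊗ Δ[1] ⟶ Y, ι₀ ≫ H = g ∧ ι₁ ≫ H = f := by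
    rintro f g ⟨H, h0, h1⟩
    obtain ⟨K, k0, k1⟩ := hr f
    obtain ⟨L, l0, l1⟩ := kh_euclid hY H K (h0.trans k0.symm)
    exact ⟨L, l0.trans h1, l1.trans k1⟩
  refine Htp.ind (R := fun f g => ∃ H : X ⊗ Δ[1] ⟶ Y, ι₀ ≫ H = f ∧ ι₁ ≫ H = g)
    ⟨hr, hs, ?_⟩ (fun H => ⟨H, rfl, rfl⟩) h
  rintro f g k hfg ⟨K, k0, k1⟩
  obtain ⟨H, h0, h1⟩ := hs hfg
  obtain ⟨L, l0, l1⟩ := kh_euclid hY H K (h0.trans k0.symm)
  exact ⟨L, l0.trans h1, l1.trans k1⟩

theorem kh_anodyne_δ (k : Fin 2) :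
    anodyneExtensions (stdSimplex.δ k : (Δ[0] : SSet.{0}) ⟶ Δ[1]) := by
  intro E B p hp
  open modelCategoryQuillen in
  have : HomotopicalAlgebra.Fibration p := (modelCategoryQuillen.fibration_iff p).2 hp
  refine ⟨fun {t b} sq => ?_⟩
  have hk : k ≠ k.rev := (by decide : ∀ k : Fin 2, k ≠ k.rev) k
  have hj : ∀ j : Fin 2, j ≠ k.rev → j = k :=
    (by decide : ∀ k j : Fin 2, j ≠ k.rev → j = k) k
  have hc : horn.IsCompatible (i := k.rev) (fun _ _ => t) := trivial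
  obtain ⟨φ, h1, h2⟩ := hc.exists_lift p b (fun j h => by rw [hj j h]; exact sq.w)
  exact ⟨⟨⟨φ, h1 k hk, h2⟩⟩⟩

/-- Lifting against a pushout-product. -/
theorem kh_lift {A S T E B : SSet.{0}} (i : A ⟶ Y) (j : S ⟶ T) {p : E ⟶ B} (hp : KanFib p)
    (hij : anodyneExtensions
      (Functor.PushoutObjObj.ofHasPushout (curriedTensor SSet.{0}) i j).ι)
    (a : A ⊗ T ⟶ E) (y : Y ⊗ S ⟶ E) (b : Y ⊗ T ⟶ B) (h1 : A ◁ j ≫ a = i ▷ S ≫ y)
    (h2 : a ≫ p = i ▷ T ≫ b) (h3 : y ≫ p = Y ◁ j ≫ b) :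
    ∃ l : Y ⊗ T ⟶ E, i ▷ T ≫ l = a ∧ Y ◁ j ≫ l = y ∧ l ≫ p = b := by
  set sq := Functor.PushoutObjObj.ofHasPushout (curriedTensor SSet.{0}) i j
  have hl : HasLiftingProperty sq.ι p := hij p hp
  have w : CommSq (sq.isPushout.desc y a h1.symm) sq.ι p b := ⟨by
    apply sq.isPushout.hom_ext
    · rw [sq.isPushout.inl_desc_assoc, sq.inl_ι_assoc]; exact h3
    · rw [sq.isPushout.inr_desc_assoc, sq.inr_ι_assoc]; exact h2⟩
  refine ⟨w.lift, ?_, ?_, w.fac_right⟩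
  · have := sq.inr ≫= w.fac_left
    rwa [sq.inr_ι_assoc, sq.isPushout.inr_desc] at this
  · have := sq.inl ≫= w.fac_left
    rwa [sq.inl_ι_assoc, sq.isPushout.inl_desc] at this

theorem kh_hlp {A E B : SSet.{0}} (k : Fin 2) (i : A ⟶ Y) [Mono i] {p : E ⟶ B} (hp : KanFib p)
    (a : A ⊗ Δ[1] ⟶ E) (y : Y ⟶ E) (b : Y ⊗ Δ[1] ⟶ B)
    (h1 : (khE A ≫ A ◁ stdSimplex.δ k) ≫ a = i ≫ y)
    (h2 : a ≫ p = i ▷ Δ[1] ≫ b) (h3 : y ≫ p = (khE Y ≫ Y ◁ stdSimplex.δ k) ≫ b) :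
    ∃ l : Y ⊗ Δ[1] ⟶ E, i ▷ Δ[1] ≫ l = a ∧ (khE Y ≫ Y ◁ stdSimplex.δ k) ≫ l = y ∧
      l ≫ p = b := by
  obtain ⟨l, l1, l2, l3⟩ := kh_lift i (stdSimplex.δ k) hp
    (anodyneExtensions_pushoutObjObjι _ (kh_anodyne_δ k)) a
    (CartesianMonoidalCategory.fst _ _ ≫ y) b
    (by rw [← cancel_epi (khE A), ← Category.assoc, h1, ← Category.assoc, khE_nat,
      Category.assoc, ← Category.assoc (khE Y), khE_fst, Category.id_comp]) h2
    (by rw [Category.assoc, h3, Category.assoc, ← Category.assoc, fst_khE, Category.id_comp])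
  refine ⟨l, l1, ?_, l3⟩
  rw [Category.assoc, l2, ← Category.assoc, khE_fst, Category.id_comp]

/-- Relative homotopy lifting, starting at the end `0`. -/
theorem hlp₀ {A E B : SSet.{0}} (i : A ⟶ Y) [Mono i] {p : E ⟶ B} (hp : KanFib p)
    (a : A ⊗ Δ[1] ⟶ E) (y : Y ⟶ E) (b : Y ⊗ Δ[1] ⟶ B) (h1 : ι₀ ≫ a = i ≫ y)
    (h2 : a ≫ p = i ▷ Δ[1] ≫ b) (h3 : y ≫ p = ι₀ ≫ b) :
    ∃ l : Y ⊗ Δ[1] ⟶ E, i ▷ Δ[1] ≫ l = a ∧ ι₀ ≫ l = y ∧ l ≫ p = b := by
  have := kh_hlp 1 i hp a y b (by rw [khE_δ₁, h1]) h2 (by rw [khE_δ₁, h3])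
  rwa [khE_δ₁] at this

/-- Relative homotopy lifting, starting at the end `1`. -/
theorem hlp₁ {A E B : SSet.{0}} (i : A ⟶ Y) [Mono i] {p : E ⟶ B} (hp : KanFib p)
    (a : A ⊗ Δ[1] ⟶ E) (y : Y ⟶ E) (b : Y ⊗ Δ[1] ⟶ B) (h1 : ι₁ ≫ a = i ≫ y)
    (h2 : a ≫ p = i ▷ Δ[1] ≫ b) (h3 : y ≫ p = ι₁ ≫ b) :
    ∃ l : Y ⊗ Δ[1] ⟶ E, i ▷ Δ[1] ≫ l = a ∧ ι₁ ≫ l = y ∧ l ≫ p = b := by
  have := kh_hlp 0 i hp a y b (by rw [khE_δ₀, h1]) h2 (by rw [khE_δ₀, h3])
  rwa [khE_δ₀] at this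

theorem kh_comp {f : X ⟶ Y} {g : Y ⟶ Z} (hf : WHE f) (hg : WHE g) : WHE (f ≫ g) := by
  intro K hK
  refine ⟨fun u => ?_, fun h h' k => ?_⟩
  · obtain ⟨v, hv⟩ := (hf K hK).1 u
    obtain ⟨w, hw⟩ := (hg K hK).1 v
    exact ⟨w, by rw [Category.assoc]; exact (hw.precomp f).trans hv⟩
  · rw [Category.assoc, Category.assoc] at k
    exact (hg K hK).2 _ _ ((hf K hK).2 _ _ k)

theorem kh_id (X : SSet.{0}) : WHE (𝟙 X) := fun _ _ =>
  ⟨fun g => ⟨g, by rw [Category.id_comp]; exact Htp.refl g⟩,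
    fun h h' k => by rwa [Category.id_comp, Category.id_comp] at k⟩

instance : WHE.IsMultiplicative where
  id_mem := kh_id
  comp_mem _ _ := kh_comp

instance : WHE.HasTwoOutOfThreeProperty where
  of_postcomp {X Y Z} f g hg hfg := by
    intro K hK
    refine ⟨fun u => ?_, fun h h' k => ?_⟩
    · obtain ⟨w, hw⟩ := (hfg K hK).1 u
      exact ⟨g ≫ w, by rwa [Category.assoc] at hw⟩
    · obtain ⟨w, hw⟩ := (hg K hK).1 h
      obtain ⟨w', hw'⟩ := (hg K hK).1 h'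
      have : Htp w w' := (hfg K hK).2 _ _ (by
        rw [Category.assoc, Category.assoc]
        exact ((hw.precomp f).trans k).trans (hw'.precomp f).symm)
      exact (hw.symm.trans (this.precomp g)).trans hw'
  of_precomp {X Y Z} f g hf hfg := by
    intro K hK
    refine ⟨fun u => ?_, fun h h' k => ?_⟩
    · obtain ⟨w, hw⟩ := (hfg K hK).1 (f ≫ u)
      exact ⟨w, (hf K hK).2 _ _ (by rwa [Category.assoc] at hw)⟩
    · exact (hfg K hK).2 _ _ (by rw [Category.assoc, Category.assoc]; exact k.precomp f)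

theorem kh_of_he (f : X ⟶ Y) (g : Y ⟶ X) (h1 : Htp (f ≫ g) (𝟙 X)) (h2 : Htp (g ≫ f) (𝟙 Y)) :
    WHE f := by
  intro K _
  refine ⟨fun u => ⟨g ≫ u, ?_⟩, fun h h' k => ?_⟩
  · have := h1.postcomp u
    rwa [Category.assoc, Category.id_comp] at this
  · have a := h2.postcomp h
    have b := h2.postcomp h'
    rw [Category.assoc, Category.id_comp] at a b
    exact (a.symm.trans (k.precomp g)).trans b

theorem kh_iso (f : X ⟶ Y) [IsIso f] : WHE f :=
  kh_of_he f (inv f) (by rw [IsIso.hom_inv_id]; exact Htp.refl _)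
    (by rw [IsIso.inv_hom_id]; exact Htp.refl _)

instance : WHE.RespectsIso :=
  MorphismProperty.RespectsIso.mk _ (fun e _ hf => kh_comp (kh_iso e.hom) hf)
    (fun e _ hf => kh_comp hf (kh_iso e.hom))

instance : WHE.IsStableUnderRetracts where
  of_retract {X Y X' Y' f g} r hg := by
    intro K hK
    refine ⟨fun u => ?_, fun h h' k => ?_⟩
    · obtain ⟨w, hw⟩ := (hg K hK).1 (r.left.r ≫ u)
      refine ⟨r.right.i ≫ w, ?_⟩
      have := hw.precomp r.left.i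
      have e : r.left.i ≫ g = f ≫ r.right.i := r.i.w
      rwa [← Category.assoc, e, Category.assoc, r.left.retract_assoc] at this
    · have e : r.left.r ≫ f = g ≫ r.right.r := r.r.w
      have := (hg K hK).2 (r.right.r ≫ h) (r.right.r ≫ h') (by
        rw [← Category.assoc, ← Category.assoc, ← e, Category.assoc, Category.assoc]
        exact k.precomp _)
      have := this.precomp r.right.i
      rwa [r.right.retract_assoc, r.right.retract_assoc] at this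

theorem WHE.of_he (f : X ⟶ Y) (g : Y ⟶ X) (h1 : Htp (f ≫ g) (𝟙 X)) (h2 : Htp (g ≫ f) (𝟙 Y)) :
    WHE f :=
  kh_of_he f g h1 h2

theorem WHE.of_htp {f g : X ⟶ Y} (h : Htp f g) (hf : WHE f) : WHE g := by
  intro K hK
  refine ⟨fun u => ?_, fun v v' k => ?_⟩
  · obtain ⟨v, hv⟩ := (hf K hK).1 u
    exact ⟨v, (h.postcomp v).symm.trans hv⟩
  · exact (hf K hK).2 _ _ (((h.postcomp v).trans k).trans (h.postcomp v').symm)

theorem WHE.he (hX : KanComplex X) (hY : KanComplex Y) {f : X ⟶ Y} (hf : WHE f) :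
    ∃ g : Y ⟶ X, Htp (f ≫ g) (𝟙 X) ∧ Htp (g ≫ f) (𝟙 Y) := by
  obtain ⟨g, hg⟩ := (hf X hX).1 (𝟙 X)
  refine ⟨g, hg, (hf Y hY).2 _ _ ?_⟩
  have := hg.postcomp f
  rwa [Category.assoc, Category.id_comp, ← Category.comp_id f, Category.comp_id f,
    ← Category.comp_id f] at this

theorem kh_bd_const {m : ℕ} (t : (∂Δ[1] : SSet.{0}) _⦋m⦌) (i : Fin (m + 1)) :
    t.1 i = t.1 0 := by
  obtain ⟨t, ht⟩ := t
  obtain ⟨j, hj⟩ := (mem_boundary_iff_notMem_range t).1 ht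
  have h1 : t i ≠ j := fun h => hj ⟨i, h⟩
  have h2 : t 0 ≠ j := fun h => hj ⟨0, h⟩
  show t i = t 0
  omega

/-- The map on `X ⊗ ∂Δ[1]` given by two maps. -/
def khGlue (f g : X ⟶ Z) : X ⊗ (∂Δ[1] : SSet.{0}) ⟶ Z where
  app n := ↾fun x => if (stdSimplex.asOrderHom x.2.1) 0 = 0 then f.app n x.1 else g.app n x.1
  naturality := by
    rintro ⟨⟨m⟩⟩ ⟨⟨n⟩⟩ φ
    ext ⟨x, t⟩
    have e : stdSimplex.asOrderHom ((∂Δ[1] : SSet.{0}).map φ t).1 0 =
        stdSimplex.asOrderHom t.1 0 := kh_bd_const t (φ.unop.toOrderHom 0)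
    show (if stdSimplex.asOrderHom ((∂Δ[1] : SSet.{0}).map φ t).1 0 = 0 then
        f.app _ (X.map φ x) else g.app _ (X.map φ x)) =
      Z.map φ (if stdSimplex.asOrderHom t.1 0 = 0 then f.app _ x else g.app _ x)
    rw [e]
    split_ifs
    · exact NatTrans.naturality_apply f φ x
    · exact NatTrans.naturality_apply g φ x

/-- The two ends of `X ⊗ ∂Δ[1]`. -/
def khJ (k : Fin 2) (X : SSet.{0}) : X ⟶ X ⊗ (∂Δ[1] : SSet.{0}) := khE X ≫ X ◁ boundary.ι k

theorem khJ_one (X : SSet.{0}) : khJ 1 X ≫ X ◁ (∂Δ[1]).ι = ι₀ := by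
  rw [khJ, Category.assoc, ← whiskerLeft_comp, boundary.ι_ι, khE_δ₁]

theorem khJ_zero (X : SSet.{0}) : khJ 0 X ≫ X ◁ (∂Δ[1]).ι = ι₁ := by
  rw [khJ, Category.assoc, ← whiskerLeft_comp, boundary.ι_ι, khE_δ₀]

theorem khJ_nat (k : Fin 2) (f : X ⟶ Y) : khJ k X ≫ f ▷ _ = f ≫ khJ k Y := rfl

theorem khJ_one_glue (f g : X ⟶ Z) : khJ 1 X ≫ khGlue f g = f := by
  ext n x
  show (if (0 : Fin 2) = 0 then f.app n x else g.app n x) = f.app n x
  exact if_pos rfl

theorem khJ_zero_glue (f g : X ⟶ Z) : khJ 0 X ≫ khGlue f g = g := by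
  ext n x
  show (if (1 : Fin 2) = 0 then f.app n x else g.app n x) = g.app n x
  exact if_neg (by decide)

theorem khJ_ext {u v : X ⊗ (∂Δ[1] : SSet.{0}) ⟶ Z} (h1 : khJ 1 X ≫ u = khJ 1 X ≫ v)
    (h0 : khJ 0 X ≫ u = khJ 0 X ≫ v) : u = v := by
  apply MonoidalClosed.curry_injective
  apply boundary.hom_ext
  intro k
  rw [← MonoidalClosed.curry_natural_left, ← MonoidalClosed.curry_natural_left]
  congr 1
  rw [← cancel_epi (khE X), ← Category.assoc, ← Category.assoc]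
  fin_cases k
  · exact h0
  · exact h1

theorem whe_of_anodyne {f : X ⟶ Y} (hf : anodyneExtensions f) : WHE f := by
  intro K hK
  have hK' := kan_iff.1 hK
  refine ⟨fun u => ?_, fun h h' k => ?_⟩
  · have hl : HasLiftingProperty f (terminal.from K) := hf _ hK'
    have sq : CommSq u f (terminal.from K) (terminal.from Y) := ⟨terminal.hom_ext _ _⟩
    exact ⟨sq.lift, by rw [sq.fac_left]; exact Htp.refl u⟩
  · obtain ⟨H, h0, h1⟩ := k.exists_of_kan hK
    obtain ⟨l, _, l2, _⟩ := kh_lift f (∂Δ[1]).ι hK' (anodyneExtensions_pushoutObjObjι' _ hf) H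
      (khGlue h h') (terminal.from _)
      (by
        apply khJ_ext
        · rw [← Category.assoc, khJ_one, h0, ← Category.assoc, khJ_nat, Category.assoc,
            khJ_one_glue]
        · rw [← Category.assoc, khJ_zero, h1, ← Category.assoc, khJ_nat, Category.assoc,
            khJ_zero_glue])
      (terminal.hom_ext _ _) (terminal.hom_ext _ _)
    refine Htp.of_map l ?_ ?_
    · rw [← khJ_one, Category.assoc, l2, khJ_one_glue]
    · rw [← khJ_zero, Category.assoc, l2, khJ_zero_glue]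

theorem kh_tfib_lift {A B : SSet.{0}} {f : X ⟶ Y} (hf : TFib f) (i : A ⟶ B) [Mono i] :
    HasLiftingProperty i f := by
  have : (MorphismProperty.monomorphisms SSet.{0}).rlp f := by
    rw [rlp_monomorphisms]; exact hf
  exact this i (MorphismProperty.monomorphisms.infer_property i)

theorem kh_mono_whiskerLeft {A B : SSet.{0}} (X : SSet.{0}) (i : A ⟶ B) [Mono i] :
    Mono (X ◁ i) := ⟨fun u v h => by
  apply CartesianMonoidalCategory.hom_ext
  · simpa using h =≫ CartesianMonoidalCategory.fst _ _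
  · rw [← cancel_mono i]
    simpa using h =≫ CartesianMonoidalCategory.snd _ _⟩

theorem whe_of_tfib {f : X ⟶ Y} (hf : TFib f) : WHE f := by
  have h1 := kh_tfib_lift hf (initial.to Y)
  have sq : CommSq (initial.to X) (initial.to Y) f (𝟙 Y) := ⟨initial.hom_ext _ _⟩
  have hs : sq.lift ≫ f = 𝟙 Y := sq.fac_right
  have := kh_mono_whiskerLeft X (∂Δ[1]).ι
  have h2 := kh_tfib_lift hf (X ◁ (∂Δ[1]).ι)
  have sq' : CommSq (khGlue (f ≫ sq.lift) (𝟙 X)) (X ◁ (∂Δ[1]).ι) f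
      (CartesianMonoidalCategory.fst _ _ ≫ f) := ⟨by
    apply khJ_ext
    · rw [← Category.assoc, khJ_one_glue, ← Category.assoc (khJ 1 X), khJ_one]
      simp
    · rw [← Category.assoc, khJ_zero_glue, ← Category.assoc (khJ 0 X), khJ_zero]
      simp⟩
  refine WHE.of_he f sq.lift (Htp.of_map sq'.lift ?_ ?_) (by rw [hs]; exact Htp.refl _)
  · rw [← khJ_one, Category.assoc, sq'.fac_left, khJ_one_glue]
  · rw [← khJ_zero, Category.assoc, sq'.fac_left, khJ_zero_glue]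

theorem kanFib_of_tfib {f : X ⟶ Y} (hf : TFib f) : KanFib f := by
  intro A B i hi
  have : Mono i := modelCategoryQuillen.J_le_monomorphisms i hi
  exact kh_tfib_lift hf i

attribute [local instance] Cardinal.fact_isRegular_aleph0 Cardinal.orderBotAleph0OrdToType

instance kh_small_I : MorphismProperty.IsSmall.{0} modelCategoryQuillen.I.{0} :=
  MorphismProperty.isSmall_ofHoms ..

instance kh_card_I : MorphismProperty.IsCardinalForSmallObjectArgument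
    modelCategoryQuillen.I.{0} Cardinal.aleph0.{0} where
  preservesColimit {A B X Y} i hi f hf := by
    have : IsFinitelyPresentable.{0} A := by
      obtain ⟨n⟩ := hi
      infer_instance
    infer_instance

instance : MorphismProperty.HasSmallObjectArgument.{0} modelCategoryQuillen.I.{0} :=
  ⟨.aleph0, inferInstance, inferInstance, inferInstance⟩

theorem exists_mono_tfib (f : X ⟶ Y) :
    ∃ (M : SSet.{0}) (i : X ⟶ M) (p : M ⟶ Y), Mono i ∧ TFib p ∧ i ≫ p = f := by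
  have hle : modelCategoryQuillen.I.{0}.rlp.llp ≤ MorphismProperty.monomorphisms _ := by
    rw [MorphismProperty.llp_rlp_of_hasSmallObjectArgument.{0}]
    simp only [MorphismProperty.retracts_le_iff, MorphismProperty.transfiniteCompositions_le_iff,
      MorphismProperty.pushouts_le_iff, MorphismProperty.coproducts_le_iff]
    exact modelCategoryQuillen.I_le_monomorphisms
  let d := MorphismProperty.factorizationData modelCategoryQuillen.I.{0}.rlp.llp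
    modelCategoryQuillen.I.{0}.rlp f
  exact ⟨d.Z, d.i, d.p, hle _ d.hi, d.hp, d.fac⟩

theorem exists_anodyne_fib (f : X ⟶ Y) :
    ∃ (M : SSet.{0}) (i : X ⟶ M) (p : M ⟶ Y), anodyneExtensions i ∧ KanFib p ∧ i ≫ p = f := by
  let d := MorphismProperty.factorizationData modelCategoryQuillen.J.{0}.rlp.llp
    modelCategoryQuillen.J.{0}.rlp f
  exact ⟨d.Z, d.i, d.p, d.hi, d.hp, d.fac⟩

theorem mono_of_anodyne {f : X ⟶ Y} (hf : anodyneExtensions f) : Mono f := by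
  obtain ⟨M, i, p, hi, hp, fac⟩ := exists_mono_tfib f
  have hl : HasLiftingProperty f p := hf _ (kanFib_of_tfib hp)
  have sq : CommSq i f p (𝟙 Y) := ⟨by rw [fac, Category.comp_id]⟩
  exact mono_of_mono_fac sq.fac_left

/-- A subcomplex into which the whole complex deforms is an anodyne extension. -/
theorem anodyne_of_htpy₀ (U : X.Subcomplex) (H : X ⊗ Δ[1] ⟶ X) (h0 : ι₀ ≫ H = 𝟙 X)
    (h1 : Subcomplex.range (ι₁ ≫ H) ≤ U) (h2 : Subcomplex.range (U.ι ▷ Δ[1] ≫ H) ≤ U) :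
    anodyneExtensions U.ι := by
  intro E B p hp
  refine ⟨fun {t b} sq => ?_⟩
  have e1 : ι₁ ≫ Subcomplex.lift _ h2 = U.ι ≫ Subcomplex.lift _ h1 := by
    rw [← cancel_mono U.ι]; simp
  have e0 : ι₀ ≫ Subcomplex.lift _ h2 = 𝟙 _ := by
    rw [← cancel_mono U.ι]; simp [h0]
  obtain ⟨l, l1, _, l3⟩ := hlp₁ U.ι hp (Subcomplex.lift _ h2 ≫ t) (Subcomplex.lift _ h1 ≫ t)
    (H ≫ b) (by rw [← Category.assoc, e1, Category.assoc])
    (by rw [Category.assoc, sq.w, Subcomplex.lift_ι_assoc, Category.assoc])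
    (by rw [Category.assoc, sq.w, Subcomplex.lift_ι_assoc, Category.assoc])
  refine ⟨⟨⟨ι₀ ≫ l, ?_, ?_⟩⟩⟩
  · rw [← ι₀_comp_assoc, l1, ← Category.assoc, e0, Category.id_comp]
  · rw [Category.assoc, l3, ← Category.assoc, h0, Category.id_comp]

theorem anodyne_of_htpy₁ (U : X.Subcomplex) (H : X ⊗ Δ[1] ⟶ X) (h1 : ι₁ ≫ H = 𝟙 X)
    (h0 : Subcomplex.range (ι₀ ≫ H) ≤ U) (h2 : Subcomplex.range (U.ι ▷ Δ[1] ≫ H) ≤ U) :
    anodyneExtensions U.ι := by
  intro E B p hp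
  refine ⟨fun {t b} sq => ?_⟩
  have e0 : ι₀ ≫ Subcomplex.lift _ h2 = U.ι ≫ Subcomplex.lift _ h0 := by
    rw [← cancel_mono U.ι]; simp
  have e1 : ι₁ ≫ Subcomplex.lift _ h2 = 𝟙 _ := by
    rw [← cancel_mono U.ι]; simp [h1]
  obtain ⟨l, l1, _, l3⟩ := hlp₀ U.ι hp (Subcomplex.lift _ h2 ≫ t) (Subcomplex.lift _ h0 ≫ t)
    (H ≫ b) (by rw [← Category.assoc, e0, Category.assoc])
    (by rw [Category.assoc, sq.w, Subcomplex.lift_ι_assoc, Category.assoc])
    (by rw [Category.assoc, sq.w, Subcomplex.lift_ι_assoc, Category.assoc])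
  refine ⟨⟨⟨ι₁ ≫ l, ?_, ?_⟩⟩⟩
  · rw [← ι₁_comp_assoc, l1, ← Category.assoc, e1, Category.id_comp]
  · rw [Category.assoc, l3, ← Category.assoc, h1, Category.id_comp]

theorem kh_mono_ite {P Q : Type} [PartialOrder P] [PartialOrder Q] {φ ψ : P →o Q} (h : φ ≤ ψ)
    {n : SimplexCategoryᵒᵖ} (σ : (nerve P).obj n) (t : Δ[1].obj n) :
    Monotone fun i => if stdSimplex.asOrderHom t i = 0 then φ (σ.obj i) else ψ (σ.obj i) := by
  intro i j hij
  have hσ : σ.obj i ≤ σ.obj j := leOfHom (σ.map (homOfLE hij))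
  have ht := (stdSimplex.asOrderHom t).monotone hij
  dsimp only
  split_ifs with h1 h2 h2
  · exact φ.monotone hσ
  · exact (φ.monotone hσ).trans (h _)
  · rw [h2] at ht
    exact (h1 (le_antisymm ht (Fin.zero_le _))).elim
  · exact ψ.monotone hσ

/-- The homotopy given by an inequality of monotone maps. -/
theorem exists_htpy_nmap {P Q : Type} [PartialOrder P] [PartialOrder Q] {φ ψ : P →o Q}
    (h : φ ≤ ψ) : ∃ H : nerve P ⊗ Δ[1] ⟶ nerve Q, ι₀ ≫ H = nmap φ ∧ ι₁ ≫ H = nmap ψ ∧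
      ∀ (m : ℕ) (σ : (nerve P) _⦋m⦌) (t : Δ[1] _⦋m⦌) (i : Fin (m + 1)),
        (H.app _ (σ, t)).obj i = if t i = 0 then φ (σ.obj i) else ψ (σ.obj i) := by
  refine ⟨{ app := fun n => ↾fun x => (kh_mono_ite h x.1 x.2).functor
            naturality := fun m n f => ?_ }, ?_, ?_, fun m σ t i => rfl⟩
  · rfl
  · ext n : 3
    funext σ
    apply nerve.ext_of_isThin
    funext i
    show (if (0 : Fin 2) = 0 then φ (σ.obj i) else ψ (σ.obj i)) = φ (σ.obj i)
    exact if_pos rfl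
  · ext n : 3
    funext σ
    apply nerve.ext_of_isThin
    funext i
    show (if (1 : Fin 2) = 0 then φ (σ.obj i) else ψ (σ.obj i)) = ψ (σ.obj i)
    exact if_neg (by decide)

theorem kh_nerve_top {B : Type} [PartialOrder B] (y : B) (h : ∀ x, x ≤ y) :
    WHE (terminal.from (nerve B)) := by
  obtain ⟨H, h0, h1, _⟩ := exists_htpy_nmap (φ := OrderHom.id) (ψ := OrderHom.const B y) h
  refine WHE.of_he _ (SSet.const (ComposableArrows.mk₀ y)) (Htp.of_map H ?_ ?_).symm ?_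
  · rw [h0]; rfl
  · rw [h1]
    ext n : 3
    funext σ
    apply nerve.ext_of_isThin
    rfl
  · rw [terminal.hom_ext (_ ≫ _) (𝟙 _)]
    exact Htp.refl _

/-- The nerve of a subset is the nerve of the subtype. -/
def khSubIso {B : Type} [PartialOrder B] (D : Set B) : (nsub D : SSet.{0}) ≅ nerve D where
  hom :=
    { app := fun n => ↾fun σ =>
        (show Monotone fun i => (⟨σ.1.obj i, σ.2 i⟩ : D) from
          fun _ _ hij => leOfHom (σ.1.map (homOfLE hij))).functor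
      naturality := fun _ _ _ => rfl }
  inv := Subcomplex.lift (nmap (OrderHom.Subtype.val (· ∈ D))) (by
    rintro n _ ⟨σ, rfl⟩ i
    exact (σ.obj i).2)
  hom_inv_id := by
    ext n : 3
    funext σ
    apply Subtype.ext
    apply nerve.ext_of_isThin
    rfl
  inv_hom_id := by
    ext n : 3
    funext σ
    apply nerve.ext_of_isThin
    rfl

/-- The nerve of a subset with a greatest element is contractible. -/
theorem whe_nsub_of_isGreatest {B : Type} [PartialOrder B] {D : Set B} {y : B}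
    (h : IsGreatest D y) : WHE (terminal.from (nsub D : SSet.{0})) := by
  rw [terminal.hom_ext (terminal.from _) ((khSubIso D).hom ≫ terminal.from _)]
  exact kh_comp (kh_iso _) (kh_nerve_top (⟨y, h.1⟩ : D) fun x => h.2 x.2)

theorem whe_nerve_of_top {B : Type} [PartialOrder B] (y : B) (h : ∀ x, x ≤ y) :
    WHE (terminal.from (nerve B)) :=
  kh_nerve_top y h

end Vale.Agent.P213
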