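import Vale.Agent.P213.Cyl

/-! Decomposition of cells: `ν K` is generated by the atoms. -/

open CategoryTheory Finsupp

set_option backward.isDefEq.respectTransparency false

noncomputable section

namespace Vale.Agent.P213

namespace ADC

variable {K : ADC}

/-- A linear order on the basis compatible with the atoms. -/
theorem St.exists_ord (S : St K) : ∃ _ : LinearOrder K.B,
    (∀ b c, (S.atom b).x false c ≠ 0 → c ≤ b) ∧ ∀ b c, (S.atom b).x true c ≠ 0 → b ≤ c := by
  obtain ⟨o, -⟩ := exists_wellFoundedLT K.B
  refine ⟨LinearOrder.lift' (fun b => toLex (S.rk b, b)) fun b c h =>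
    congrArg (fun p => (ofLex p).2) h, fun b c h => ?_, fun b c h => ?_⟩
  · rcases eq_or_ne c b with rfl | k
    exacts [le_refl (toLex (S.rk c, c)), Prod.Lex.toLex_le_toLex.2 (Or.inl (S.neg b c k h))]
  · rcases eq_or_ne c b with rfl | k
    exacts [le_refl (toLex (S.rk c, c)), Prod.Lex.toLex_le_toLex.2 (Or.inl (S.pos b c k h))]

/-- In degrees at least `q` the cell `u` is the sum of the atoms in `T`. -/
structure St.Good (S : St K) (q : ℕ) (u : Cell K) (T : Multiset K.B) : Prop where
  le : ∀ b ∈ T, q ≤ K.dim b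
  eq : ∀ a c, q ≤ K.dim c → u.x a c = (T.map fun b => (S.atom b).x a c).sum

variable {S : St K} {p q n : ℕ} {u v : Cell K} {T T' : Multiset K.B}

/-- The sum of the atoms in `T`. -/
def St.splA (S : St K) (T : Multiset K.B) (a : Bool) : K.B →₀ ℤ :=
  (T.map fun b => (S.atom b).x a).sum

theorem St.splA_apply (a : Bool) (c : K.B) :
    S.splA T a c = (T.map fun b => (S.atom b).x a c).sum := by
  simpa [St.splA] using map_multiset_sum (applyAddHom c) (T.map fun b => (S.atom b).x a)

theorem St.splA_add (a : Bool) : S.splA (T + T') a = S.splA T a + S.splA T' a := by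
  simp [St.splA]

theorem St.splA_pos (S : St K) (T : Multiset K.B) (a : Bool) : 0 ≤ S.splA T a :=
  Multiset.sum_nonneg fun _ h => let ⟨b, _, e⟩ := Multiset.mem_map.1 h; e ▸ (S.atom b).pos a

theorem St.splA_ne (S : St K) {a : Bool} {c : K.B} (h : S.splA T a c ≠ 0) :
    ∃ b ∈ T, (S.atom b).x a c ≠ 0 := by
  by_contra k
  refine h (St.splA_apply a c ▸ Multiset.sum_eq_zero fun x hx => ?_)
  obtain ⟨b, hb, rfl⟩ := Multiset.mem_map.1 hx
  exact not_not.1 fun l => k ⟨b, hb, l⟩

theorem St.splA_bd (a : Bool) : K.bd (S.splA T a) = S.splA T true - S.splA T false := by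
  simp only [St.splA, map_multiset_sum, Multiset.map_map, Function.comp, Cell.bd_x,
    Multiset.sum_map_sub]

theorem St.splA_aug (a : Bool) : K.aug (S.splA T a) = T.card := by
  simp [St.splA, map_multiset_sum, Cell.aug_x]

open Classical in
theorem St.splA_top (a : Bool) {c : K.B} (h : ∀ b ∈ T, K.dim b ≤ K.dim c) :
    S.splA T a c = T.count c := by
  rw [St.splA_apply, Multiset.map_congr rfl fun b hb => S.top b a c (h b hb)]
  clear h
  induction T using Multiset.induction_on with
  | empty => simp
  | cons b T ih =>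
    rw [Multiset.map_cons, Multiset.sum_cons, ih, Multiset.count_cons, single_apply, add_comm]
    simp [eq_comm]

theorem St.Good.key (h : S.Good (q + 1) u T) (c : K.B) (hc : q ≤ K.dim c) :
    u.x true c - u.x false c = S.splA T true c - S.splA T false c := by
  have e : (u.x false).filter (fun b => q < K.dim b) =
      (S.splA T false).filter fun b => q < K.dim b := by
    ext b
    simp only [filter_apply]
    split_ifs with k
    exacts [(h.eq _ b k).trans (St.splA_apply _ _).symm, rfl]
  have := congrArg (fun y => K.bd y c) e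
  simpa only [bd_filter (q < ·), filter_apply, if_pos (Nat.lt_succ_of_le hc), u.bd_x,
    St.splA_bd, Finsupp.sub_apply] using this

theorem St.split (h : S.Good (q + 1) u (T + T')) (hT : ∀ b ∈ T, ∀ b' ∈ T', ∀ c, K.dim c = q →
    (S.atom b).x false c ≠ 0 → (S.atom b').x true c = 0) :
    ∃ v w : Cell K, v.d true q = w.d false q ∧ u = v.comp q w ∧ S.Good (q + 1) v T ∧
      S.Good (q + 1) w T' := by
  have hv : ∃ v : Cell K, ∀ a c, v.x a c = if q < K.dim c then S.splA T a c else
      if K.dim c = q then u.x false c + if a then S.splA T true c - S.splA T false c else 0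
      else u.x a c := by
    refine ⟨⟨fun a => (S.splA T a).filter (fun c => q < K.dim c) +
      (u.x a).filter (fun c => K.dim c < q) + (u.x false + if a then S.splA T true -
        S.splA T false else 0).filter (fun c => K.dim c = q), fun a c => ?_, fun a => ?_,
      fun a => ?_⟩, fun a c => ?_⟩
    · have h1 := u.pos a c
      have h2 := u.pos false c
      have h3 := u.pos true c
      have h4 := S.splA_pos T a c
      have h5 := S.splA_pos T true c
      have h6 := S.splA_pos T' false c
      have h7 : K.dim c = q → S.splA T false c = 0 ∨ S.splA T' true c = 0 := fun hc => by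
        by_contra k
        obtain ⟨b, hb, k1⟩ := S.splA_ne (not_or.1 k).1
        obtain ⟨b', hb', k2⟩ := S.splA_ne (not_or.1 k).2
        exact k2 (hT b hb b' hb' c hc k1)
      have h8 := h.key c
      simp only [St.splA_add, coe_add, Pi.add_apply, filter_apply, coe_zero, Pi.zero_apply] at *
      cases a <;> simp only [if_true, Bool.false_eq_true, if_false, coe_sub, Pi.sub_apply,
        coe_zero, Pi.zero_apply] <;> split_ifs <;> omega
    · rw [map_add, map_add, bd_filter (q < ·), bd_filter (· < q), bd_filter (· = q), map_add,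
        apply_ite K.bd, map_sub, map_zero]
      simp only [St.splA_bd, u.bd_x, sub_self, ite_self]
      ext c
      simp only [coe_add, Pi.add_apply, filter_apply, coe_sub, Pi.sub_apply, if_true,
        Bool.false_eq_true, if_false, coe_zero, Pi.zero_apply]
      split_ifs <;> omega
    · rw [map_add, map_add, aug_filter (q < ·), aug_filter (· < q), aug_filter (· = q), map_add,
        apply_ite K.aug, map_sub, map_zero]
      simp only [St.splA_aug, u.aug_x, sub_self, ite_self]
      split_ifs <;> omega
    · cases a <;> simp only [coe_add, Pi.add_apply, filter_apply, coe_sub, Pi.sub_apply, if_true,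
        Bool.false_eq_true, if_false, coe_zero, Pi.zero_apply] <;> split_ifs <;> omega
  obtain ⟨v, hv⟩ := hv
  have hu : ∀ a c, q < K.dim c → u.x a c = S.splA T a c + S.splA T' a c := fun a c hc => by
    rw [h.eq a c hc, ← St.splA_apply, St.splA_add]
    rfl
  have hw : ∃ w : Cell K, ∀ a c, w.x a c = u.x a c + (v.d true q).x a c - v.x a c := by
    refine ⟨⟨fun a => u.x a + (v.d true q).x a - v.x a, fun a c => ?_, fun a => ?_, fun a => ?_⟩,
      fun a c => rfl⟩
    · have h1 := u.pos a c
      have h2 := v.pos true c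
      have h3 := S.splA_pos T' a c
      have h4 := hu a c
      simp only [coe_add, Pi.add_apply, coe_sub, Pi.sub_apply, coe_zero, Pi.zero_apply,
        Cell.d_apply, hv] at *
      cases a <;> simp only [if_true, Bool.false_eq_true, if_false] at * <;> split_ifs at * <;>
        omega
    · rw [map_sub, map_add, u.bd_x, v.bd_x, Cell.bd_x]
      abel
    · rw [map_sub, map_add, u.aug_x, v.aug_x, Cell.aug_x]
      rfl
  obtain ⟨w, hw⟩ := hw
  have e : v.d true q = w.d false q := Cell.ext' fun a c => by
    simp only [Cell.d_apply, hw, hv, Bool.false_eq_true, if_false]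
    split_ifs <;> omega
  refine ⟨v, w, e, Cell.ext' fun a c => ?_, ⟨fun b hb => h.le b (by simp [hb]), fun a c hc => ?_⟩,
    fun b hb => h.le b (by simp [hb]), fun a c hc => ?_⟩
  · rw [Cell.comp_apply e, hw, Cell.d_apply]
    ring
  · rw [hv, if_pos (by omega), St.splA_apply]
  · rw [hw, hv, if_pos (by omega), Cell.d_apply, if_neg (by omega), if_neg (by omega), hu a c hc,
      ← St.splA_apply]
    ring

theorem St.sing (h : S.Good (q + 1) u T) (hT : T.card ≤ 1) :
    ∃ W : Multiset K.B, (∀ c ∈ W, K.dim c = q) ∧ S.Good q u (T + W) := by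
  classical
  have hy : ∀ c, K.dim c = q → 0 ≤ u.x false c - S.splA T false c := fun c hc => by
    have h1 := h.key c hc.ge
    have h2 : 0 ≤ u.x false c := u.pos false c
    have h3 : 0 ≤ u.x true c := u.pos true c
    have h4 : S.splA T false c = 0 ∨ S.splA T true c = 0 := by
      by_contra k
      obtain ⟨b, hb, k1⟩ := S.splA_ne (not_or.1 k).1
      obtain ⟨b', hb', k2⟩ := S.splA_ne (not_or.1 k).2
      obtain ⟨T, rfl⟩ := Multiset.exists_cons_of_mem hb
      obtain rfl : T = 0 := by simpa using hT
      obtain rfl : b' = b := by simpa using hb'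
      have : c ≠ b' := by
        rintro rfl
        have := h.le c hb
        omega
      exact lt_asymm (S.neg _ _ this k1) (S.pos _ _ this k2)
    omega
  obtain ⟨W, hW⟩ : ∃ W : Multiset K.B, ∀ c, (W.count c : ℤ) =
      if K.dim c = q then u.x false c - S.splA T false c else 0 := by
    refine ⟨toMultiset (((u.x false - S.splA T false).filter fun c => K.dim c = q).mapRange
      Int.toNat rfl), fun c => ?_⟩
    rw [count_toMultiset, mapRange_apply, filter_apply]
    split_ifs with k
    exacts [Int.toNat_of_nonneg (hy c k), rfl]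
  have hW' : ∀ c ∈ W, K.dim c = q := fun c hc => by
    by_contra k
    have := hW c
    rw [if_neg k, Nat.cast_eq_zero, Multiset.count_eq_zero] at this
    exact this hc
  refine ⟨W, hW', fun b hb => ?_, fun a c hc => ?_⟩
  · rcases Multiset.mem_add.1 hb with k | k
    exacts [Nat.le_of_succ_le (h.le b k), (hW' b k).ge]
  · rw [← St.splA_apply, St.splA_add, coe_add, Pi.add_apply,
      St.splA_top (T := W) a fun b hb => (hW' b hb).trans_le hc, hW]
    split_ifs with k
    · have := h.key c hc
      cases a <;> omega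
    · rw [h.eq a c (by omega), St.splA_apply, add_zero]

theorem St.good_zero (h : S.Good 0 u T) : ∃ b, T = {b} ∧ u = S.atom b := by
  have e : ∀ a, u.x a = S.splA T a := fun a =>
    Finsupp.ext fun c => (h.eq a c (Nat.zero_le _)).trans (St.splA_apply a c).symm
  have := u.aug_x false
  rw [e, St.splA_aug, Nat.cast_eq_one, Multiset.card_eq_one] at this
  obtain ⟨b, rfl⟩ := this
  exact ⟨b, rfl, Cell.ext (funext fun a => by simp [e, St.splA])⟩

theorem St.good_atom (b : K.B) (h : q ≤ K.dim b) : S.Good q (S.atom b) {b} := ⟨fun c hc => by rwa [Multiset.mem_singleton.1 hc], fun a c _ => by simp⟩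

theorem St.good_nil_iff : S.Good (q + 1) u 0 ↔ K.nu.DimLT (q + 1) u := by
  rw [dimLT_iff]
  refine ⟨fun h => ⟨q.succ_pos, fun a c hc => not_le.1 fun k => hc (h.eq a c k)⟩,
    fun h => ⟨by simp, fun a c hc => not_not.1 fun k => ?_⟩⟩
  exact absurd (h.2 a c k) (not_lt.2 hc)

theorem St.Good.dim_lt (h : S.Good q u T) (hu : K.nu.DimLT n u) {b : K.B} (hb : b ∈ T) :
    K.dim b < n := by
  refine (dimLT_iff.1 hu).2 false b ?_
  obtain ⟨T, rfl⟩ := Multiset.exists_cons_of_mem hb
  have := S.splA_pos T false b
  rw [h.eq _ b (h.le b hb), Multiset.map_cons, Multiset.sum_cons, S.top b _ b le_rfl,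
    single_eq_same, ← St.splA_apply]
  simp only [coe_zero, Pi.zero_apply] at this
  omega

theorem St.Good.unique (h : S.Good q u T) (h' : S.Good q u T') : T = T' := by
  classical
  have key : ∀ (m : ℕ) (T T' : Multiset K.B), T.card = m → (∀ b ∈ T + T', q ≤ K.dim b) →
      (∀ c, q ≤ K.dim c → S.splA T false c = S.splA T' false c) → T = T' := by
    intro m
    induction m using Nat.strong_induction_on with
    | _ m ih =>
    intro T T' hm hq e
    rcases (T + T').toFinset.eq_empty_or_nonempty with k | k
    · obtain ⟨rfl, rfl⟩ : T = 0 ∧ T' = 0 := by simpa using k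
      rfl
    obtain ⟨b, hb, hm'⟩ := (T + T').toFinset.exists_max_image K.dim k
    rw [Multiset.mem_toFinset] at hb
    have e1 := e b (hq b hb)
    rw [St.splA_top _ fun c hc => hm' c (by simp [hc]),
      St.splA_top _ fun c hc => hm' c (by simp [hc]), Nat.cast_inj] at e1
    have e2 : b ∈ T ↔ b ∈ T' := by simp only [← Multiset.count_pos, e1]
    obtain ⟨T₁, rfl⟩ := Multiset.exists_cons_of_mem ((Multiset.mem_add.1 hb).elim id e2.2)
    obtain ⟨T₂, rfl⟩ := Multiset.exists_cons_of_mem (e2.1 (Multiset.mem_cons_self _ _))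
    rw [ih T₁.card (by simp [← hm]) T₁ T₂ rfl (fun c hc => hq c (by
      rcases Multiset.mem_add.1 hc with l | l <;> simp [l])) fun c hc => by
        simpa [St.splA_apply] using e c hc]
  refine key _ T T' rfl (fun b hb => (Multiset.mem_add.1 hb).elim (h.le b) (h'.le b)) fun c hc => ?_
  rw [St.splA_apply, St.splA_apply, ← h.eq _ c hc, ← h'.eq _ c hc]

theorem St.Good.comp (h : S.Good q u T) (h' : S.Good q v T') (hp : p < q)
    (e : u.d true p = v.d false p) : S.Good q (u.comp p v) (T + T') := by
  refine ⟨fun b hb => (Multiset.mem_add.1 hb).elim (h.le b) (h'.le b), fun a c hc => ?_⟩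
  rw [Cell.comp_apply e, if_neg (by omega), if_neg (by omega), h.eq a c hc, h'.eq a c hc,
    Multiset.map_add, Multiset.sum_add, sub_zero]

theorem St.Good.up (h : S.Good q u T) :
    S.Good (q + 1) u (T.filter fun b => q + 1 ≤ K.dim b) := by
  refine ⟨fun b hb => (Multiset.mem_filter.1 hb).2, fun a c hc => ?_⟩
  rw [h.eq a c (by omega), ← St.splA_apply, ← St.splA_apply]
  conv_lhs => rw [← Multiset.filter_add_not (fun b => q + 1 ≤ K.dim b) T, St.splA_add]
  refine add_eq_left.2 (not_not.1 fun k => ?_)
  obtain ⟨b, hb, k⟩ := S.splA_ne k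
  have := (Multiset.mem_filter.1 hb).2
  rw [S.top b a c (by omega)] at k
  obtain rfl := (single_apply_ne_zero.1 k).1
  omega

theorem St.Good.ext (h : S.Good (q + 1) u T) (h' : S.Good (q + 1) v T)
    (e : u.d false q = v.d false q) : u = v := Cell.ext' fun a c => by
  have h1 := congrArg (fun w : Cell K => w.x a c) e
  have h2 := h.key c
  have h3 := h'.key c
  have h4 := h.eq a c
  have h5 := h'.eq a c
  simp only [Cell.d_apply] at h1
  cases a <;> split_ifs at h1 <;> omega

theorem dimLT_of_comp (e : u.d true p = v.d false p) (h : K.nu.DimLT n (u.comp p v)) :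
    K.nu.DimLT n u ∧ K.nu.DimLT n v := by
  obtain ⟨h0, h⟩ := dimLT_iff.1 h
  have h1 : ∀ a c, n ≤ K.dim c → (u.comp p v).x a c = 0 := fun a c hc =>
    not_not.1 fun k => absurd (h a c k) (not_lt.2 hc)
  have h2 : ∀ a c, n ≤ K.dim c → p < K.dim c → u.x a c = 0 ∧ v.x a c = 0 := fun a c hc hp => by
    have k1 := h1 a c hc
    have k2 : 0 ≤ u.x a c := u.pos a c
    have k3 : 0 ≤ v.x a c := v.pos a c
    rw [Cell.comp_apply e, if_neg (by omega), if_neg (by omega)] at k1
    omega
  have h3 : ∀ a c, n ≤ K.dim c → u.x a c = 0 ∧ v.x a c = 0 := fun a c hc => by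
    have k0 := h2 a c hc
    have k1 := h1 false c hc
    have k2 := h1 true c hc
    have k3 := Cell.cmp e c
    have k4 : K.dim c = p → u.x true c - u.x false c = 0 := fun hp => by
      have e : (u.x false).filter (fun b => p < K.dim b) = 0 := by
        ext b
        rw [filter_apply]
        split_ifs with k
        exacts [(h2 _ b (by omega) k).1, rfl]
      have := congrArg (fun y => K.bd y c) e
      simpa only [bd_filter (p < ·), filter_apply, if_pos (Nat.lt_succ_of_le hp.ge), u.bd_x,
        map_zero, Finsupp.sub_apply, Finsupp.zero_apply] using this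
    rw [Cell.comp_apply e] at k1 k2
    cases a <;> split_ifs at k1 k2 <;> omega
  exact ⟨dimLT_iff.2 ⟨h0, fun a c hc => not_le.1 fun k => hc (h3 a c k).1⟩,
    dimLT_iff.2 ⟨h0, fun a c hc => not_le.1 fun k => hc (h3 a c k).2⟩⟩

/-- Induction on cells. -/
theorem St.gen (S : St K) (R : Cell K → Prop) (h1 : ∀ b, K.dim b < n → R (S.atom b))
    (h2 : ∀ k u v, K.nu.DimLT n u → K.nu.DimLT n v → u.d true k = v.d false k → R u → R v →
      R (u.comp k v)) (u : Cell K) (hu : K.nu.DimLT n u) : R u := by
  classical
  obtain ⟨o, ho, ho'⟩ := S.exists_ord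
  have key : ∀ (q : ℕ) (T : Multiset K.B) (u : Cell K), K.nu.DimLT n u → S.Good q u T → R u := by
    intro q
    induction q with
    | zero =>
      intro T u hu h
      obtain ⟨b, rfl, e⟩ := St.good_zero h
      exact e ▸ h1 b (h.dim_lt hu (Multiset.mem_singleton_self b))
    | succ q ih =>
      have small : ∀ (T : Multiset K.B) (u : Cell K), T.card ≤ 1 → K.nu.DimLT n u →
          S.Good (q + 1) u T → R u := fun T u hT hu h =>
        let ⟨_, _, hW⟩ := St.sing h hT; ih _ u hu hW
      intro T
      induction T using Multiset.strongInductionOn with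
      | ih T ih' =>
      intro u hu h
      rcases T.toFinset.eq_empty_or_nonempty with k | k
      · exact small T u (by simp [Multiset.toFinset_eq_empty.1 k]) hu h
      obtain ⟨b, hb, hm⟩ := T.toFinset.exists_min_image id k
      obtain ⟨T', rfl⟩ := Multiset.exists_cons_of_mem (Multiset.mem_toFinset.1 hb)
      obtain ⟨v, w, e, rfl, hv, hw⟩ := St.split (T := {b}) (T' := T') h fun b₁ hb₁ b' hb' c hc k1 => by
        by_contra k2
        obtain rfl := Multiset.mem_singleton.1 hb₁
        obtain rfl : c = b₁ := (ho _ _ k1).antisymm ((hm b' (by simp [hb'])).trans (ho' _ _ k2))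
        have := h.le c (Multiset.mem_cons_self _ _)
        omega
      obtain ⟨d1, d2⟩ := dimLT_of_comp e hu
      exact h2 q v w d1 d2 e (small _ v (by simp) d1 hv)
        (ih' T' (Multiset.lt_cons_self _ _) w d2 hw)
  obtain ⟨q, rfl⟩ := Nat.exists_eq_succ_of_ne_zero (dimLT_iff.1 hu).1.ne'
  exact key _ 0 u hu (St.good_nil_iff.2 hu)

theorem St.pfun_ext (S : St K) {X : OmegaCat} {F G : K.nu.C → X.C} (hF : OmegaCat.PFun n F)
    (hG : OmegaCat.PFun n G) (h : ∀ b, K.dim b < n → F (S.atom b) = G (S.atom b)) (u : Cell K)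
    (hu : K.nu.DimLT n u) : F u = G u :=
  S.gen (fun u => F u = G u) h (fun k u v hu hv e h1 h2 =>
    (hF.map_comp k u v hu hv e).trans (by rw [h1, h2]; exact (hG.map_comp k u v hu hv e).symm)) u hu

theorem St.hom_ext (S : St K) {X : OmegaCat} {F G : K.nu ⟶ X}
    (h : ∀ b, F.f (S.atom b) = G.f (S.atom b)) : F = G :=
  OmegaCat.hom_ext fun u => let ⟨n, hu⟩ := OmegaCat.exists_dimLT u
    S.pfun_ext (F.pFun n) (G.pFun n) (fun b _ => h b) u hu

end ADC

end Vale.Agent.P213
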