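import Vale.Agent.P213.Join
import Vale.Agent.P213.Split

/-! The atoms of the orientals; vertices. -/

open CategoryTheory Finsupp

set_option backward.isDefEq.respectTransparency false

noncomputable section

namespace Vale.Agent.P213

open ADC

variable {V W : Type} [LinearOrder V] [LinearOrder W]

/-- A vertex as a cell. -/
def vtx (i : V) : Cell (simplexADC V) where
  x _ := bas {i}
  pos _ := bas_nonneg _
  bd_x _ := (bd_bas _).trans (by simp [bas])
  aug_x _ := (aug_bas _).trans (by simp)

theorem simp_vtx_ne {i : V} {a : Bool} {c : (simplexADC V).B} (h : (vtx i).x a c ≠ 0) :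
    c.1 = {i} := bas_ne h

theorem simp_vtx_dim (i : V) (a : Bool) {c : (simplexADC V).B} (h : (simplexADC V).dim c ≠ 0) :
    (vtx i).x a c = 0 :=
  not_not.1 fun k => h (by
    change c.1.card - 1 = 0
    rw [simp_vtx_ne k, Finset.card_singleton])

theorem simp_vtx_eq {i : V} (a : Bool) {c : (simplexADC V).B} (h : c.1 = {i}) :
    (vtx i).x a = single c 1 :=
  (bas_of_nonempty (Finset.singleton_nonempty i)).trans
    (congrArg (fun c => single c (1 : ℤ)) (Subtype.ext h.symm))

theorem vtx_d (i : V) (a : Bool) (k : ℕ) : (vtx i).d a k = vtx i := Cell.ext' fun b c => by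
  rw [Cell.d_apply]
  split_ifs with h h'
  exacts [rfl, rfl, (simp_vtx_dim i b (by omega)).symm]

theorem vtx_injective : Function.Injective (vtx : V → _) := fun i j h =>
  Finset.singleton_injective (simp_vtx_ne (a := true) (c := ⟨{i}, by simp⟩) (by
    rw [← h, simp_vtx_eq (c := ⟨{i}, by simp⟩) true rfl, single_eq_same]
    exact one_ne_zero))

theorem simplexMap_vtx (f : V →o W) (i : V) : (simplexMap f).cell (vtx i) = vtx (f i) := Cell.ext (funext fun _ => (pushL_bas f _).trans (by simp [pushF, vtx]))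

theorem simp_eq_zero {K : ADC} {z : K.B →₀ ℤ} (h : ∀ c, 0 ≤ z c)
    (h0 : ∀ c, z c ≠ 0 → K.dim c = 0) (h1 : K.aug z = 0) : z = 0 := by
  rw [ADC.aug, linearCombination_apply, Finsupp.sum, Finset.sum_congr rfl fun c hc => by
    rw [if_pos (h0 c (mem_support_iff.1 hc)), smul_eq_mul, mul_one],
    Finset.sum_eq_zero_iff_of_nonneg fun c _ => h c] at h1
  exact Finsupp.ext fun c => not_not.1 fun k => k (h1 c (mem_support_iff.2 k))

theorem exists_vtx (u : Cell (simplexADC V)) (a : Bool) : ∃ i, u.d a 0 = vtx i := by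
  set y := (u.d a 0).x false with hy
  have h0 : ∀ c, y c ≠ 0 → (simplexADC V).dim c = 0 := fun c hc => by
    by_contra k
    exact hc (by rw [hy, Cell.d_apply, if_neg (Nat.not_lt_zero _), if_neg k])
  obtain ⟨c, hc⟩ : ∃ c, y c ≠ 0 := by
    by_contra k
    have := (u.d a 0).aug_x false
    rw [← hy, show y = 0 from Finsupp.ext fun c => not_not.1 fun l => k ⟨c, l⟩, map_zero] at this
    exact zero_ne_one this
  obtain ⟨i, hi⟩ : ∃ i, c.1 = {i} := Finset.card_eq_one.1 (by
    have h1 : c.1.card - 1 = 0 := h0 c hc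
    have := c.2.card_pos
    omega)
  have e' : y - (vtx i).x false = 0 := simp_eq_zero (fun s => ?_) (fun s hs => ?_)
    (by rw [map_sub, (u.d a 0).aug_x false, (vtx i).aug_x false, sub_self])
  · refine ⟨i, Cell.ext' fun b s => ?_⟩
    refine Eq.trans ?_ (congrArg (fun z => z s) (sub_eq_zero.1 e'))
    simp only [hy, Cell.d_apply, Nat.not_lt_zero, if_false]
  · classical
    have h1 : 0 ≤ y s := (u.d a 0).pos false s
    have h2 : 0 ≤ y c := (u.d a 0).pos false c
    rw [simp_vtx_eq _ hi, Finsupp.sub_apply, single_apply]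
    split_ifs with k
    · subst k
      omega
    · omega
  · by_contra k
    exact hs (by
      rw [Finsupp.sub_apply, simp_vtx_dim _ _ k, not_not.1 fun l => k (h0 s l), sub_self])

/-- The join with a vertex. -/
def simpJ (v : V) : ((simplexADC V).B →₀ ℤ) →ₗ[ℤ] ((simplexADC V).B →₀ ℤ) := joinL v

theorem simp_join_ne {v : V} {x : (simplexADC V).B →₀ ℤ} {c : (simplexADC V).B}
    (h : simpJ v x c ≠ 0) : ∃ S : (simplexADC V).B, x S ≠ 0 ∧ v ∉ S.1 ∧ c.1 = insert v S.1 := by
  have key : ∀ {x : Face V →₀ ℤ} {c : Face V}, joinL v x c ≠ 0 →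
      ∃ S : Face V, x S ≠ 0 ∧ v ∉ S.1 ∧ c.1 = insert v S.1 := fun {x c} h => by
    rw [joinL, linearCombination_apply, Finsupp.sum, finsetSum_apply] at h
    obtain ⟨S, hS, h⟩ := Finset.exists_ne_zero_of_sum_ne_zero h
    have h := right_ne_zero_of_smul h
    split_ifs at h with k
    exacts [absurd rfl h, ⟨S, mem_support_iff.1 hS, k, bas_ne h⟩]
  exact key h

theorem simp_join_apply {v : V} (x : (simplexADC V).B →₀ ℤ) {S c : (simplexADC V).B}
    (h : v ∉ S.1) (hc : c.1 = insert v S.1) : simpJ v x c = x S := by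
  induction x using Finsupp.induction_linear with
  | zero => simp
  | add x y hx hy => simp only [map_add, Finsupp.add_apply, hx, hy]
  | single T r =>
    rcases eq_or_ne T S with rfl | k
    · have e : simpJ v (single T r) = r • single c (1 : ℤ) :=
        (linearCombination_single _ _ _).trans (congrArg (fun z => r • z)
          ((if_neg h).trans (hc ▸ bas_of_nonempty c.2)))
      simp [e]
    · rw [single_eq_of_ne' k]
      by_contra l
      obtain ⟨T', h1, h2, h3⟩ := simp_join_ne l
      obtain rfl := (single_apply_ne_zero.1 h1).1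
      exact k (Subtype.ext (by rw [← Finset.erase_insert h2, ← h3, hc, Finset.erase_insert h]))

theorem simp_join_dim {v : V} {S c : (simplexADC V).B} (h : v ∉ S.1) (hc : c.1 = insert v S.1) :
    (simplexADC V).dim c = (simplexADC V).dim S + 1 := by
  have := S.2.card_pos
  change c.1.card - 1 = S.1.card - 1 + 1
  rw [hc, Finset.card_insert_of_notMem h]
  omega

theorem simp_join_zero (v : V) (x : (simplexADC V).B →₀ ℤ) {c : (simplexADC V).B}
    (h : (simplexADC V).dim c = 0) : simpJ v x c = 0 := not_not.1 fun k => by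
  obtain ⟨S, -, h1, h2⟩ := simp_join_ne k
  have := simp_join_dim h1 h2
  omega

/-- The cone on a cell. -/
def simpCone (v : V) (u : Cell (simplexADC V)) (h : ∀ a, ChIn (Set.Iic v) (u.x a)) :
    Cell (simplexADC V) where
  x a := simpJ v (u.x a) + if a then
    (u.x true).filter (fun c => ¬Even ((simplexADC V).dim c)) + (vtx v).x true
    else (u.x false).filter fun c => Even ((simplexADC V).dim c)
  pos a c := by
    have h1 : 0 ≤ simpJ v (u.x a) c := by
      by_cases k : simpJ v (u.x a) c = 0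
      · exact k.ge
      · obtain ⟨S, -, k1, k2⟩ := simp_join_ne k
        exact simp_join_apply _ k1 k2 ▸ u.pos a S
    have h2 : 0 ≤ u.x a c := u.pos a c
    have h3 : 0 ≤ (vtx v).x true c := (vtx v).pos true c
    cases a <;> simp only [Finsupp.add_apply, if_true, Bool.false_eq_true, if_false, filter_apply,
      coe_zero, Pi.zero_apply] <;> split_ifs <;> omega
  bd_x a := by
    have e : ∀ a, (simplexADC V).bd (simpJ v (u.x a)) = simpJ v (u.x true) - simpJ v (u.x false) -
        (simplexADC V).sgn (u.x a) + (vtx v).x true := fun a =>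
      (bd_joinL (h a)).trans (by
        rw [← map_sub, ← u.bd_x a, show augL V (u.x a) = 1 from u.aug_x a, one_smul]
        rfl)
    have e' : (simplexADC V).bd ((vtx v).x true) = 0 := ((vtx v).bd_x true).trans (sub_self _)
    ext c
    cases a <;> simp only [map_add, e, e', if_true, Bool.false_eq_true, if_false, bd_filter Even,
      bd_filter fun n => ¬Even n, u.bd_x, Finsupp.add_apply, Finsupp.sub_apply, filter_apply,
      sgn_apply, Nat.even_add_one] <;>
      by_cases k : Even ((simplexADC V).dim c) <;>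
      simp [k, Odd.neg_one_pow, ← Nat.not_even_iff_odd] <;> ring
  aug_x a := by
    have e : (simplexADC V).aug (simpJ v (u.x a)) = 0 := by
      have := aug_filter (· ≠ 0) (simpJ v (u.x a))
      rwa [if_neg (by simp), (filter_eq_self_iff (fun c => (simplexADC V).dim c ≠ 0) _).2
        fun c hc k => hc (simp_join_zero _ _ k)] at this
    cases a <;> simp [e, aug_filter Even, aug_filter Odd, Cell.aug_x]

theorem simpCone_src (v : V) (u : Cell (simplexADC V)) (h) :
    (simpCone v u h).d false 0 = u.d false 0 := Cell.ext' fun a c => by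
  simp only [Cell.d_apply, Nat.not_lt_zero, if_false]
  split_ifs with k
  · simp [simpCone, simp_join_zero _ _ k, k]
  · rfl

theorem simpCone_tgt (v : V) (u : Cell (simplexADC V)) (h) :
    (simpCone v u h).d true 0 = vtx v := Cell.ext' fun a c => by
  simp only [Cell.d_apply, Nat.not_lt_zero, if_false]
  split_ifs with k
  · simp only [simpCone, Finsupp.add_apply, simp_join_zero _ _ k, k, filter_apply, if_true,
      Even.zero, not_true, if_false, zero_add]
    rfl
  · exact (simp_vtx_dim _ _ k).symm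

theorem exists_edge {i k : V} (h : i ≤ k) :
    ∃ u : Cell (simplexADC V), u.d false 0 = vtx i ∧ u.d true 0 = vtx k := by
  refine ⟨simpCone k (vtx i) fun a S hS j hj => ?_, (simpCone_src _ _ _).trans (vtx_d _ _ _),
    simpCone_tgt _ _ _⟩
  rw [simp_vtx_ne hS, Finset.mem_singleton] at hj
  exact hj ▸ h

/-- The rank of a face. -/
def simpRk (S : Finset V) (i : V) : ℤ :=
  if i ∈ S then (-1) ^ ((S.filter (· < i)).card + 1) else 0

theorem simpRk_insert {v i : V} (S : Finset V) (h : i < v) :
    simpRk (insert v S) i = simpRk S i := by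
  simp [simpRk, h.ne, Finset.filter_insert, h.not_gt]

theorem simpRk_lt {v : V} {A B A' B' : Finset V} (h : toLex (simpRk A) < toLex (simpRk B))
    (hA : ∀ i ∈ A, i < v) (hB : ∀ i ∈ B, i < v) (eA : ∀ i < v, simpRk A' i = simpRk A i)
    (eB : ∀ i < v, simpRk B' i = simpRk B i) : toLex (simpRk A') < toLex (simpRk B') := by
  obtain ⟨i, h1, h2⟩ : ∃ i, (∀ j < i, simpRk A j = simpRk B j) ∧ simpRk A i < simpRk B i := h
  have hi : i < v := by
    by_contra k
    rw [simpRk, simpRk, if_neg fun l => k (hA i l), if_neg fun l => k (hB i l)] at h2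
    exact lt_irrefl _ h2
  exact ⟨i, fun j hj => ((eA j (hj.trans hi)).trans (h1 j hj)).trans (eB j (hj.trans hi)).symm,
    (eA i hi).trans_lt (h2.trans_eq (eB i hi).symm)⟩

theorem simpRk_top {v : V} {S : (simplexADC V).B} (h : ∀ i ∈ S.1, i < v) :
    simpRk S.1 v = 0 ∧ simpRk (insert v S.1) v = (-1) ^ (simplexADC V).dim S := by
  have := S.2.card_pos
  refine ⟨if_neg fun k => (h v k).false, ?_⟩
  rw [simpRk, if_pos (Finset.mem_insert_self _ _), Finset.filter_insert, if_neg (lt_irrefl v),
    Finset.filter_true_of_mem h, show S.1.card + 1 = S.1.card - 1 + 2 by omega, pow_add]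
  exact mul_one _

theorem simp_atom (S₀ : Finset V) : ∀ b : (simplexADC V).B, b.1 = S₀ →
    ∃ u : Cell (simplexADC V),
    (∀ a c, (simplexADC V).dim b ≤ (simplexADC V).dim c →
      u.x a c = (single b 1 : (simplexADC V).B →₀ ℤ) c) ∧
    (∀ c, c ≠ b → u.x false c ≠ 0 → toLex (simpRk c.1) < toLex (simpRk b.1)) ∧
    (∀ c, c ≠ b → u.x true c ≠ 0 → toLex (simpRk b.1) < toLex (simpRk c.1)) ∧
    (∀ a c, u.x a c ≠ 0 → ∀ i ∈ c.1, i ∈ b.1) ∧
    ∀ v ∈ b.1, (∀ i ∈ b.1, i ≤ v) → u.d true 0 = vtx v := by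
  induction S₀ using Finset.induction_on_max with
  | empty => exact fun b h => absurd h b.2.ne_empty
  | insert v S₀ hv ih =>
  intro b hb
  rcases S₀.eq_empty_or_nonempty with rfl | hS'
  · have e : ∀ {a} c, (vtx v).x a c ≠ 0 → c = b := fun c h =>
      Subtype.ext ((simp_vtx_ne h).trans hb.symm)
    refine ⟨vtx v, fun a c _ => by rw [simp_vtx_eq a hb], fun c h k => absurd (e c k) h,
      fun c h k => absurd (e c k) h, fun a c h i hi => e c h ▸ hi, fun w hw _ => ?_⟩
    rw [vtx_d, show w = v by simpa [hb] using hw]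
  obtain ⟨S, rfl⟩ : ∃ S : (simplexADC V).B, S.1 = S₀ := ⟨⟨S₀, hS'⟩, rfl⟩
  obtain ⟨u, h1, h2, h3, h4, -⟩ := ih S rfl
  have hv' : v ∉ S.1 := fun k => (hv v k).false
  have hd := simp_join_dim hv' hb
  have hl : ∀ a c, u.x a c ≠ 0 → ∀ i ∈ c.1, i < v := fun a c h i hi => hv i (h4 a c h i hi)
  have hj : ∀ {a c}, c ≠ b → simpJ v (u.x a) c ≠ 0 →
      ∃ T, u.x a T ≠ 0 ∧ T ≠ S ∧ c.1 = insert v T.1 := fun h k => by
    obtain ⟨T, k1, -, k2⟩ := simp_join_ne k
    exact ⟨T, k1, fun e => h (Subtype.ext (by rw [k2, e, hb])), k2⟩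
  obtain ⟨t1, t2⟩ := simpRk_top hv
  refine ⟨simpCone v u fun a c h i hi => (hl a c h i hi).le, fun a c hc => ?_, fun c h k => ?_,
    fun c h k => ?_, fun a c k i hi => ?_, fun w hw hm => (simpCone_tgt _ _ _).trans
      (congrArg vtx ((hm v (hb ▸ Finset.mem_insert_self _ _)).antisymm ?_))⟩
  · have e1 : ∀ a, u.x a c = 0 := fun a => by
      rw [h1 a c (by omega)]
      refine single_eq_of_ne fun e => ?_
      rw [e] at hc
      omega
    have e2 : simpJ v (u.x a) c = (single b 1 : (simplexADC V).B →₀ ℤ) c := by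
      rcases eq_or_ne c b with rfl | k
      · rw [simp_join_apply _ hv' hb, h1 _ _ le_rfl, single_eq_same, single_eq_same]
      · rw [single_eq_of_ne k]
        by_contra l
        obtain ⟨T, k1, k2, k3⟩ := hj k l
        have := simp_join_dim (fun l => (hl _ _ k1 v l).false) k3
        exact k1 ((h1 a T (by omega)).trans (single_eq_of_ne k2))
    cases a <;> simp [simpCone, e2, filter_apply, e1, simp_vtx_dim v true (c := c) (by omega)]
  · rw [hb]
    by_cases l : simpJ v (u.x false) c = 0
    · simp only [simpCone, Finsupp.add_apply, l, zero_add, Bool.false_eq_true, if_false,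
        filter_apply, ne_eq, ite_eq_right_iff, Classical.not_imp] at k
      rcases eq_or_ne c S with rfl | e
      · exact ⟨v, fun j hj => (simpRk_insert _ hj).symm,
          t1.trans_lt (one_pos.trans_eq (t2.trans k.1.neg_one_pow).symm)⟩
      · exact simpRk_lt (h2 c e k.2) (hl _ _ k.2) hv (fun _ _ => rfl) fun _ => simpRk_insert _
    · obtain ⟨T, k1, k2, k3⟩ := hj h l
      rw [k3]
      exact simpRk_lt (h2 T k2 k1) (hl _ _ k1) hv (fun _ => simpRk_insert _)
        fun _ => simpRk_insert _
  · rw [hb]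
    by_cases l : simpJ v (u.x true) c = 0
    · by_cases l' : (vtx v).x true c = 0
      · simp only [simpCone, Finsupp.add_apply, l, l', zero_add, add_zero, if_true,
          filter_apply, ne_eq, ite_eq_right_iff, Classical.not_imp] at k
        rcases eq_or_ne c S with rfl | e
        · exact ⟨v, fun j hj => simpRk_insert _ hj, (t2.trans
            (Nat.not_even_iff_odd.1 k.1).neg_one_pow).trans_lt (neg_one_lt_zero.trans_eq t1.symm)⟩
        · exact simpRk_lt (h3 c e k.2) hv (hl _ _ k.2) (fun _ => simpRk_insert _) fun _ _ => rfl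
      · have m1 := S.1.min'_mem hS'
        have m2 := hv _ m1
        rw [simp_vtx_ne l']
        refine ⟨S.1.min' hS', fun j hj => (simpRk_insert _ (hj.trans m2)).trans ?_,
          (simpRk_insert _ m2).trans_lt ?_⟩
        · simp [simpRk, (hj.trans m2).ne, show j ∉ S.1 from fun e => (S.1.min'_le j e).not_gt hj]
        · rw [simpRk, if_pos m1, Finset.filter_false_of_mem fun j e => (S.1.min'_le j e).not_gt]
          simp [simpRk, m2.ne]
    · obtain ⟨T, k1, k2, k3⟩ := hj h l
      rw [k3]
      exact simpRk_lt (h3 T k2 k1) hv (hl _ _ k1) (fun _ => simpRk_insert _)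
        fun _ => simpRk_insert _
  · rw [hb]
    by_cases l : simpJ v (u.x a) c = 0
    · by_cases l' : (vtx v).x true c = 0
      · refine Finset.mem_insert_of_mem (h4 a c (fun e => k ?_) i hi)
        cases a <;> simp [simpCone, l, l', filter_apply, e]
      · rw [simp_vtx_ne l', Finset.mem_singleton] at hi
        exact hi ▸ Finset.mem_insert_self _ _
    · obtain ⟨T, k1, -, k2⟩ := simp_join_ne l
      rw [k2] at hi
      exact Finset.mem_insert.2 ((Finset.mem_insert.1 hi).imp_right (h4 a T k1 i))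
  · rw [hb] at hw
    exact (Finset.mem_insert.1 hw).elim Eq.le fun e => (hv w e).le

theorem exists_st [WellFoundedLT V] : ∃ S : St (simplexADC V), ∀ b,
    (∀ a, ChIn (b.1 : Set V) ((S.atom b).x a)) ∧ (S.atom b).d true 0 = vtx (b.1.max' b.2) := by
  choose u h1 h2 h3 h4 h5 using fun b : (simplexADC V).B => simp_atom b.1 b rfl
  exact ⟨⟨Lex (V → ℤ), fun b => toLex (simpRk b.1), u, h1, h2, h3⟩, fun b =>
    ⟨h4 b, h5 b _ (b.1.max'_mem _) (b.1.le_max')⟩⟩

theorem simp_le {u : Cell (simplexADC V)} {i k : V} (h : u.d false 0 = vtx i)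
    (h' : ChIn (Set.Iic k) (u.x false)) : i ≤ k := by
  obtain ⟨c, hc⟩ : ∃ c : (simplexADC V).B, c.1 = {i} := ⟨⟨{i}, by simp⟩, rfl⟩
  refine h' c (fun e : u.x false c = 0 => ?_) i (by simp [hc])
  have := Cell.d_apply false 0 u false c
  simp [h, e, simp_vtx_eq _ hc] at this

theorem simp_comp_ne {K : ADC} {u v : Cell K} {k : ℕ} {a : Bool} {c : K.B}
    (e : u.d true k = v.d false k) (hc : (u.comp k v).x a c ≠ 0) :
    u.x a c ≠ 0 ∨ v.x a c ≠ 0 := by
  have k1 : 0 ≤ (u.comp k v).x a c := (u.comp k v).pos a c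
  have k2 : 0 ≤ u.x true c := u.pos true c
  rw [Cell.comp_apply e] at hc k1
  split_ifs at hc k1 <;> omega

theorem chIn_tgt [WellFoundedLT V] {u : Cell (simplexADC V)} {i : V} (h : u.d true 0 = vtx i)
    (a : Bool) : ChIn (Set.Iic i) (u.x a) := by
  obtain ⟨S, hS⟩ := exists_st (V := V)
  obtain ⟨n, hn⟩ := OmegaCat.exists_dimLT (X := (simplexADC V).nu) u
  refine S.gen (fun u => ∀ i, u.d true 0 = vtx i → ∀ a, ChIn (Set.Iic i) (u.x a))
    (fun b _ i hi a c hc j hj => ?_) (fun k u v _ _ e hu hv i hi a c hc => ?_) u hn i h a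
  · rw [← vtx_injective ((hS b).2.symm.trans hi)]
    exact Finset.le_max' _ _ ((hS b).1 a c hc j hj)
  have h1 := simp_comp_ne e hc
  rcases k with _ | k
  · have hv' := hv i ((Cell.tgt_comp e).symm.trans hi)
    obtain ⟨l, hl⟩ := exists_vtx u true
    exact h1.elim (fun k j hj => (hu l hl a c k j hj).trans (simp_le (e.symm.trans hl) (hv' _)))
      (hv' a c)
  · have e1 := (OmegaCat.d_comp_lt (X := (simplexADC V).nu) e k.succ_pos).symm.trans hi
    exact h1.elim (hu i e1 a c) (hv i
      ((OmegaCat.d_lt_eq (X := (simplexADC V).nu) e k.succ_pos).symm.trans e1) a c)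

theorem src_le_tgt [WellFoundedLT V] {u : Cell (simplexADC V)} {i k : V} (h : u.d false 0 = vtx i)
    (h' : u.d true 0 = vtx k) : i ≤ k := simp_le h (chIn_tgt h' false)

/-- Maps that agree up to the target vertex agree on a cell. -/
theorem simplexMap_congr [WellFoundedLT V] {u : Cell (simplexADC V)} {i : V}
    (h : u.d true 0 = vtx i) {f g : V →o W} (e : ∀ k ≤ i, f k = g k) :
    (simplexMap f).cell u = (simplexMap g).cell u :=
  Cell.ext (funext fun a => pushL_congr (chIn_tgt h a) e)

theorem eq_vtx_of_subsingleton [Subsingleton V] (u : Cell (simplexADC V)) (i : V) : u = vtx i := by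
  obtain ⟨k, hk⟩ := exists_vtx u false
  refine (OmegaCat.dimLT_succ (X := (simplexADC V).nu).1
    (dimLT_iff.2 ⟨one_pos, fun a c _ => ?_⟩)).symm.trans
    (hk.trans (congrArg vtx (Subsingleton.elim k i)))
  have := Finset.card_le_one.2 fun a (_ : a ∈ c.1) b _ => Subsingleton.elim a b
  change c.1.card - 1 < 0 + 1
  omega

/-- The orientals. -/
abbrev Ori (m : ℕ) : OmegaCat := (simplexADC (Fin (m + 1))).nu

/-- A simplex whose last vertex lies in a sieve lies in the sieve. -/
theorem sieve_of_last {X : OmegaCat} {S : X.C → Prop} (h : X.IsSieve S) {m : ℕ} (σ : Ori m ⟶ X)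
    (hσ : S (σ.f (vtx (Fin.last m)))) (u : (Ori m).C) : S (σ.f u) := by
  obtain ⟨i, hi⟩ := exists_vtx u true
  obtain ⟨e, h1, h2⟩ := exists_edge (Fin.le_last i)
  have k := h.src _ ((h.tgt (σ.f e)).2 (by rwa [← σ.map_d, show (Ori m).d true 0 e = _ from h2]))
  rwa [h.tgt, ← σ.map_d, show (Ori m).d true 0 u = (Ori m).d false 0 e from hi.trans h1.symm,
    σ.map_d]

end Vale.Agent.P213
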