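import Vale.Agent.P213.Cone
import Vale.Agent.P213.Simp
import Vale.Agent.P213.KHtp

/-! Maps from nerves of posets to Street nerves; subcomplexes given by sieves. -/

open CategoryTheory Limits Opposite Simplicial MonoidalCategory SSet

set_option backward.isDefEq.respectTransparency false

noncomputable section

namespace Vale.Agent.P213

variable {B : Type} [PartialOrder B] {n : ℕ∞}

/-- A compatible family of functors from orientals, one for each simplex with vertices in `D`. -/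
@[ext] structure Fam (D : Set B) (Y : OmegaCat) where
  app : ∀ {m : ℕ} (σ : Fin (m + 1) →o B), (∀ i, σ i ∈ D) → (Ori m ⟶ Y)
  nat : ∀ {k m : ℕ} (θ : Fin (k + 1) →o Fin (m + 1)) (σ : Fin (m + 1) →o B) (h : ∀ i, σ i ∈ D),
    (simplexMap θ).nu ≫ app σ h = app (σ.comp θ) fun _ => h _

namespace Fam

variable {A D : Set B} {Y Z : OmegaCat}

/-- Postcomposition with a functor. -/
def post (g : Fam D Y) (F : Y ⟶ Z) : Fam D Z :=
  ⟨fun σ h => g.app σ h ≫ F, fun θ σ h => by rw [← Category.assoc, g.nat]⟩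

/-- Restriction to a subset. -/
def res (g : Fam D Y) (h : A ⊆ D) : Fam A Y :=
  ⟨fun σ k => g.app σ fun i => h (k i), fun θ σ _ => g.nat θ σ _⟩

/-- The object attached to a vertex. -/
def ob (g : Fam D Y) (b : B) (hb : b ∈ D) : Y.C :=
  (g.app (m := 0) (OrderHom.const _ b) fun _ => hb).f (vtx 0)

theorem app_vtx (g : Fam D Y) {m : ℕ} (σ : Fin (m + 1) →o B) (h : ∀ i, σ i ∈ D) (i : Fin (m + 1)) :
    (g.app σ h).f (vtx i) = g.ob (σ i) (h i) := by
  have e : (simplexMap (OrderHom.const (Fin (0 + 1)) i)).cell (vtx 0) = vtx i :=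
    simplexMap_vtx _ _
  have e' := g.nat (OrderHom.const (Fin (0 + 1)) i) σ h
  rw [← e, ob, ← show _ = g.app (OrderHom.const (Fin (0 + 1)) (σ i)) fun _ => h i from e']
  rfl

theorem ob_d (g : Fam D Y) (b : B) (hb : b ∈ D) (a : Bool) (k : ℕ) :
    Y.d a k (g.ob b hb) = g.ob b hb := ((g.app (m := 0) (OrderHom.const _ b) fun _ => hb).map_d a k _).symm.trans
    (congrArg _ (vtx_d 0 a k))

/-- Simplices that agree up to the target vertex agree on a cell. -/
theorem app_congr (g : Fam D Y) {m : ℕ} {σ τ : Fin (m + 1) →o B} (h : ∀ i, σ i ∈ D)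
    (h' : ∀ i, τ i ∈ D) {u : (Ori m).C} {i : Fin (m + 1)} (hu : (Ori m).d true 0 u = vtx i)
    (e : ∀ k ≤ i, σ k = τ k) : (g.app σ h).f u = (g.app τ h').f u := by
  let θ : Fin (m + 1) →o Fin (m + 1) := ⟨fun k => min k i, fun _ _ k => min_le_min_right i k⟩
  have e1 : (simplexMap θ).cell u = u :=
    (simplexMap_congr hu (g := OrderHom.id) fun k hk => min_eq_left hk).trans
      (by rw [simplexMap_id]; rfl)
  have e2 : ∀ (σ : Fin (m + 1) →o B) (h : ∀ i, σ i ∈ D),
      (g.app σ h).f u = (g.app (σ.comp θ) fun _ => h _).f u := fun σ h =>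
    (congrArg _ e1.symm).trans (congrArg (fun F => OmegaCat.Hom.f F u) (g.nat θ σ h))
  have e3 : σ.comp θ = τ.comp θ := OrderHom.ext _ _ (funext fun k => e _ (min_le_right k i))
  rw [e2 σ, e2 τ]
  congr 2

/-- The map of simplicial sets given by a family. -/
def toS {Y : NCat n} (g : Fam D Y.obj) : (nsub D : SSet.{0}) ⟶ (streetNerve n).obj Y where
  app m := ↾fun σ => g.app (m := m.unop.len) σ.1.toOrderHom σ.2
  naturality _ _ θ := by
    ext σ
    exact (g.nat θ.unop.toOrderHom σ.1.toOrderHom σ.2).symm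

theorem toS_bijective (D : Set B) (Y : NCat n) :
    Function.Bijective (toS : Fam D Y.obj → _) := by
  refine ⟨fun g g' e => Fam.ext (funext fun m => funext fun σ => funext fun h => ?_), fun φ => ?_⟩
  · exact congrArg (fun F : (nsub D : SSet.{0}) ⟶ _ =>
      F.app (op ⦋m⦌) ⟨σ.monotone.functor, h⟩) e
  · refine ⟨⟨fun {m} σ h => φ.app (op ⦋m⦌) ⟨σ.monotone.functor, h⟩, fun θ σ h => ?_⟩, ?_⟩
    · exact (ConcreteCategory.congr_hom (φ.naturality (SimplexCategory.mkHom θ).op)
        ⟨σ.monotone.functor, h⟩).symm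
    · ext m σ
      exact congrArg (φ.app m) (Subtype.ext (nerve.ext_of_isThin rfl))

theorem toS_post {Y Z : NCat n} (g : Fam D Y.obj) (F : Y ⟶ Z) :
    (g.post F.hom).toS = g.toS ≫ (streetNerve n).map F := rfl

theorem toS_res {Y : NCat n} (g : Fam D Y.obj) (h : A ⊆ D) :
    (g.res h).toS = Subcomplex.homOfLE (nsub_mono h) ≫ g.toS := rfl

end Fam

/-- The simplices of the nerve all of whose cells lie in `S`. -/
def usub {X : NCat n} (S : X.obj.C → Prop) : ((streetNerve n).obj X).Subcomplex where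
  obj _ := {σ | ∀ u, S (OmegaCat.Hom.f σ u)}
  map _ _ h _ := h _

theorem usub_mono {X : NCat n} {S S' : X.obj.C → Prop} (h : ∀ x, S x → S' x) : usub S ≤ usub S' :=
  fun _ _ k u => h _ (k u)

theorem mem_usub_iff {X : NCat n} {S : X.obj.C → Prop} (h : X.obj.IsSieve S) {m : ℕ}
    (σ : Ori m ⟶ X.obj) : σ ∈ (usub S).obj (op ⦋m⦌) ↔ S (σ.f (vtx (Fin.last m))) :=
  ⟨fun k => k _, sieve_of_last h σ⟩

theorem mono_nerve_map {X Y : NCat n} (j : X ⟶ Y) (hj : Function.Injective j.hom.f) :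
    Mono ((streetNerve n).map j) := by
  rw [NatTrans.mono_iff_mono_app]
  exact fun m => (mono_iff_injective _).2 fun σ τ e => OmegaCat.hom_ext fun u =>
    hj (congrArg (fun F => OmegaCat.Hom.f F u) e)

theorem range_nerve_map {X Y : NCat n} (j : X ⟶ Y) (hj : Function.Injective j.hom.f) :
    Subcomplex.range ((streetNerve n).map j) = usub fun y => ∃ x, j.hom.f x = y := by
  ext m σ
  exact ⟨fun ⟨τ, e⟩ u => ⟨OmegaCat.Hom.f τ u, congrArg (fun F => OmegaCat.Hom.f F u) e⟩,
    OmegaCat.exists_lift_of_injective j.hom hj σ⟩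

/-- The nerve of an injective functor identifies `usub` with `usub`. -/
theorem exists_usub_iso {X Y : NCat n} (j : X ⟶ Y) (hj : Function.Injective j.hom.f)
    (S : Y.obj.C → Prop) (hS : ∀ y, S y → ∃ x, j.hom.f x = y) :
    ∃ e : (usub (X := X) fun x => S (j.hom.f x) : SSet.{0}) ≅ (usub S : SSet.{0}),
      e.hom ≫ (usub S).ι = (usub _).ι ≫ (streetNerve n).map j := by
  let f : (usub (X := X) fun x => S (j.hom.f x) : SSet.{0}) ⟶ (usub S : SSet.{0}) :=
    Subcomplex.lift ((usub _).ι ≫ (streetNerve n).map j) (by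
      rintro m _ ⟨σ, rfl⟩ u
      exact σ.2 u)
  have : IsIso f := by
    rw [NatTrans.isIso_iff_isIso_app]
    refine fun m => (isIso_iff_bijective _).2 ⟨fun σ τ e => Subtype.ext (OmegaCat.hom_ext fun u =>
      hj (congrArg (fun F => OmegaCat.Hom.f F.1 u) e)), fun σ => ?_⟩
    obtain ⟨τ, e⟩ := OmegaCat.exists_lift_of_injective j.hom hj σ.1 fun u => hS _ (σ.2 u)
    exact ⟨⟨τ, fun u => (congrArg (fun F => S (OmegaCat.Hom.f F u)) e).mpr (σ.2 u)⟩,
      Subtype.ext e⟩
  exact ⟨asIso f, rfl⟩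

end Vale.Agent.P213
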