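import Vale.Agent.P213.FreeB

/-! Steiner's theorem: `ν K` is freely generated by the atoms. -/

open CategoryTheory Finsupp

set_option backward.isDefEq.respectTransparency false

noncomputable section

namespace Vale.Agent.P213

namespace ADC

open OmegaCat

variable {K : ADC} {X : OmegaCat}

theorem St.step (S : St K) {n : ℕ} {F : K.nu.C → X.C} (hF : OmegaCat.PFun n F) (ξ : K.B → X.C)
    (h1 : ∀ b, K.dim b = n → X.d false n (ξ b) = ξ b)
    (h2 : ∀ b, K.dim b = n → ∀ a k, k < n → X.d a k (ξ b) = F ((S.atom b).d a k)) :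
    ∃ F' : K.nu.C → X.C, OmegaCat.PFun (n + 1) F' ∧ (∀ u, K.nu.DimLT n u → F' u = F u) ∧
      ∀ b, K.dim b = n → F' (S.atom b) = ξ b := by
  classical
  obtain ⟨_, o⟩ := S.exists_ord
  have H : ∀ q ≤ n, ∃ U, Lev S n F ξ q U := fun q => by
    induction q with
    | zero => exact fun _ => exists_lev_zero S hF h1 h2
    | succ q ih => exact fun l => let ⟨_, L⟩ := ih (Nat.le_of_succ_le l); ⟨_, L.succ hF l o⟩
  obtain ⟨U, L⟩ := H n le_rfl
  have ex : ∀ u, ∃ x, K.nu.DimLT (n + 1) u → U u x := fun u => by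
    by_cases hu : K.nu.DimLT (n + 1) u
    · obtain ⟨x, hx⟩ := L.surj' (St.good_nil_iff.2 hu) (by simp) hu
      exact ⟨x, fun _ => hx⟩
    · exact ⟨F u, fun k => absurd k hu⟩
  choose G hG using ex
  have low : ∀ u, K.nu.DimLT n u → G u = F u := fun u hu =>
    (L.ok (hG u (hu.mono n.le_succ))).low hu
  refine ⟨G, ⟨fun a k u hu => ?_, fun k u v hu hv e => ?_⟩, low,
    fun b hb => L.inj (hG _ (S.dimLT_atom.2 (by omega))) (L.atom b hb)⟩
  · rcases lt_or_ge k n with l | l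
    · rw [low _ (dimLT_d a u l), (L.ok (hG u hu)).bd a k l]
    · rw [d_of_d (dimLT_succ.1 hu) l, d_of_d (L.ok (hG u hu)).top l]
  · rcases lt_or_ge k n with l | l
    · exact L.inj (hG _ (hu.comp e hv)) (L.clos l (hG u hu) (hG v hv) e)
    · rw [d_of_d (dimLT_succ.1 hu) l, d_of_d (dimLT_succ.1 hv) l] at e
      rw [← e, comp_self (d_of_d (dimLT_succ.1 hu) l), comp_self (d_of_d (L.ok (hG u hu)).top l)]

theorem St.exists_hom (S : St K) (ξ : K.B → X.C) (h1 : ∀ b, X.d false (K.dim b) (ξ b) = ξ b)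
    (h2 : ∀ (n : ℕ) (F : K.nu.C → X.C), OmegaCat.PFun n F →
      (∀ b, K.dim b < n → F (S.atom b) = ξ b) →
      ∀ b, K.dim b = n → ∀ a k, k < n → X.d a k (ξ b) = F ((S.atom b).d a k)) :
    ∃ F : K.nu ⟶ X, ∀ b, F.f (S.atom b) = ξ b := by
  have H : ∀ n, ∃ F : K.nu.C → X.C, PFun n F ∧ ∀ b, K.dim b < n → F (S.atom b) = ξ b := fun n => by
    induction n with
    | zero => exact ⟨fun u => ξ (Cell.exists_vertex u true).choose,
        ⟨fun _ _ _ ⟨_, h, _⟩ => absurd h (Nat.not_lt_zero _),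
          fun _ _ _ ⟨_, h, _⟩ => absurd h (Nat.not_lt_zero _)⟩, fun _ h => absurd h (Nat.not_lt_zero _)⟩
    | succ n ih =>
      obtain ⟨F, hF, e⟩ := ih
      obtain ⟨G, hG, e1, e2⟩ := S.step hF ξ (fun b hb => hb ▸ h1 b) (h2 n F hF e)
      refine ⟨G, hG, fun b hb => (Nat.le_of_lt_succ hb).eq_or_lt.elim (e2 b) fun l => ?_⟩
      rw [e1 _ (S.dimLT_atom.2 l), e b l]
  choose G hG e using H
  choose N hN using exists_dimLT (X := K.nu)
  have key : ∀ n u, K.nu.DimLT n u → G (N u) u = G n u := fun n u hu =>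
    S.pfun_ext (n := min n (N u)) ((hG _).mono (min_le_right _ _)) ((hG _).mono (min_le_left _ _))
      (fun b hb => by rw [e _ b (lt_min_iff.1 hb).1, e _ b (lt_min_iff.1 hb).2]) u
      (by rcases le_total n (N u) with l | l
          · rwa [min_eq_left l]
          · rw [min_eq_right l]; exact hN u)
  refine ⟨⟨fun u => G (N u) u, fun a k u => ?_, fun {k u v} c => ?_⟩, fun b => ?_⟩
  · rw [key _ _ ((hN u).d a k), (hG _).map_d a k u (hN u)]
  · have hu := (hN u).mono (le_max_left _ (N v))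
    have hv := (hN v).mono (le_max_right (N u) _)
    rw [key _ _ (hu.comp c hv), key _ _ hu, key _ _ hv, (hG _).map_comp k u v hu hv c]
  · exact e _ b (S.dimLT_atom.1 (hN _))

end ADC

end Vale.Agent.P213
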