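import Vale.Agent.P213.Split

/-! Normal forms for cells: auxiliary results. -/

open CategoryTheory Finsupp

set_option backward.isDefEq.respectTransparency false

noncomputable section

namespace Vale.Agent.P213

namespace OmegaCat

variable {X : OmegaCat} {p q : ℕ}

theorem comp_self {x : X.C} (h : X.d false q x = x) : X.comp q x x = x := by
  have := X.id_comp q x
  rwa [h] at this

theorem dimLT_d (a : Bool) (x : X.C) (h : p < q) : X.DimLT q (X.d a p x) := ⟨p, h, X.d_ge _ le_rfl⟩

theorem whisker_r {x y w : X.C} (l : p < q) (h : X.d true q x = X.d false q y)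
    (k : X.d true p x = X.d false p w) (hw : X.d false q w = w) :
    X.comp p (X.comp q x y) w = X.comp q (X.comp p x w) (X.comp p y w) := by
  rw [← X.interchange l h (by rw [hw, d_of_d hw le_rfl]) k, comp_self hw]

theorem whisker_l {x y w : X.C} (l : p < q) (h : X.d true q x = X.d false q y)
    (k : X.d true p w = X.d false p x) (hw : X.d false q w = w) :
    X.comp p w (X.comp q x y) = X.comp q (X.comp p w x) (X.comp p w y) := by
  rw [← X.interchange l (by rw [hw, d_of_d hw le_rfl]) h k, comp_self hw]

theorem comp_eq_hi {x y : X.C} (l : p < q) (k : X.d true p x = X.d false p y) :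
    X.comp p x y = X.comp q (X.comp p x (X.d false q y)) (X.comp p (X.d true q x) y) := by
  rw [← X.interchange l (X.d_ge _ le_rfl).symm (X.d_ge _ le_rfl) (by rw [X.d_lt _ l, k]), X.comp_id,
    X.id_comp]

theorem cmp_hi {x y : X.C} (l : p < q) (k : X.d true p x = X.d false p y) :
    X.d true q (X.comp p x (X.d false q y)) = X.d false q (X.comp p (X.d true q x) y) := by
  rw [X.d_comp (by rw [X.d_lt _ l, k]) l.ne', X.d_comp (by rw [X.d_lt _ l, k]) l.ne',
    X.d_ge _ le_rfl, X.d_ge _ le_rfl]

theorem comp_eq_hi' {x y : X.C} (l : p < q) (k : X.d true p x = X.d false p y) :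
    X.comp p x y = X.comp q (X.comp p (X.d false q x) y) (X.comp p x (X.d true q y)) := by
  rw [← X.interchange l (X.d_ge _ le_rfl) (X.d_ge _ le_rfl).symm (by rw [X.d_lt _ l, k]), X.comp_id,
    X.id_comp]

theorem PFun.mono {Y : OmegaCat} {F : X.C → Y.C} (h : PFun q F) (l : p ≤ q) : PFun p F :=
  ⟨fun a k x hx => h.map_d a k x (hx.mono l),
    fun k x y hx hy e => h.map_comp k x y (hx.mono l) (hy.mono l) e⟩

end OmegaCat

namespace ADC

variable {K : ADC} {S : St K} {q : ℕ} {u v : Cell K} {T W : Multiset K.B}

theorem Cell.ext_one (a : Bool) (h : ∀ c, u.x a c = v.x a c) : u = v := by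
  have h : u.x a = v.x a := Finsupp.ext h
  have e : u.x true - u.x false = v.x true - v.x false := by rw [← u.bd_x a, ← v.bd_x a, h]
  refine Cell.ext (funext fun b => ?_)
  cases a <;> cases b
  exacts [h, by rwa [h, sub_left_inj] at e, by rwa [h, sub_right_inj] at e, h]

theorem Cell.exists_vertex (u : Cell K) (a : Bool) : ∃ c, K.dim c = 0 ∧ u.x a c ≠ 0 := by
  by_contra h
  have e := u.aug_x a
  rw [aug, linearCombination_apply, Finsupp.sum, Finset.sum_eq_zero fun c hc => by
    rw [if_neg fun k => h ⟨c, k, mem_support_iff.1 hc⟩, smul_zero]] at e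
  exact zero_ne_one e

theorem St.Good.up' (h : S.Good q u (T + W)) (hT : ∀ b ∈ T, q + 1 ≤ K.dim b)
    (hW : ∀ c ∈ W, K.dim c = q) : S.Good (q + 1) u T := by
  classical
  have := h.up
  rwa [Multiset.filter_add, Multiset.filter_eq_self.2 hT,
    Multiset.filter_eq_nil.2 fun c hc => by rw [hW c hc]; omega, add_zero] at this

theorem St.sum_top [DecidableEq K.B] (S : St K) (hW : ∀ c ∈ W, K.dim c = q) (a : Bool) {c : K.B}
    (hc : q ≤ K.dim c) : (W.map fun b => (S.atom b).x a c).sum = W.count c := by
  induction W using Multiset.induction_on with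
  | empty => simp
  | cons b W ih =>
    rw [Multiset.map_cons, Multiset.sum_cons, ih fun c hc => hW c (Multiset.mem_cons_of_mem hc),
      S.top b a c (by rw [hW b (Multiset.mem_cons_self _ _)]; exact hc), Multiset.count_cons,
      single_apply]
    by_cases e : b = c
    · simp [e, add_comm]
    · simp [e, Ne.symm e]

/-- The ordering is compatible with the atoms. -/
def St.Ord (S : St K) [LinearOrder K.B] : Prop :=
  (∀ b c, (S.atom b).x false c ≠ 0 → c ≤ b) ∧ ∀ b c, (S.atom b).x true c ≠ 0 → b ≤ c

variable [LinearOrder K.B]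

theorem St.split_le (o : S.Ord) {T' : Multiset K.B} (h : S.Good (q + 1) u (T + T'))
    (hT : ∀ b ∈ T, ∀ b' ∈ T', b ≤ b') :
    ∃ v w : Cell K, v.d true q = w.d false q ∧ u = v.comp q w ∧ S.Good (q + 1) v T ∧
      S.Good (q + 1) w T' := by
  refine St.split h fun b hb b' hb' c hc h1 => not_not.1 fun h2 => ?_
  have := h.le b (Multiset.mem_add.2 (Or.inl hb))
  rw [← (o.1 b c h1).antisymm ((hT b hb b' hb').trans (o.2 b' c h2))] at this
  omega

/-- Two composable whiskered atoms in the wrong order are horizontally composable. -/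
theorem St.swap_cells (o : S.Ord) {b b' : K.B} (hu : S.Good (q + 1) u {b})
    (hv : S.Good (q + 1) v {b'}) (l : b' < b) (e : u.d true q = v.d false q) :
    ∃ (p : ℕ) (u' v' : Cell K) (T T' : Multiset K.B), q = p + 1 ∧ v'.d true p = u'.d false p ∧
      u = (v'.d false q).comp p u' ∧ v = v'.comp p (u'.d true q) ∧ S.Good q u' T ∧ S.Good q v' T' ∧
      S.Good (q + 1) u' {b} ∧ S.Good (q + 1) v' {b'} := by
  obtain ⟨W, hW, gu⟩ := St.sing hu (by simp)
  obtain ⟨W', hW', gv⟩ := St.sing hv (by simp)
  have hb := hu.le b (Multiset.mem_singleton_self _)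
  have hb' := hv.le b' (Multiset.mem_singleton_self _)
  have key : ∀ c, K.dim c = q →
      (S.atom b).x true c + W.count c = (S.atom b').x false c + W'.count c := fun c hc => by
    have := (Cell.cmp e c).2 hc
    rw [gu.eq _ _ hc.ge, gv.eq _ _ hc.ge] at this
    simpa only [Multiset.map_add, Multiset.sum_add, Multiset.map_singleton, Multiset.sum_singleton,
      S.sum_top hW _ hc.ge, S.sum_top hW' _ hc.ge] using this
  rcases q with _ | p
  · obtain ⟨c, h1, -⟩ := St.good_zero gu
    obtain ⟨c', h2, -⟩ := St.good_zero gv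
    have h1 : W = 0 := Multiset.card_eq_zero.1 (by simpa using congrArg Multiset.card h1)
    have h2 : W' = 0 := Multiset.card_eq_zero.1 (by simpa using congrArg Multiset.card h2)
    obtain ⟨c, hc, h3⟩ := (S.atom b).exists_vertex true
    have := key c hc
    simp only [h1, h2, Multiset.count_zero, Nat.cast_zero, add_zero] at this
    exact absurd ((o.2 b c h3).trans (o.1 b' c (this ▸ h3))) (not_le.2 l)
  have f1 : ∀ {W : Multiset K.B} {P : K.B → Prop} [DecidablePred P], (∀ c ∈ W, K.dim c = p + 1) →
      ∀ c ∈ W.filter P, K.dim c = p + 1 := fun h c hc => h c (Multiset.mem_of_mem_filter hc)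
  obtain ⟨u1, u2, eu, rfl, g1, g2⟩ := St.split_le (q := p) (u := u) o (T := W.filter (· ≤ b'))
    (T' := {b} + W.filter fun c => ¬c ≤ b')
    (by rwa [add_left_comm, Multiset.filter_add_not]) fun c hc c' hc' => by
      have := Multiset.of_mem_filter hc
      rcases Multiset.mem_add.1 hc' with k | k
      · rw [Multiset.mem_singleton.1 k]; exact this.trans l.le
      · exact this.trans (not_le.1 (Multiset.mem_filter.1 k).2).le
  obtain ⟨v1, v2, ev, rfl, g3, g4⟩ := St.split_le (q := p) (u := v) o (T := {b'} + W'.filter (· ≤ b'))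
    (T' := W'.filter fun c => ¬c ≤ b')
    (by rwa [add_assoc, Multiset.filter_add_not]) fun c hc c' hc' => by
      have := (not_le.1 (Multiset.mem_filter.1 hc').2).le
      rcases Multiset.mem_add.1 hc with k | k
      · rw [Multiset.mem_singleton.1 k]; exact this
      · exact (Multiset.of_mem_filter k).trans this
  have A : v1.d false (p + 1) = u1 := Cell.ext_one false fun c => by
    have k1 := Cell.cmp e c
    have k2 := Cell.cmp eu c
    have k3 := Cell.cmp ev c
    rw [Cell.comp_apply eu, Cell.comp_apply ev] at k1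
    rw [Cell.d_apply]
    rcases lt_trichotomy (K.dim c) (p + 1) with h | h | h
    · rw [if_pos h]
      have := (k1.1 h).1
      split_ifs at this <;> omega
    · have := key c h
      rw [if_neg h.not_lt, if_pos h, g1.eq _ _ h.ge, g3.eq _ _ h.ge, S.sum_top (f1 hW) _ h.ge,
        Multiset.map_add, Multiset.sum_add, S.sum_top (f1 hW') _ h.ge, Multiset.map_singleton,
        Multiset.sum_singleton]
      by_cases hc : c ≤ b'
      · rw [not_not.1 fun k => absurd ((o.2 b c k).trans hc) (not_le.2 l)] at this
        simp only [Multiset.count_filter_of_pos (p := (· ≤ b')) hc]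
        exact this.symm.trans (zero_add _)
      · simp only [Multiset.count_filter_of_neg (p := (· ≤ b')) hc]
        rw [not_not.1 fun k => hc (o.1 b' c k)]
        rfl
    · rw [if_neg h.not_gt, if_neg h.ne', g1.eq _ _ h.le, S.sum_top (f1 hW) _ h.le,
        Multiset.count_eq_zero.2 fun k => h.ne' (f1 hW c k)]
      rfl
  have B : u2.d true (p + 1) = v2 := Cell.ext_one true fun c => by
    have k1 := Cell.cmp e c
    have k2 := Cell.cmp eu c
    have k3 := Cell.cmp ev c
    rw [Cell.comp_apply eu, Cell.comp_apply ev, Cell.comp_apply eu, Cell.comp_apply ev] at k1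
    rw [Cell.d_apply]
    rcases lt_trichotomy (K.dim c) (p + 1) with h | h | h
    · rw [if_pos h]
      have := (k1.1 h).2
      split_ifs at this <;> omega
    · have := key c h
      rw [if_neg h.not_lt, if_pos h, g2.eq _ _ h.ge, g4.eq _ _ h.ge, S.sum_top (f1 hW') _ h.ge,
        Multiset.map_add, Multiset.sum_add, S.sum_top (f1 hW) _ h.ge, Multiset.map_singleton,
        Multiset.sum_singleton]
      by_cases hc : c ≤ b'
      · simp only [Multiset.count_filter_of_neg (p := fun c => ¬c ≤ b') (not_not.2 hc)]
        rw [not_not.1 fun k => absurd ((o.2 b c k).trans hc) (not_le.2 l)]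
        rfl
      · rw [not_not.1 fun k => hc (o.1 b' c k)] at this
        simp only [Multiset.count_filter_of_pos (p := fun c => ¬c ≤ b') hc]
        exact this.trans (zero_add _)
    · rw [if_neg h.not_gt, if_neg h.ne', g4.eq _ _ h.le, S.sum_top (f1 hW') _ h.le,
        Multiset.count_eq_zero.2 fun k => h.ne' (f1 hW' c k)]
      rfl
  refine ⟨p, u2, v1, _, _, rfl, ?_, by rw [A], by rw [B], g2, g3,
    g2.up' (by simpa using hb) (f1 hW), g3.up' (by simpa using hb') (f1 hW')⟩
  rw [← eu, ← A, Cell.d_lt _ p.lt_succ_self]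

end ADC

end Vale.Agent.P213
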