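import Vale.Agent.P213.FreeA

/-! Normal forms for cells: the induction on levels. -/

open CategoryTheory Finsupp

set_option backward.isDefEq.respectTransparency false

noncomputable section

namespace Vale.Agent.P213

namespace ADC

open OmegaCat

variable {K : ADC} {X : OmegaCat} {n p q : ℕ} {F : K.nu.C → X.C} {u v w : K.nu.C} {x y : X.C}

/-- The cell `x` is a candidate value on `u` of an extension of `F`. -/
structure Ok (n : ℕ) (F : K.nu.C → X.C) (u : K.nu.C) (x : X.C) : Prop where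
  dim : K.nu.DimLT (n + 1) u
  top : X.d false n x = x
  bd : ∀ a m, m < n → X.d a m x = F (K.nu.d a m u)
  low : K.nu.DimLT n u → x = F u

theorem Ok.of_low (hF : PFun n F) (hu : K.nu.DimLT n u) : Ok n F u (F u) where
  dim := hu.mono n.le_succ
  top := by rw [← hF.map_d _ _ _ hu, dimLT_succ.1 (hu.mono n.le_succ)]
  bd a m _ := (hF.map_d a m u hu).symm
  low _ := rfl

theorem Ok.cmp (h : Ok n F u x) (h' : Ok n F v y) (l : p < n)
    (e : K.nu.d true p u = K.nu.d false p v) : X.d true p x = X.d false p y := by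
  rw [h.bd _ _ l, h'.bd _ _ l, e]

theorem Ok.comp (hF : PFun n F) (h : Ok n F u x) (h' : Ok n F v y) (l : p < n)
    (e : K.nu.d true p u = K.nu.d false p v) : Ok n F (K.nu.comp p u v) (X.comp p x y) where
  dim := h.dim.comp e h'.dim
  top := by rw [X.d_comp (h.cmp h' l e) l.ne', h.top, h'.top]
  bd a m k := by
    rcases eq_or_ne m p with rfl | j
    · cases a
      · rw [X.src_comp (h.cmp h' l e), K.nu.src_comp e, h.bd _ _ k]
      · rw [X.tgt_comp (h.cmp h' l e), K.nu.tgt_comp e, h'.bd _ _ k]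
    · rw [X.d_comp (h.cmp h' l e) j, K.nu.d_comp e j, h.bd _ _ k, h'.bd _ _ k,
        hF.map_comp _ _ _ (dimLT_d a u k) (dimLT_d a v k) (d_cmp e j)]
  low k := by
    obtain ⟨k1, k2⟩ := dimLT_of_comp e k
    rw [hF.map_comp _ _ _ k1 k2 e, h.low k1, h'.low k2]

/-- A functional relation defined on the cells that are sums of atoms in degrees at least `q`. -/
structure Lev (S : St K) (n : ℕ) (F : K.nu.C → X.C) (ξ : K.B → X.C) (q : ℕ)
    (U : K.nu.C → X.C → Prop) : Prop where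
  ok : ∀ {u x}, U u x → Ok n F u x
  surj : ∀ {u T}, S.Good q u T → K.nu.DimLT (n + 1) u → ∃ x, U u x
  inj : ∀ {u x x'}, U u x → U u x' → x = x'
  clos : ∀ {p u x v y}, p < q → U u x → U v y → K.nu.d true p u = K.nu.d false p v →
    U (K.nu.comp p u v) (X.comp p x y)
  atom : ∀ b, K.dim b = n → U (S.atom b) (ξ b)

variable {S : St K} {ξ : K.B → X.C} {U : K.nu.C → X.C → Prop} {T T' : Multiset K.B}

theorem Lev.surj' (L : Lev S n F ξ q U) (h : S.Good (q + 1) u T) (hT : T.card ≤ 1)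
    (hu : K.nu.DimLT (n + 1) u) : ∃ x, U u x :=
  let ⟨_, _, g⟩ := St.sing h hT; L.surj g hu

theorem Lev.low (L : Lev S n F ξ q U) (hu : K.nu.DimLT (q + 1) u) (hu' : K.nu.DimLT n u) :
    U u (F u) := by
  obtain ⟨x, hx⟩ := L.surj' (St.good_nil_iff.2 hu) (by simp) (hu'.mono n.le_succ)
  exact (L.ok hx).low hu' ▸ hx

theorem exists_lev_zero (S : St K) (hF : PFun n F)
    (h1 : ∀ b, K.dim b = n → X.d false n (ξ b) = ξ b)
    (h2 : ∀ b, K.dim b = n → ∀ a k, k < n → X.d a k (ξ b) = F ((S.atom b).d a k)) :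
    ∃ U, Lev S n F ξ 0 U := by
  refine ⟨fun u x => ∃ b, K.dim b ≤ n ∧ u = S.atom b ∧
    x = if K.dim b = n then ξ b else F (S.atom b), ?_, fun g hu => ?_, ?_,
    fun h => absurd h (Nat.not_lt_zero _), fun b hb => ⟨b, hb.le, rfl, (if_pos hb).symm⟩⟩
  · rintro _ _ ⟨b, hb, rfl, rfl⟩
    split_ifs with h
    · exact ⟨S.dimLT_atom.2 (by omega), h1 b h, h2 b h, fun k => absurd (S.dimLT_atom.1 k) h.not_lt⟩
    · exact Ok.of_low hF (S.dimLT_atom.2 (by omega))
  · obtain ⟨b, -, rfl⟩ := St.good_zero g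
    exact ⟨_, b, Nat.le_of_lt_succ (S.dimLT_atom.1 hu), rfl, rfl⟩
  · rintro _ _ _ ⟨b, -, rfl, rfl⟩ ⟨b', -, e, rfl⟩
    obtain rfl : b = b' := Multiset.singleton_inj.1
      ((S.good_atom b (Nat.zero_le _)).unique (e ▸ S.good_atom b' (Nat.zero_le _)))
    rfl

variable [LinearOrder K.B]

/-- Normal forms: ordered composites of whiskered atoms. -/
inductive NF (S : St K) (F : K.nu.C → X.C) (q : ℕ) (U : K.nu.C → X.C → Prop) :
    Multiset K.B → K.nu.C → X.C → Prop
  | nil {u : K.nu.C} : K.nu.DimLT (q + 1) u → NF S F q U 0 u (F u)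
  | cons {b : K.B} {T : Multiset K.B} {u : K.nu.C} {x : X.C} {v : K.nu.C} {y : X.C} :
      U u x → S.Good (q + 1) u {b} → (∀ b' ∈ T, b ≤ b') → NF S F q U T v y →
      K.nu.d true q u = K.nu.d false q v → NF S F q U (b ::ₘ T) (K.nu.comp q u v) (X.comp q x y)

theorem NF.good (h : NF S F q U T u x) : S.Good (q + 1) u T := by
  induction h with
  | nil h => exact St.good_nil_iff.2 h
  | cons _ g _ _ e ih => exact g.comp ih q.lt_succ_self e

section

variable (hF : PFun n F) (L : Lev S n F ξ q U) (l : q < n)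
include hF L l

theorem NF.ok (h : NF S F q U T u x) : Ok n F u x := by
  induction h with
  | nil h => exact Ok.of_low hF (h.mono l)
  | cons h _ _ _ e ih => exact (L.ok h).comp hF ih l e

theorem NF.inj (h : NF S F q U T u x) :
    ∀ {T' u' x'}, NF S F q U T' u' x' → u = u' → x = x' := by
  induction h with
  | nil h => exact fun k e => e ▸ ((k.ok hF L l).low (e ▸ h.mono l)).symm
  | @cons b T u x v y h g m k e ih =>
    intro T' u' x' k' e'
    have k0 := NF.cons h g m k e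
    cases k' with
    | nil k' => exact e' ▸ (k0.ok hF L l).low (e' ▸ k'.mono l)
    | @cons b' T' u' x' v' y' h' g' m' k' e'' =>
      have c : b ::ₘ T = b' ::ₘ T' := k0.good.unique (e' ▸ (NF.cons h' g' m' k' e'').good)
      obtain rfl : b = b' := le_antisymm
        ((Multiset.mem_cons.1 (c ▸ Multiset.mem_cons_self b' T')).elim Eq.ge (m _))
        ((Multiset.mem_cons.1 (c ▸ Multiset.mem_cons_self b T)).elim Eq.ge (m' _))
      obtain rfl : T = T' := (Multiset.cons_inj_right _).1 c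
      obtain rfl : u = u' := g.ext g' ((K.nu.src_comp e).symm.trans (e' ▸ K.nu.src_comp e''))
      rw [L.inj h h', ih k' (k.good.ext k'.good (e.symm.trans e''))]

omit hF l in
theorem NF.surj (o : S.Ord) (g : S.Good (q + 1) u T) (hu : K.nu.DimLT (n + 1) u) :
    ∃ x, NF S F q U T u x := by
  induction hT : T.card generalizing T u with
  | zero => exact ⟨_, Multiset.card_eq_zero.1 hT ▸
      NF.nil (St.good_nil_iff.1 (Multiset.card_eq_zero.1 hT ▸ g))⟩
  | succ r ih =>
    obtain ⟨b, hb, m⟩ := T.toFinset.exists_min_image id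
      (Multiset.toFinset_nonempty.2 fun k => by simp [k] at hT)
    obtain ⟨T, rfl⟩ := Multiset.exists_cons_of_mem (Multiset.mem_toFinset.1 hb)
    have m : ∀ b' ∈ T, b ≤ b' := fun b' k =>
      m b' (Multiset.mem_toFinset.2 (Multiset.mem_cons_of_mem k))
    obtain ⟨v, w, e, rfl, g1, g2⟩ := St.split_le (T := {b}) o g fun c hc => by
      rwa [Multiset.mem_singleton.1 hc]
    obtain ⟨x, hx⟩ := L.surj' g1 (by simp) (dimLT_of_comp e hu).1
    obtain ⟨y, hy⟩ := ih g2 (dimLT_of_comp e hu).2 (by simpa using hT)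
    exact ⟨_, NF.cons hx g1 m hy e⟩

omit hF in
theorem NF.single {b : K.B} (h : U u x) (g : S.Good (q + 1) u {b}) : NF S F q U {b} u x := by
  have := NF.cons (F := F) (T := 0) h g (by simp) (NF.nil (dimLT_d true u q.lt_succ_self))
    (K.nu.d_ge _ le_rfl).symm
  rwa [K.nu.comp_id, ← (L.ok h).bd _ _ l, X.comp_id] at this

theorem NF.whisker_r (h : NF S F q U T u x) (k : p < q) (hw : K.nu.DimLT (q + 1) w)
    (e : K.nu.d true p u = K.nu.d false p w) :
    NF S F q U T (K.nu.comp p u w) (X.comp p x (F w)) := by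
  have o := Ok.of_low hF (hw.mono l)
  induction h with
  | nil h => exact hF.map_comp _ _ _ (h.mono l) (hw.mono l) e ▸ NF.nil (h.comp e hw)
  | @cons b T u x v y h g m j c ih =>
    have e1 : K.nu.d true p u = K.nu.d false p w := by rwa [d_comp_lt c k] at e
    have e2 : K.nu.d true p v = K.nu.d false p w := by rwa [← d_lt_eq c k]
    rw [OmegaCat.whisker_r k c e1 (dimLT_succ.1 hw), OmegaCat.whisker_r k
      ((L.ok h).cmp (j.ok hF L l) l c) ((L.ok h).cmp o (k.trans l) e1)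
      (by rw [o.bd _ _ l, dimLT_succ.1 hw])]
    refine NF.cons (L.clos k h (L.low hw (hw.mono l)) e1) ?_ m (ih e2) ?_
    · exact g.comp (St.good_nil_iff.2 hw) (k.trans q.lt_succ_self) e1
    · rw [K.nu.d_comp e1 k.ne', K.nu.d_comp e2 k.ne', c, dimLT_succ.1 hw,
        d_of_d (dimLT_succ.1 hw) le_rfl]

theorem NF.whisker_l (h : NF S F q U T u x) (k : p < q) (hw : K.nu.DimLT (q + 1) w)
    (e : K.nu.d true p w = K.nu.d false p u) :
    NF S F q U T (K.nu.comp p w u) (X.comp p (F w) x) := by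
  have o := Ok.of_low hF (hw.mono l)
  induction h with
  | nil h => exact hF.map_comp _ _ _ (hw.mono l) (h.mono l) e ▸ NF.nil (hw.comp e h)
  | @cons b T u x v y h g m j c ih =>
    have e1 : K.nu.d true p w = K.nu.d false p u := by rwa [d_comp_lt c k] at e
    have e2 : K.nu.d true p w = K.nu.d false p v := by rwa [← d_lt_eq c k]
    rw [OmegaCat.whisker_l k c e1 (dimLT_succ.1 hw), OmegaCat.whisker_l k
      ((L.ok h).cmp (j.ok hF L l) l c) (o.cmp (L.ok h) (k.trans l) e1)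
      (by rw [o.bd _ _ l, dimLT_succ.1 hw])]
    refine NF.cons (L.clos k (L.low hw (hw.mono l)) h e1) ?_ m (ih e2) ?_
    · exact (St.good_nil_iff.2 hw).comp g (k.trans q.lt_succ_self) e1
    · rw [K.nu.d_comp e1 k.ne', K.nu.d_comp e2 k.ne', c, dimLT_succ.1 hw,
        d_of_d (dimLT_succ.1 hw) le_rfl]

omit [LinearOrder K.B] hF l in
theorem Lev.split (h : U (K.nu.comp p u v) x) (k : p < q) (e : K.nu.d true p u = K.nu.d false p v)
    (g : S.Good q u T) (g' : S.Good q v T') : ∃ y z, U u y ∧ U v z ∧ x = X.comp p y z := by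
  obtain ⟨k1, k2⟩ := dimLT_of_comp e (L.ok h).dim
  obtain ⟨y, hy⟩ := L.surj g k1
  obtain ⟨z, hz⟩ := L.surj g' k2
  exact ⟨y, z, hy, hz, L.inj h (L.clos k hy hz e)⟩

omit hF in
theorem Lev.swap (o : S.Ord) {b b' : K.B} (h0 : U u x) (h0' : U v y) (g : S.Good (q + 1) u {b})
    (g' : S.Good (q + 1) v {b'}) (k : b' < b) (e : K.nu.d true q u = K.nu.d false q v) :
    ∃ u' x' v' y', U u' x' ∧ U v' y' ∧ S.Good (q + 1) u' {b'} ∧ S.Good (q + 1) v' {b} ∧
      K.nu.d true q u' = K.nu.d false q v' ∧ K.nu.comp q u v = K.nu.comp q u' v' ∧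
      X.comp q x y = X.comp q x' y' := by
  obtain ⟨p, u, v, T, T', rfl, c, rfl, rfl, g1, g2, g3, g4⟩ := St.swap_cells o g g' k e
  have j := p.lt_succ_self
  have c : K.nu.d true p v = K.nu.d false p u := c
  have f : ∀ a w, K.nu.DimLT (p + 2) (K.nu.d a (p + 1) w) := fun a w => dimLT_d a w (by omega)
  have f' : ∀ a w, U (K.nu.d a (p + 1) w) (F (K.nu.d a (p + 1) w)) := fun a w =>
    L.low (f a w) (dimLT_d a w l)
  have f2 : ∀ a w, ∃ T, S.Good (p + 1) (K.nu.d a (p + 1) w) T := fun a w =>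
    let ⟨_, _, g⟩ := St.sing (St.good_nil_iff.2 (f a w)) (by simp); ⟨_, g⟩
  obtain ⟨T1, g5⟩ := f2 false v
  obtain ⟨T2, g6⟩ := f2 true u
  obtain ⟨x1, x, h1, h, rfl⟩ := L.split h0 j ((K.nu.d_lt _ j).trans c) g5 g1
  obtain ⟨y, y1, h', h2, rfl⟩ := L.split h0' j (c.trans (K.nu.d_lt _ j).symm) g2 g6
  obtain rfl := L.inj h1 (f' _ _)
  obtain rfl := L.inj h2 (f' _ _)
  have c' := (L.ok h').cmp (L.ok h) (j.trans l) c
  refine ⟨_, _, _, _, L.clos j h' (f' false u) (c.trans (K.nu.d_lt _ j).symm),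
    L.clos j (f' true v) h ((K.nu.d_lt _ j).trans c),
    g4.comp (St.good_nil_iff.2 (f _ _)) (by omega) (c.trans (K.nu.d_lt _ j).symm),
    (St.good_nil_iff.2 (f _ _)).comp g3 (by omega) ((K.nu.d_lt _ j).trans c), cmp_hi j c,
    (comp_eq_hi' j c).symm.trans (comp_eq_hi j c), ?_⟩
  simp only [← (L.ok h).bd _ _ l, ← (L.ok h').bd _ _ l]
  exact (comp_eq_hi' j c').symm.trans (comp_eq_hi j c')

theorem NF.insert (o : S.Ord) (k : NF S F q U T v y) : ∀ {b u x}, U u x → S.Good (q + 1) u {b} →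
    K.nu.d true q u = K.nu.d false q v →
    NF S F q U (b ::ₘ T) (K.nu.comp q u v) (X.comp q x y) := by
  induction k with
  | nil k => exact fun h g e => NF.cons h g (by simp) (NF.nil k) e
  | @cons b' T v y w z h' g' m k c ih =>
    intro b u x h g e
    rcases le_or_gt b b' with j | j
    · exact NF.cons h g (fun a ha => (Multiset.mem_cons.1 ha).elim (fun i => i ▸ j)
        fun i => j.trans (m a i)) (NF.cons h' g' m k c) e
    · have e1 : K.nu.d true q u = K.nu.d false q v := e.trans (K.nu.src_comp c)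
      obtain ⟨u', x', v', y', h1, h2, g1, g2, e2, e3, e4⟩ := L.swap l o h h' g g' j e1
      have e5 : K.nu.d true q v' = K.nu.d false q w := by
        rw [← K.nu.tgt_comp e2, ← e3, K.nu.tgt_comp e1, c]
      have i := k.ok hF L l
      rw [← K.nu.assoc e1 c, e3, K.nu.assoc e2 e5, ← X.assoc ((L.ok h).cmp (L.ok h') l e1)
        ((L.ok h').cmp i l c), e4, X.assoc ((L.ok h1).cmp (L.ok h2) l e2) ((L.ok h2).cmp i l e5),
        Multiset.cons_swap]
      exact NF.cons h1 g1 (fun a ha => (Multiset.mem_cons.1 ha).elim (fun i => i ▸ j.le) (m a))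
        (ih h2 g2 e5) (e2.trans (K.nu.src_comp e5).symm)

theorem NF.comp (o : S.Ord) (h : NF S F q U T u x) (k : NF S F q U T' v y)
    (e : K.nu.d true q u = K.nu.d false q v) :
    NF S F q U (T + T') (K.nu.comp q u v) (X.comp q x y) := by
  induction h with
  | @nil u h =>
    rw [d_of_d (dimLT_succ.1 h) le_rfl] at e
    rwa [e, ← (k.ok hF L l).bd _ _ l, K.nu.id_comp, X.id_comp, zero_add]
  | @cons b T u x w z h g m j c ih =>
    have e1 : K.nu.d true q w = K.nu.d false q v := (K.nu.tgt_comp c).symm.trans e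
    rw [K.nu.assoc c e1, X.assoc ((L.ok h).cmp (j.ok hF L l) l c)
      ((j.ok hF L l).cmp (k.ok hF L l) l e1), Multiset.cons_add]
    exact (ih e1).insert hF L l o h g (c.trans (K.nu.src_comp e1).symm)

theorem Lev.succ (o : S.Ord) : Lev S n F ξ (q + 1) fun u x => ∃ T, NF S F q U T u x where
  ok := fun ⟨_, h⟩ => h.ok hF L l
  surj g hu := let ⟨x, h⟩ := NF.surj L o g hu; ⟨x, _, h⟩
  inj := fun ⟨_, h⟩ ⟨_, h'⟩ => h.inj hF L l h' rfl
  atom b hb := ⟨_, NF.single L l (L.atom b hb) (S.good_atom b (by omega))⟩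
  clos := fun {p u x v y} k ⟨T, h⟩ ⟨T', h'⟩ e => by
    rcases (Nat.le_of_lt_succ k).eq_or_lt with rfl | k
    · exact ⟨_, h.comp hF L l o h' e⟩
    · rw [comp_eq_hi k e, comp_eq_hi k ((h.ok hF L l).cmp (h'.ok hF L l) (k.trans l) e),
        (h.ok hF L l).bd _ _ l, (h'.ok hF L l).bd _ _ l]
      exact ⟨_, (h.whisker_r hF L l k (dimLT_d _ _ q.lt_succ_self)
        (e.trans (K.nu.d_lt _ k).symm)).comp hF L l o (h'.whisker_l hF L l k
          (dimLT_d _ _ q.lt_succ_self) ((K.nu.d_lt _ k).trans e)) (cmp_hi k e)⟩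

end

end ADC

end Vale.Agent.P213
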