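import Vale.Agent.P213.GLemA

/-! The nerve sends pushouts along Dwyer inclusions to homotopy pushouts. -/

open CategoryTheory Limits Opposite Simplicial MonoidalCategory SSet

set_option backward.isDefEq.respectTransparency false

noncomputable section

namespace Vale.Agent.P213

variable {n : ℕ∞}

instance gl_isIso {B : Type} [PartialOrder B] : IsIso (nsub (Set.univ : Set B)).ι := by
  have : nsub (Set.univ : Set B) = ⊤ := top_le_iff.1 fun _ _ _ _ => Set.mem_univ _
  rw [this]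
  exact (Subcomplex.topIso _).isIso_hom

theorem gl_po (hn : 1 ≤ n) {c : SSet.{0} ⥤ NCat n} (adj : c ⊣ streetNerve n) {S S' : SSet.{0}}
    {k : S ⟶ S'} {B : Type} [PartialOrder B] {A : Set B} (hA : IsLowerSet A)
    (eL : S ≅ (nsub A : SSet.{0})) (eR : S' ≅ nerve B) (w : eL.hom ≫ (nsub A).ι = k ≫ eR.hom)
    {X P : NCat n} {f : c.obj S ⟶ X} {j : X ⟶ P} {g : c.obj S' ⟶ P}
    (h : IsPushout f (c.map k) j g) {f' : Fam A X.obj} {g' : Fam Set.univ P.obj}
    (hf : f'.toS = eL.inv ≫ adj.homEquiv _ _ f)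
    (hg : g'.toS = (nsub Set.univ).ι ≫ eR.inv ≫ adj.homEquiv _ _ g) :
    IsPO n (Set.subset_univ A) f' j.hom g' := by
  have hu : Subcomplex.homOfLE (nsub_mono (Set.subset_univ A)) ≫ (nsub Set.univ).ι =
    (nsub A).ι := rfl
  have w' : (nsub A).ι ≫ eR.inv = eL.inv ≫ k := by
    rw [Iso.eq_inv_comp, ← Category.assoc, w, Category.assoc, Iso.hom_inv_id, Category.comp_id]
  refine ⟨hn, hA, X.property, P.property, ?_, fun {Y} hY u v huv => ?_,
    fun {Y} hY F G h1 h2 => ?_⟩
  · apply (Fam.toS_bijective A P).1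
    rw [Fam.toS_post, Fam.toS_res, hf, hg, ← Category.assoc (Subcomplex.homOfLE _), hu,
      ← Category.assoc (nsub A).ι, w', Category.assoc, Category.assoc,
      ← adj.homEquiv_naturality_right, h.w, adj.homEquiv_naturality_left]
  · let Y' : NCat n := ⟨Y, hY⟩
    let u' : X ⟶ Y' := ObjectProperty.homMk u
    let v' : Fam Set.univ Y'.obj := v
    have h0 : f'.toS ≫ (streetNerve n).map u' =
        Subcomplex.homOfLE (nsub_mono (Set.subset_univ A)) ≫ v'.toS :=
      congrArg (Fam.toS (Y := Y')) huv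
    have w2 : f ≫ u' =
        c.map k ≫ (adj.homEquiv _ _).symm (eR.hom ≫ inv (nsub Set.univ).ι ≫ v'.toS) := by
      apply (adj.homEquiv _ _).injective
      rw [adj.homEquiv_naturality_right, adj.homEquiv_naturality_left, Equiv.apply_symm_apply,
        ← Category.assoc k, ← w, ← hu, Category.assoc, Category.assoc, IsIso.hom_inv_id_assoc,
        ← h0, hf, Category.assoc, Iso.hom_inv_id_assoc]
    refine ⟨(h.desc _ _ w2).hom, congrArg (fun φ : X ⟶ Y' => φ.hom) (h.inl_desc _ _ w2), ?_⟩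
    apply (Fam.toS_bijective Set.univ Y').1
    rw [Fam.toS_post, hg, Category.assoc, Category.assoc, ← adj.homEquiv_naturality_right,
      h.inr_desc, Equiv.apply_symm_apply, Iso.inv_hom_id_assoc, IsIso.hom_inv_id_assoc]
  · let Y' : NCat n := ⟨Y, hY⟩
    let F' : P ⟶ Y' := ObjectProperty.homMk F
    let G' : P ⟶ Y' := ObjectProperty.homMk G
    have h0 : g'.toS ≫ (streetNerve n).map F' = g'.toS ≫ (streetNerve n).map G' :=
      congrArg (Fam.toS (Y := Y')) h2
    have : F' = G' := by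
      refine h.hom_ext (ObjectProperty.hom_ext _ h1) ?_
      apply (adj.homEquiv _ _).injective
      rw [hg, Category.assoc, Category.assoc, Category.assoc, Category.assoc, cancel_epi,
        cancel_epi] at h0
      rw [adj.homEquiv_naturality_right, adj.homEquiv_naturality_right, h0]
    exact congrArg (fun φ : P ⟶ Y' => φ.hom) this

theorem glem (hn : 1 ≤ n) {c : SSet.{0} ⥤ NCat n} (adj : c ⊣ streetNerve n) {K K' : SSet.{0}}
    (i : K ⟶ K') [Mono i] {Q : Type} [PartialOrder Q] (e : K' ≅ nerve Q) {X P : NCat n}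
    {f : c.obj (sd.obj (sd.obj K)) ⟶ X} {j : X ⟶ P} {g : c.obj (sd.obj (sd.obj K')) ⟶ P}
    (h : IsPushout f (c.map (sd.map (sd.map i))) j g) :
    SI n j ∧ ∀ (T : SSet.{0}) (a : (streetNerve n).obj X ⟶ T) (b : sd.obj (sd.obj K') ⟶ T),
      IsPushout (adj.homEquiv _ _ f) (sd.map (sd.map i)) a b →
      ∀ t : T ⟶ (streetNerve n).obj P, a ≫ t = (streetNerve n).map j →
        b ≫ t = adj.homEquiv _ _ g → WHE t := by
  obtain ⟨B, _, A, hA, ⟨ε⟩⟩ := exists_dwyer i e
  let eL : sd.obj (sd.obj K) ≅ (nsub A : SSet.{0}) := Arrow.leftFunc.mapIso ε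
  let eR : sd.obj (sd.obj K') ≅ nerve B := Arrow.rightFunc.mapIso ε
  have w : eL.hom ≫ (nsub A).ι = sd.map (sd.map i) ≫ eR.hom := Arrow.w ε.hom
  obtain ⟨f', hf⟩ := (Fam.toS_bijective A X).2 (eL.inv ≫ adj.homEquiv _ _ f)
  obtain ⟨g', hg⟩ := (Fam.toS_bijective Set.univ P).2
    ((nsub Set.univ).ι ≫ eR.inv ≫ adj.homEquiv _ _ g)
  have po := gl_po hn adj hA.lower eL eR w h hf hg
  refine ⟨po.sieveIncl, fun T a b hT t ha hb => ?_⟩
  refine po.whe hA (a := a) (b := eR.inv ≫ b) ?_ t ha (by rw [hg, Category.assoc, hb])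
  refine hT.of_iso eL (Iso.refl _) eR (Iso.refl _) ?_ w.symm (by simp) (by simp)
  rw [hf, Iso.hom_inv_id_assoc]
  exact Category.comp_id _

end Vale.Agent.P213
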