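import Vale.Agent.P213.KGlue

/-! Subcomplexes of pushouts and the induction on the rank. -/

open CategoryTheory Limits Opposite Simplicial MonoidalCategory SSet

set_option backward.isDefEq.respectTransparency false

noncomputable section

namespace Vale.Agent.P213

section

variable {X Y T : SSet.{0}} {A E E' : Y.Subcomplex} {f : (A : SSet.{0}) ⟶ X} {a : X ⟶ T} {b : Y ⟶ T}

theorem po_cases {S : SSet.{0}} {f : S ⟶ X} {i : S ⟶ Y} (h : IsPushout f i a b)
    {m : SimplexCategoryᵒᵖ} (x : T.obj m) : (∃ z, a.app m z = x) ∨ ∃ z, b.app m z = x :=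
  Types.eq_or_eq_of_isPushout (h.map ((evaluation _ _).obj m)) x

/-- The part of a pushout that comes from a subcomplex. -/
def poSub (a : X ⟶ T) (b : Y ⟶ T) (E : Y.Subcomplex) : T.Subcomplex :=
  Subcomplex.range a ⊔ E.image b

theorem mem_poSub {m : SimplexCategoryᵒᵖ} {x : T.obj m} :
    x ∈ (poSub a b E).obj m ↔ (∃ z, a.app m z = x) ∨ ∃ z ∈ E.obj m, b.app m z = x := Iff.rfl

theorem poSub_mono (h : E ≤ E') : poSub a b E ≤ poSub a b E' :=
  sup_le_sup_left (Subcomplex.image_monotone b h) _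

theorem poSub_isPushout (h : IsPushout f A.ι a b) (l : A ≤ E) :
    IsPushout f (Subcomplex.homOfLE l) (Subcomplex.lift a (B := poSub a b E) le_sup_left)
      (Subcomplex.lift (E.ι ≫ b) (B := poSub a b E)
        ((Subcomplex.image_eq_range _ _).ge.trans le_sup_right)) := by
  have p := IsPushout.of_hasPushout f (Subcomplex.homOfLE l)
  have q := IsPushout.of_top' (v₂₁ := E.ι) h p
  have := kg_mono q
  generalize hk : p.desc a (E.ι ≫ b) _ = k at q this
  have k1 : pushout.inl _ _ ≫ k = a := hk ▸ p.inl_desc _ _ _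
  have k2 : pushout.inr _ _ ≫ k = E.ι ≫ b := hk ▸ p.inr_desc _ _ _
  have e : Subcomplex.range k = poSub a b E := by
    ext m x
    refine ⟨fun ⟨z, e⟩ => ?_, ?_⟩
    · rcases po_cases p z with ⟨z, rfl⟩ | ⟨z, rfl⟩
      · exact Or.inl ⟨z, (congrArg (fun F => F.app m z) k1).symm.trans e⟩
      · exact Or.inr ⟨z.1, z.2, (congrArg (fun F => F.app m z) k2).symm.trans e⟩
    · rintro (⟨z, rfl⟩ | ⟨z, hz, rfl⟩)
      · exact ⟨_, congrArg (fun F => F.app m z) k1⟩
      · exact ⟨_, congrArg (fun F => F.app m ⟨z, hz⟩) k2⟩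
  refine p.of_iso (Iso.refl _) (Iso.refl _) (Iso.refl _)
    (asIso (Subcomplex.toRange k) ≪≫ Subcomplex.eqToIso e) (by simp) (by simp) ?_ ?_
  · rw [← cancel_mono (Subcomplex.ι _)]
    exact k1
  · rw [← cancel_mono (Subcomplex.ι _)]
    exact k2

theorem whe_poSub (h : IsPushout f A.ι a b) (l : A ≤ E) (l' : E ≤ E')
    (w : WHE (Subcomplex.homOfLE l')) : WHE (Subcomplex.homOfLE (poSub_mono (a := a) (b := b) l')) :=
  (MorphismProperty.of_isPushout (P := TC) (IsPushout.of_top (v₂₁ := Subcomplex.homOfLE l')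
    (v₂₂ := Subcomplex.homOfLE (poSub_mono l')) (poSub_isPushout h (l.trans l')) rfl
    (poSub_isPushout h l)) ⟨MorphismProperty.monomorphisms.infer_property _, w⟩).2

theorem WR.of_bij {V : SSet.{0}} {t : T ⟶ V} {C : T.Subcomplex} {D : V.Subcomplex}
    (h : C ≤ D.preimage t)
    (h1 : ∀ m, ∀ x ∈ C.obj m, ∀ y ∈ C.obj m, t.app m x = t.app m y → x = y)
    (h2 : ∀ m, ∀ y ∈ D.obj m, ∃ x ∈ C.obj m, t.app m x = y) : WR t C D := by
  let r : (C : SSet.{0}) ⟶ D := Subcomplex.lift (C.ι ≫ t) (by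
    rintro m _ ⟨x, rfl⟩
    exact h _ x.2)
  have : IsIso r := by
    rw [NatTrans.isIso_iff_isIso_app]
    exact fun m => (isIso_iff_bijective _).2 ⟨fun x y e => Subtype.ext
      (h1 m _ x.2 _ y.2 (congrArg Subtype.val e)), fun y =>
        let ⟨x, hx, e⟩ := h2 m _ y.2; ⟨⟨x, hx⟩, Subtype.ext e⟩⟩
  exact ⟨r, rfl, WHE.of_isIso _⟩

end

variable {B : Type} [PartialOrder B] {A : Set B}

theorem mem_nsub_iff {E : Set B} (hE : IsLowerSet E) {m : SimplexCategoryᵒᵖ}
    (σ : (nerve B).obj m) : σ ∈ (nsub E).obj m ↔ σ.obj (Fin.last _) ∈ E :=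
  ⟨fun h => h _, fun h i => hE (leOfHom (σ.map (homOfLE (Fin.le_last i)))) h⟩

theorem whe_nsub_union {E : Set B} (hE : IsLowerSet E) {y r : B}
    (hr : IsGreatest (E ∩ Set.Iic y) r) :
    WHE (Subcomplex.homOfLE (nsub_mono (Set.subset_union_left : E ⊆ E ∪ Set.Iic y))) := by
  have sq : Subcomplex.BicartSq (nsub (E ∩ Set.Iic y)) (nsub E) (nsub (Set.Iic y))
      (nsub (E ∪ Set.Iic y)) := by
    constructor <;> ext m σ
    · rw [mem_nsub_iff (hE.union (isLowerSet_Iic y))]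
      exact or_congr (mem_nsub_iff hE σ) (mem_nsub_iff (isLowerSet_Iic y) σ)
    · exact forall_and.symm
  refine (MorphismProperty.of_isPushout (P := TC) sq.isPushout
    ⟨MorphismProperty.monomorphisms.infer_property _, WHE.of_postcomp _ (terminal.from _)
      (whe_nsub_of_isGreatest isGreatest_Iic) ?_⟩).2
  rw [terminal.comp_from]
  exact whe_nsub_of_isGreatest hr

/-- Membership in `Φ E` is decided by one vertex. -/
def Loc (A : Set B) {T : SSet.{0}} (Φ : Set B → T.Subcomplex) : Prop :=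
  ∀ m (x : T.obj m), (∀ E, A ⊆ E → IsLowerSet E → x ∈ (Φ E).obj m) ∨
    ∃ b, ∀ E, A ⊆ E → IsLowerSet E → (x ∈ (Φ E).obj m ↔ b ∈ E)

variable {T V : SSet.{0}} {Φ : Set B → T.Subcomplex}

theorem Loc.inf (h : Loc A Φ) {E E' : Set B} (h1 : A ⊆ E) (h2 : IsLowerSet E) (h3 : A ⊆ E')
    (h4 : IsLowerSet E') : Φ E ⊓ Φ E' = Φ (E ∩ E') := by
  ext m x
  rcases h m x with k | ⟨b, k⟩
  · exact iff_of_true ⟨k _ h1 h2, k _ h3 h4⟩ (k _ (Set.subset_inter h1 h3) (h2.inter h4))
  · exact (and_congr (k _ h1 h2) (k _ h3 h4)).trans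
      (k _ (Set.subset_inter h1 h3) (h2.inter h4)).symm

theorem Loc.mono (h : Loc A Φ) {E E' : Set B} (h1 : A ⊆ E) (h2 : IsLowerSet E)
    (h4 : IsLowerSet E') (l : E ⊆ E') : Φ E ≤ Φ E' := by
  rw [← inf_eq_left, h.inf h1 h2 (h1.trans l) h4, Set.inter_eq_left.2 l]

theorem Loc.sup (h : Loc A Φ) {ι : Type} {E : Set B} {F : ι → Set B} (h1 : A ⊆ E)
    (h2 : IsLowerSet E) (h3 : ∀ i, A ⊆ F i) (h4 : ∀ i, IsLowerSet (F i)) :
    Φ E ⊔ ⨆ i, Φ (F i) = Φ (E ∪ ⋃ i, F i) := by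
  have h5 := h1.trans (Set.subset_union_left (t := ⋃ i, F i))
  have h6 := h2.union (isLowerSet_iUnion h4)
  refine le_antisymm (sup_le (h.mono h1 h2 h6 Set.subset_union_left) (iSup_le fun i =>
    h.mono (h3 i) (h4 i) h6 ((Set.subset_iUnion F i).trans Set.subset_union_right))) fun m x hx => ?_
  rcases h m x with k | ⟨b, k⟩
  · exact Or.inl (k _ h1 h2)
  · rcases (k _ h5 h6).1 hx with l | l
    · exact Or.inl ((k _ h1 h2).2 l)
    · obtain ⟨i, l⟩ := Set.mem_iUnion.1 l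
      exact Or.inr ((le_iSup (fun i => Φ (F i)) i) _ ((k _ (h3 i) (h4 i)).2 l))

theorem Loc.top (h : Loc A Φ) : Φ Set.univ = ⊤ :=
  top_le_iff.1 fun m x _ => (h m x).elim (fun k => k _ (Set.subset_univ _) isLowerSet_univ)
    fun ⟨_, k⟩ => (k _ (Set.subset_univ _) isLowerSet_univ).2 trivial

theorem rank_ind (hA : IsLowerSet A) {rk : B → ℕ} (hr : StrictMono rk) {t : T ⟶ V}
    {Ψ : Set B → V.Subcomplex} (h : Loc A Φ) (h' : Loc A Ψ) (h0 : WR t (Φ A) (Ψ A))
    (h1 : ∀ y, WR t (Φ (A ∪ Set.Iic y)) (Ψ (A ∪ Set.Iic y))) : WHE t := by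
  have l1 : ∀ y, IsLowerSet (A ∪ Set.Iic y) := fun y => hA.union (isLowerSet_Iic y)
  have l2 : ∀ r, IsLowerSet (A ∪ {b | rk b < r}) := fun r =>
    hA.union fun _ _ l k => (hr.monotone l).trans_lt k
  have key : ∀ r E, A ⊆ E → IsLowerSet E → E ⊆ A ∪ {b | rk b < r} → WR t (Φ E) (Ψ E) := by
    intro r
    induction r with
    | zero => exact fun E a _ k => a.antisymm (fun b i => (k i).resolve_right (Nat.not_lt_zero _)) ▸ h0
    | succ r ih =>
      intro E a1 a2 a3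
      have b1 : A ⊆ E ∩ (A ∪ {b | rk b < r}) := Set.subset_inter a1 Set.subset_union_left
      have b2 := a2.inter (l2 r)
      have e : E ∩ (A ∪ {b | rk b < r}) ∪
          ⋃ y : {y // y ∈ E ∧ y ∉ A ∪ {b | rk b < r}}, A ∪ Set.Iic y.1 = E := by
        refine (Set.union_subset Set.inter_subset_left (Set.iUnion_subset fun y =>
          Set.union_subset a1 fun b k => a2 k y.2.1)).antisymm fun b k => ?_
        by_cases i : b ∈ A ∪ {b | rk b < r}
        exacts [Or.inl ⟨k, i⟩, Or.inr (Set.mem_iUnion.2 ⟨⟨b, k, i⟩, Or.inr le_rfl⟩)]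
      have d : ∀ y y' : {y // y ∈ E ∧ y ∉ A ∪ {b | rk b < r}}, y ≠ y' →
          (A ∪ Set.Iic y.1) ∩ (A ∪ Set.Iic y'.1) ⊆ E ∩ (A ∪ {b | rk b < r}) := by
        rintro y y' k b ⟨i | i, i' | i'⟩
        iterate 3 exact b1 ‹_›
        have : ∀ y : {y // y ∈ E ∧ y ∉ A ∪ {b | rk b < r}}, b < y.1 → rk b < r := fun y l =>
          (hr l).trans_le (Nat.le_of_lt_succ ((a3 y.2.1).resolve_left fun j => y.2.2 (Or.inl j)))
        refine ⟨a2 i y.2.1, Or.inr ((Set.mem_Iic.1 i).eq_or_lt.elim (fun j => this y' (lt_of_le_of_ne i'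
          fun j' => k (Subtype.ext (j.symm.trans j')))) (this y))⟩
      have i1 : ∀ {Z : SSet.{0}} {Φ : Set B → Z.Subcomplex}, Loc A Φ →
          ∀ y y' : {y // y ∈ E ∧ y ∉ A ∪ {b | rk b < r}}, y ≠ y' →
          Φ (A ∪ Set.Iic y.1) ⊓ Φ (A ∪ Set.Iic y'.1) ≤ Φ (E ∩ (A ∪ {b | rk b < r})) :=
        fun h y y' k => (h.inf Set.subset_union_left (l1 _) Set.subset_union_left (l1 _)).trans_le
          (h.mono (Set.subset_inter Set.subset_union_left Set.subset_union_left)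
            ((l1 _).inter (l1 _)) b2 (d y y' k))
      have w := WR.wide (i1 h) (i1 h') (ih _ b1 b2 Set.inter_subset_right) (fun y => h1 y.1) fun y => by
        rw [h.inf Set.subset_union_left (l1 _) b1 b2, h'.inf Set.subset_union_left (l1 _) b1 b2]
        exact ih _ (Set.subset_inter Set.subset_union_left b1) ((l1 _).inter b2)
          (Set.inter_subset_right.trans Set.inter_subset_right)
      rwa [h.sup b1 b2 (fun _ => Set.subset_union_left) fun _ => l1 _,
        h'.sup b1 b2 (fun _ => Set.subset_union_left) fun _ => l1 _, e] at w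
  have i2 : ∀ {Z : SSet.{0}} {Φ : Set B → Z.Subcomplex}, Loc A Φ →
      Monotone (fun r => Φ (A ∪ {b | rk b < r})) ∧ ⨆ r, Φ (A ∪ {b | rk b < r}) = ⊤ := fun h => by
    refine ⟨fun r s l => h.mono Set.subset_union_left (l2 r) (l2 s)
      (Set.union_subset_union_right _ fun _ k => lt_of_lt_of_le k l), ?_⟩
    have := h.sup Set.subset_union_left (l2 0) (fun _ => Set.subset_union_left) l2
    rw [← sup_eq_right.2 (le_iSup _ 0), this, ← h.top]
    exact congrArg _ (Set.eq_univ_of_forall fun b =>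
      Or.inr (Set.mem_iUnion.2 ⟨rk b + 1, Or.inr (Nat.lt_succ_self _)⟩))
  have w := WR.seq (i2 h).1 (i2 h').1 fun r => key r _ Set.subset_union_left (l2 r) le_rfl
  rw [(i2 h).2, (i2 h').2] at w
  exact w.top

end Vale.Agent.P213
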