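import Vale.Agent.P213.KHtp

/-! The subdivision of nerves of posets; the last vertex map. -/

open CategoryTheory Limits Opposite Simplicial MonoidalCategory SSet

set_option backward.isDefEq.respectTransparency false

noncomputable section

namespace Vale.Agent.P213

/-- Nonempty finite chains. -/
abbrev Ch (P : Type) [PartialOrder P] : Type := PartialOrder.NonemptyFiniteChains P

/-- The vertices of the standard simplex. -/
abbrev Fm (m : ℕ) : Type := ULift.{0} (Fin (m + 1))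

variable {P Q : Type} [PartialOrder P] [PartialOrder Q]

/-- Image of chains. -/
abbrev chMap (φ : P →o Q) : Ch P →o Ch Q := PartialOrder.NonemptyFiniteChains.orderHomMap φ

theorem nerve_ext {n : SimplexCategoryᵒᵖ} {x y : (nerve P).obj n}
    (h : ∀ i, x.obj i = y.obj i) : x = y :=
  nerve.ext_of_isThin (funext h)

theorem nmap_app_obj (φ : P →o Q) {n : SimplexCategoryᵒᵖ} (x : (nerve P).obj n)
    (i : Fin (n.unop.len + 1)) : ((nmap φ).app n x).obj i = φ (x.obj i) := rfl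

theorem nmap_comp {R : Type} [PartialOrder R] (φ : P →o Q) (ψ : Q →o R) :
    nmap φ ≫ nmap ψ = nmap (ψ.comp φ) := rfl

theorem nmap_id : nmap (OrderHom.id : P →o P) = 𝟙 _ := rfl

theorem chMap_comp {R : Type} [PartialOrder R] (φ : P →o Q) (ψ : Q →o R) :
    chMap (ψ.comp φ) = (chMap ψ).comp (chMap φ) := by
  ext c x
  simp

theorem chMap_id : chMap (OrderHom.id : P →o P) = OrderHom.id := by
  ext c x
  simp

theorem chMap_injective {φ : P →o Q} (h : Function.Injective φ) :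
    Function.Injective (chMap φ) := fun c c' e => by
  ext x
  have := fun y => (PartialOrder.NonemptyFiniteChains.mem_map_iff c φ y).symm.trans
    ((Iff.of_eq (congrArg (fun d : Ch Q => y ∈ d.finset) e)).trans
      (PartialOrder.NonemptyFiniteChains.mem_map_iff c' φ y))
  simpa [h.eq_iff] using this (φ x)

/-- Enumeration of a chain. -/
theorem exists_enum (c : Ch P) :
    ∃ (k : ℕ) (σ : Fin (k + 1) →o P), ∀ x, x ∈ c.finset ↔ ∃ i, σ i = x := by
  obtain ⟨k, hk⟩ := Nat.exists_eq_succ_of_ne_zero c.nonempty.card_pos.ne'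
  let e := Finset.orderEmbOfFin (α := LinearExtension P) c.finset hk
  have he : ∀ i, e i ∈ c.finset := Finset.orderEmbOfFin_mem (α := LinearExtension P) c.finset hk
  refine ⟨k, ⟨fun i => e i, fun i j h => ?_⟩, fun x => ⟨fun hx => ?_, ?_⟩⟩
  · rcases c.comparable ⟨_, he i⟩ ⟨_, he j⟩ with k | k
    · exact k
    · exact @le_of_eq P _ _ _ (le_antisymm (α := LinearExtension P) (e.monotone h)
        ((toLinearExtension (α := P)).monotone k))
  · exact (Finset.range_orderEmbOfFin (α := LinearExtension P) c.finset hk).ge hx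
  · rintro ⟨i, rfl⟩
    exact he i

theorem exists_maxC (c : Ch P) : ∃ x, IsGreatest (c.finset : Set P) x := by
  obtain ⟨k, σ, h⟩ := exists_enum c
  refine ⟨σ (Fin.last k), (h _).2 ⟨_, rfl⟩, fun x hx => ?_⟩
  obtain ⟨i, rfl⟩ := (h x).1 hx
  exact σ.monotone (Fin.le_last i)

/-- The greatest element of a chain. -/
def maxC : Ch P →o P :=
  ⟨fun c => (exists_maxC c).choose, fun c c' h =>
    (exists_maxC c').choose_spec.2 (h (exists_maxC c).choose_spec.1)⟩

theorem maxC_spec (c : Ch P) : IsGreatest (c.finset : Set P) (maxC c) :=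
  (exists_maxC c).choose_spec

theorem maxC_chMap (φ : P →o Q) (c : Ch P) : maxC (chMap φ c) = φ (maxC c) := by
  refine (maxC_spec _).unique ⟨(c.mem_map_iff φ _).2 ⟨_, (maxC_spec c).1, rfl⟩, fun y hy => ?_⟩
  obtain ⟨x, hx, rfl⟩ := (c.mem_map_iff φ _).1 hy
  exact φ.monotone ((maxC_spec c).2 hx)

/-- A simplicial operator on vertices. -/
def fm {a b : ℕ} (θ : ⦋a⦌ ⟶ ⦋b⦌) : Fm a →o Fm b :=
  ⟨fun i => ⟨θ.toOrderHom i.down⟩, fun _ _ h => θ.toOrderHom.monotone h⟩

theorem sd_map_eq {a b : ℕ} (θ : ⦋a⦌ ⟶ ⦋b⦌) :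
    SimplexCategory.sd.{0}.map θ = nmap (chMap (fm θ)) := rfl

/-- A simplex of the nerve as a monotone map. -/
def simplexHom {m : ℕ} (σ : (nerve P) _⦋m⦌) : Fm m →o P :=
  ⟨fun i => σ.obj i.down, fun _ _ h => leOfHom (σ.map (homOfLE h))⟩

/-- The adjoint of the comparison map. -/
def gamAdj (P : Type) [PartialOrder P] : nerve P ⟶ ex.obj (nerve (Ch P)) where
  app m := ↾fun σ => ULift.up (nmap (chMap (simplexHom (m := m.unop.len) σ)))
  naturality m n f := by
    ext σ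
    exact congrArg (fun φ => ULift.up (nmap φ))
      (chMap_comp (fm (a := n.unop.len) (b := m.unop.len) f.unop) (simplexHom σ))

/-- The comparison map from the subdivision of a nerve to the nerve of the poset of chains. -/
def gam (P : Type) [PartialOrder P] : sd.obj (nerve P) ⟶ nerve (Ch P) :=
  (sdExAdjunction.homEquiv _ _).symm (gamAdj P)

theorem homEquiv_app_down {K Z : SSet.{0}} (u : sd.obj K ⟶ Z) {m : ℕ} (x : K _⦋m⦌) :
    ((sdExAdjunction.homEquiv _ _ u).app _ x).down =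
      stdSimplex.sdIso.inv.app ⦋m⦌ ≫ sd.map (yonedaEquiv.symm x) ≫ u :=
  congrArg ULift.down (Presheaf.uliftYonedaAdjunction_homEquiv_app.{0}
    (SSet.stdSimplex.{0}.leftKanExtension SimplexCategory.sd)
    (SSet.stdSimplex.{0}.leftKanExtensionUnit SimplexCategory.sd) u x)

/-- The subdivision of a simplex. -/
def sdS {K : SSet.{0}} {m : ℕ} (x : K _⦋m⦌) : nerve (Ch (Fm m)) ⟶ sd.obj K :=
  stdSimplex.sdIso.inv.app ⦋m⦌ ≫ sd.map (yonedaEquiv.symm x)

theorem sdS_adj {K Z : SSet.{0}} (v : K ⟶ ex.obj Z) {m : ℕ} (x : K _⦋m⦌) :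
    sdS x ≫ (sdExAdjunction.homEquiv _ _).symm v = (v.app _ x).down := by
  rw [sdS, Category.assoc, ← homEquiv_app_down, Equiv.apply_symm_apply]

theorem sd_hom_ext {K Z : SSet.{0}} {u v : sd.obj K ⟶ Z}
    (h : ∀ (m : ℕ) (x : K _⦋m⦌), sdS x ≫ u = sdS x ≫ v) : u = v := by
  apply (sdExAdjunction.homEquiv _ _).injective
  ext ⟨⟨m⟩⟩ x
  apply ULift.ext
  exact (homEquiv_app_down u x).trans ((h m x).trans (homEquiv_app_down v x).symm)

@[reassoc]
theorem sdS_gam {m : ℕ} (σ : (nerve P) _⦋m⦌) : sdS σ ≫ gam P = nmap (chMap (simplexHom σ)) :=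
  sdS_adj _ σ

@[reassoc]
theorem sdS_map {K K' : SSet.{0}} (f : K ⟶ K') {m : ℕ} (x : K _⦋m⦌) :
    sdS x ≫ sd.map f = sdS (f.app _ x) := by
  rw [sdS, sdS, Category.assoc, ← sd.map_comp, yonedaEquiv_symm_comp]

theorem sdS_face {K : SSet.{0}} {a b : ℕ} (θ : ⦋a⦌ ⟶ ⦋b⦌) (x : K _⦋b⦌) :
    sdS (K.map θ.op x) = nmap (chMap (fm θ)) ≫ sdS x := by
  rw [sdS, sdS, ← yonedaEquiv_symm_naturality_left, sd.map_comp, ← sd_map_eq,
    stdSimplex.sdIso.inv.naturality_assoc]
  rfl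

theorem sd_surj {K : SSet.{0}} {n : SimplexCategoryᵒᵖ} (z : (sd.obj K).obj n) :
    ∃ (m : ℕ) (x : K _⦋m⦌) (c : (nerve (Ch (Fm m))).obj n),
      x ∈ K.nonDegenerate m ∧ (sdS x).app n c = z := by
  let U : (sd.obj K).Subcomplex := ⨆ p : Σ m : ℕ, K _⦋m⦌, Subcomplex.range (sdS p.2)
  have : Epi U.ι := ⟨fun u v h => sd_hom_ext fun m x =>
    Subcomplex.lift (sdS x) (le_iSup (fun p : Σ m : ℕ, K _⦋m⦌ => Subcomplex.range (sdS p.2))
      ⟨m, x⟩) ≫= h⟩
  obtain ⟨⟨z, hz⟩, rfl⟩ := (Subcomplex.range_eq_top U.ι).ge n (Set.mem_univ z)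
  simp only [U, Subfunctor.iSup_obj, Set.mem_iUnion] at hz
  obtain ⟨⟨m, x⟩, c, rfl⟩ := hz
  obtain ⟨k, θ, _, y, rfl⟩ := K.exists_nonDegenerate x
  refine ⟨k, y, (nmap (chMap (fm θ))).app n c, y.2, ?_⟩
  simp only [sdS_face]
  rfl

theorem gam_nat (φ : P →o Q) : sd.map (nmap φ) ≫ gam Q = gam P ≫ nmap (chMap φ) := by
  refine sd_hom_ext fun m σ => ?_
  rw [sdS_map_assoc, sdS_gam, sdS_gam_assoc, nmap_comp, ← chMap_comp]
  rfl

theorem sdIso_gam (m : ℕ) :
    stdSimplex.sdIso.hom.app ⦋m⦌ = sd.map (stdSimplex.isoNerve m).hom ≫ gam (Fm m) := by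
  have h := sdS_gam (yonedaEquiv (stdSimplex.isoNerve.{0} m).hom)
  rw [sdS, Equiv.symm_apply_apply, Category.assoc] at h
  rw [← cancel_epi (stdSimplex.sdIso.inv.app ⦋m⦌), h, Iso.inv_hom_id_app]
  exact (congrArg nmap chMap_id).symm

/-- The chains lying in a simplex of a subcomplex. -/
def chs (S : (nerve P).Subcomplex) : Set (Ch P) :=
  {c | ∃ (m : ℕ) (σ : (nerve P) _⦋m⦌), σ ∈ S.obj _ ∧ ∀ x ∈ c.finset, ∃ i, σ.obj i = x}

theorem mem_chs_nsub (A : Set P) (c : Ch P) : c ∈ chs (nsub A) ↔ ∀ x ∈ c.finset, x ∈ A := by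
  constructor
  · rintro ⟨m, σ, h, k⟩ x hx
    obtain ⟨i, rfl⟩ := k x hx
    exact h i
  · intro h
    obtain ⟨k, σ, hσ⟩ := exists_enum c
    exact ⟨k, σ.monotone.functor, fun i => h _ ((hσ _).2 ⟨i, rfl⟩), fun x hx => (hσ x).1 hx⟩

/-- Chains of chains lift along a monotone map from a simplex. -/
theorem exists_lift_ch {k : ℕ} (φ : Fm k →o Q) {n : SimplexCategoryᵒᵖ} (d : (nerve (Ch Q)).obj n)
    (h : ∀ x ∈ (d.obj (Fin.last _)).finset, ∃ j, φ j = x) :
    ∃ c : (nerve (Ch (Fm k))).obj n, (nmap (chMap φ)).app n c = d := by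
  classical
  have h' : ∀ i, ∀ x ∈ (d.obj i).finset, ∃ j, φ j = x := fun i x hx =>
    h x (d.monotone (Fin.le_last i) hx)
  let c : Fin (n.unop.len + 1) →o Ch (Fm k) :=
    ⟨fun i => ⟨Finset.univ.filter fun j => φ j ∈ (d.obj i).finset, by
      obtain ⟨x, hx⟩ := (d.obj i).nonempty
      obtain ⟨j, rfl⟩ := h' i x hx
      exact ⟨j, Finset.mem_filter.2 ⟨Finset.mem_univ _, hx⟩⟩,
      fun a b => le_total a.1.down b.1.down⟩, fun i i' l j hj =>
        Finset.mem_filter.2 ⟨Finset.mem_univ _, d.monotone l (Finset.mem_filter.1 hj).2⟩⟩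
  refine ⟨c.monotone.functor, nerve_ext fun i => ?_⟩
  ext x
  refine ((c i).mem_map_iff φ x).trans ⟨?_, fun hx => ?_⟩
  · rintro ⟨j, hj, rfl⟩
    exact (Finset.mem_filter.1 hj).2
  · obtain ⟨j, rfl⟩ := h' i x hx
    exact ⟨j, Finset.mem_filter.2 ⟨Finset.mem_univ _, hx⟩, rfl⟩

theorem ks_mono (S : (nerve P).Subcomplex) : Mono (sd.map S.ι ≫ gam P) := by
  rw [NatTrans.mono_iff_mono_app]
  intro n
  rw [mono_iff_injective]
  intro z z' h
  obtain ⟨m, x, c, hx, rfl⟩ := sd_surj z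
  obtain ⟨m', x', c', -, rfl⟩ := sd_surj z'
  have e : ∀ {m : ℕ} (x : S.toSSet _⦋m⦌) c, (sd.map S.ι ≫ gam P).app n ((sdS x).app n c) =
      (nmap (chMap (simplexHom x.1))).app n c := fun x c => by
    rw [← NatTrans.comp_app_apply, sdS_map_assoc, sdS_gam]
    rfl
  rw [e, e] at h
  have hi : Function.Injective x.1.obj :=
    (PartialOrder.mem_nerve_nonDegenerate_iff_injective _).1
      ((Subcomplex.mem_nonDegenerate_iff S x).1 hx)
  obtain ⟨k, θ', hθ'⟩ := exists_enum (c'.obj (Fin.last _))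
  let t' : ⦋k⦌ ⟶ ⦋m'⦌ := SimplexCategory.Hom.mk ⟨fun i => (θ' i).down, θ'.monotone⟩
  obtain ⟨c'', rfl⟩ := exists_lift_ch (fm t') c' fun y hy => by
    obtain ⟨i, rfl⟩ := (hθ' y).1 hy
    exact ⟨⟨i⟩, rfl⟩
  have hj : ∀ j, ∃ i, x.1.obj i = x'.1.obj (θ' j).down := fun j => by
    have h1 := congrArg (fun d : (nerve (Ch P)).obj n =>
      x'.1.obj (θ' j).down ∈ (d.obj (Fin.last _)).finset) h
    obtain ⟨i, -, hi⟩ := (PartialOrder.NonemptyFiniteChains.mem_map_iff _ _ _).1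
      (h1.mpr ((PartialOrder.NonemptyFiniteChains.mem_map_iff _ _ _).2
        ⟨θ' j, (hθ' _).2 ⟨j, rfl⟩, rfl⟩))
    exact ⟨i.down, hi⟩
  choose θ hθ using hj
  let t : ⦋k⦌ ⟶ ⦋m⦌ := SimplexCategory.Hom.mk ⟨θ, fun j j' l => by
    by_contra k
    have h1 : x.1.obj (θ j) ≤ x.1.obj (θ j') := by
      rw [hθ, hθ]
      exact x'.1.monotone (θ'.monotone l)
    exact k (hi (le_antisymm h1 (x.1.monotone (not_le.1 k).le))).le⟩
  have hy : S.toSSet.map t.op x = S.toSSet.map t'.op x' := Subtype.ext (nerve_ext hθ)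
  have hc : (nmap (chMap (fm t))).app n c'' = c := nerve_ext fun i =>
    chMap_injective (φ := simplexHom x.1) (fun a b l => ULift.ext _ _ (hi l)) (by
      have h2 : (simplexHom x.1).comp (fm t) = (simplexHom x'.1).comp (fm t') :=
        OrderHom.ext _ _ (funext fun j => hθ j.down)
      have h3 := congrArg (fun d : (nerve (Ch P)).obj n => d.obj i) h
      have h4 := congrArg (fun φ => chMap φ (c''.obj i)) h2
      simp only [chMap_comp] at h4
      exact h4.trans h3.symm)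
  rw [← hc, ← NatTrans.comp_app_apply, ← NatTrans.comp_app_apply, ← sdS_face, ← sdS_face, hy]

theorem ks_range (S : (nerve P).Subcomplex) :
    Subcomplex.range (sd.map S.ι ≫ gam P) = nsub (chs S) := by
  have e : ∀ n {m : ℕ} (x : S.toSSet _⦋m⦌) c, (sd.map S.ι ≫ gam P).app n ((sdS x).app n c) =
      (nmap (chMap (simplexHom x.1))).app n c := fun n _ x c => by
    rw [← NatTrans.comp_app_apply, sdS_map_assoc, sdS_gam]
    rfl
  ext n d
  constructor
  · rintro ⟨z, rfl⟩ i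
    obtain ⟨m, x, c, -, rfl⟩ := sd_surj z
    rw [e]
    refine ⟨m, x.1, x.2, fun y hy => ?_⟩
    obtain ⟨j, -, rfl⟩ := (PartialOrder.NonemptyFiniteChains.mem_map_iff _ _ _).1 hy
    exact ⟨j.down, rfl⟩
  · intro hd
    obtain ⟨m, σ, hσ, h⟩ := hd (Fin.last _)
    obtain ⟨c, rfl⟩ := exists_lift_ch (simplexHom σ) d fun y hy => by
      obtain ⟨i, rfl⟩ := h y hy
      exact ⟨⟨i⟩, rfl⟩
    exact ⟨_, e n ⟨σ, hσ⟩ c⟩

theorem sd_sub (S : (nerve P).Subcomplex) : ∃ e : sd.obj S ≅ (nsub (chs S) : SSet.{0}),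
    e.hom ≫ (nsub (chs S)).ι = sd.map S.ι ≫ gam P := by
  have := ks_mono S
  exact ⟨asIso (Subcomplex.toRange _) ≪≫ Subcomplex.eqToIso (ks_range S), rfl⟩

instance (P : Type) [PartialOrder P] : IsIso (gam P) := by
  have := ks_mono (⊤ : (nerve P).Subcomplex)
  have : Epi (sd.map (⊤ : (nerve P).Subcomplex).ι ≫ gam P) := by
    rw [← Subcomplex.range_eq_top_iff, ks_range, eq_top_iff]
    exact fun n d _ i => (mem_chs_nsub Set.univ _).2 (fun _ _ => trivial) |>.imp
      fun m => Exists.imp fun σ h => ⟨trivial, h.2⟩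
  have := isIso_of_mono_of_epi (sd.map (⊤ : (nerve P).Subcomplex).ι ≫ gam P)
  have : IsIso (⊤ : (nerve P).Subcomplex).ι := (Subcomplex.topIso _).isIso_hom
  exact IsIso.of_isIso_comp_left (sd.map (⊤ : (nerve P).Subcomplex).ι) _

theorem sd_arrow {K K' : SSet.{0}} (i : K ⟶ K') [Mono i] (e : K' ≅ nerve P) :
    ∃ e' : sd.obj K ≅ (nsub (chs (Subcomplex.range (i ≫ e.hom))) : SSet.{0}),
      e'.hom ≫ (nsub _).ι = sd.map i ≫ sd.map e.hom ≫ gam P := by
  obtain ⟨e', h⟩ := sd_sub (Subcomplex.range (i ≫ e.hom))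
  refine ⟨sd.mapIso (asIso (Subcomplex.toRange (i ≫ e.hom))) ≪≫ e', ?_⟩
  rw [Iso.trans_hom, Category.assoc, h, ← sd.map_comp_assoc]
  exact (sd.map_comp_assoc _ _ _).symm

theorem mono_sd {K K' : SSet.{0}} (i : K ⟶ K') [Mono i] (e : K' ≅ nerve P) : Mono (sd.map i) := by
  obtain ⟨e', h⟩ := sd_arrow i e
  exact mono_of_mono_fac h.symm

/-- A disjoint union of finite linear orders. -/
def SigP {ι : Type} (n : ι → ℕ) : Type := Σ i, Fm (n i)

instance {ι : Type} (n : ι → ℕ) : PartialOrder (SigP n) :=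
  inferInstanceAs (PartialOrder (Σ i, Fm (n i)))

theorem exists_nerve_sigma {ι : Type} (n : ι → ℕ) :
    ∃ (P : Type) (_ : PartialOrder P), Nonempty ((∐ fun i => (Δ[n i] : SSet.{0})) ≅ nerve P) := by
  let j : ∀ i, (Δ[n i] : SSet.{0}) ⟶ nerve (SigP n) := fun i =>
    (stdSimplex.isoNerve (n i)).hom ≫ nmap (P := Fm (n i)) (Q := SigP n)
      ⟨fun a => ⟨i, a⟩, fun a b h => (Sigma.mk_le_mk_iff (α := fun i => Fm (n i))).2 h⟩
  refine ⟨SigP n, inferInstance, ⟨(colimit.isColimit _).coconePointUniqueUpToIso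
    (t := Cofan.mk _ j) (evaluationJointlyReflectsColimits _ fun m =>
      (isColimitMapCoconeCofanMkEquiv _ _ _).symm
        ((Cofan.nonempty_isColimit_iff_bijective_fromSigma _).2 ⟨?_, fun σ => ?_⟩).some)⟩⟩
  · rintro ⟨i, x⟩ ⟨i', x'⟩ h
    have h' := fun a => congrArg (fun d : (nerve (SigP n)).obj m => d.obj a) h
    obtain rfl : i = i' := congrArg Sigma.fst (h' 0)
    refine congrArg _ (stdSimplex.objEquiv.injective (SimplexCategory.Hom.ext _ _
      (OrderHom.ext _ _ (funext fun a => ?_))))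
    exact congrArg ULift.down (eq_of_heq (Sigma.mk.inj (h' a)).2)
  · have h : ∀ a, ∃ b, (⟨(σ.obj 0).1, b⟩ : SigP n) = σ.obj a := fun a => by
      have := σ.monotone (Fin.zero_le a)
      generalize σ.obj 0 = p at *
      generalize σ.obj a = q at *
      cases this
      exact ⟨_, rfl⟩
    choose b hb using h
    refine ⟨⟨(σ.obj 0).1, stdSimplex.objMk ⟨fun a => (b a).down, fun a a' l => ?_⟩⟩,
      nerve_ext hb⟩
    exact (Sigma.mk_le_mk_iff (α := fun i => Fm (n i))).1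
      (((hb a).le.trans (σ.monotone l)).trans (hb a').ge)

/-- Lower sets with greatest elements below each point, in a ranked poset. -/
structure Dwyer {B : Type} [PartialOrder B] (A : Set B) : Prop where
  lower : IsLowerSet A
  rank : ∃ rk : B → ℕ, StrictMono rk
  max : ∀ y, (∃ a ∈ A, a ≤ y) → ∃ r, IsGreatest (A ∩ Set.Iic y) r

theorem exists_dwyer {K K' : SSet.{0}} (i : K ⟶ K') [Mono i] (e : K' ≅ nerve P) :
    ∃ (B : Type) (_ : PartialOrder B) (A : Set B), Dwyer A ∧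
      Nonempty (Arrow.mk (sd.map (sd.map i)) ≅ Arrow.mk (nsub A).ι) := by
  classical
  have := mono_sd i e
  obtain ⟨e₁, h₁⟩ := sd_arrow i e
  obtain ⟨e₂, h₂⟩ := sd_arrow (sd.map i) (sd.mapIso e ≪≫ asIso (gam P))
  refine ⟨_, _, _, ?_, ⟨Arrow.isoMk e₂ (sd.mapIso (sd.mapIso e ≪≫ asIso (gam P)) ≪≫
    asIso (gam _)) h₂⟩⟩
  have hr : Subcomplex.range (sd.map i ≫ (sd.mapIso e ≪≫ asIso (gam P)).hom) = nsub _ :=
    (congrArg Subcomplex.range h₁.symm).trans (by
      rw [Subcomplex.range_comp, Subcomplex.range_eq_top e₁.hom, Subcomplex.image_top]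
      exact Subfunctor.range_ι _)
  rw [hr]
  generalize chs (Subcomplex.range (i ≫ e.hom)) = A
  refine ⟨fun c c' h hc => ?_, ⟨fun c => c.finset.card, fun c c' h => Finset.card_lt_card h⟩,
    fun y ⟨a, ha, hy⟩ => ⟨⟨y.finset.filter (· ∈ A), ?_, fun a b => y.comparable
      ⟨a.1, (Finset.mem_filter.1 a.2).1⟩ ⟨b.1, (Finset.mem_filter.1 b.2).1⟩⟩, ⟨?_, ?_⟩, ?_⟩⟩
  · rw [mem_chs_nsub] at hc ⊢
    exact fun x hx => hc x (h hx)
  · obtain ⟨x, hx⟩ := a.nonempty
    exact ⟨x, Finset.mem_filter.2 ⟨hy hx, (mem_chs_nsub _ _).1 ha x hx⟩⟩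
  · exact (mem_chs_nsub _ _).2 fun x hx => (Finset.mem_filter.1 hx).2
  · exact Finset.filter_subset _ _
  · exact fun c hc x hx => Finset.mem_filter.2 ⟨hc.2 hx, (mem_chs_nsub _ _).1 hc.1 x hx⟩

instance [Finite P] : Finite (Ch P) :=
  Finite.of_injective _ fun _ _ h => PartialOrder.NonemptyFiniteChains.ext h

theorem finite_nerve (P : Type) [PartialOrder P] [Finite P] : (nerve P).Finite := by
  have : (nerve P).HasDimensionLT (Nat.card P) := ⟨fun n hn => eq_top_iff.2 fun s _ => by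
    by_contra h
    have := Nat.card_le_card_of_injective _
      ((PartialOrder.mem_nerve_nonDegenerate_iff_injective s).1 h)
    rw [Nat.card_eq_fintype_card, Fintype.card_fin] at this
    exact absurd (this.trans hn) (Nat.not_succ_le_self n)⟩
  exact finite_of_hasDimensionLT _ (Nat.card P) fun i _ =>
    Finite.of_injective (fun s => s.1.obj) fun _ _ h => Subtype.ext (nerve.ext_of_isThin h)

theorem finite_sd_sd (n : ℕ) (S : (Δ[n] : SSet.{0}).Subcomplex) :
    SSet.Finite (sd.obj (sd.obj S)) := by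
  have := mono_sd S.ι (stdSimplex.isoNerve n)
  obtain ⟨e, -⟩ := sd_arrow (sd.map S.ι) (sd.mapIso (stdSimplex.isoNerve n) ≪≫ asIso (gam _))
  have := finite_nerve (Ch (Ch (Fm n)))
  exact finite_of_iso e.symm

/-- The last vertex map of the standard simplex. -/
def ell (m : ℕ) : SimplexCategory.sd.{0}.obj ⦋m⦌ ⟶ Δ[m] :=
  nmap (maxC : Ch (Fm m) →o Fm m) ≫ (stdSimplex.isoNerve m).inv

theorem maxC_nat (φ : P →o Q) : nmap (chMap φ) ≫ nmap maxC = nmap maxC ≫ nmap φ :=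
  congrArg nmap (OrderHom.ext (maxC.comp (chMap φ)) (φ.comp maxC) (funext (maxC_chMap φ)))

theorem ell_nat {a b : ℕ} (θ : ⦋a⦌ ⟶ ⦋b⦌) :
    SimplexCategory.sd.{0}.map θ ≫ ell b = ell a ≫ SSet.stdSimplex.map θ :=
  (maxC_nat (fm θ)) =≫ (stdSimplex.isoNerve b).inv

/-- The natural map `X ⟶ Ex X`. -/
def eta : 𝟭 SSet.{0} ⟶ ex where
  app X :=
    { app m := ↾fun x => ULift.up (ell m.unop.len ≫ yonedaEquiv.symm x)
      naturality m n f := by
        ext x
        refine congrArg ULift.up ?_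
        change ell _ ≫ yonedaEquiv.symm (X.map f x) =
          SimplexCategory.sd.{0}.map f.unop ≫ ell _ ≫ yonedaEquiv.symm x
        rw [← Category.assoc, ell_nat (a := n.unop.len) (b := m.unop.len) f.unop, Category.assoc,
          yonedaEquiv_symm_naturality_left]
        rfl }
  naturality X Y f := by
    ext m x
    exact congrArg ULift.up (ell m.unop.len ≫= (yonedaEquiv_symm_comp x f).symm)

/-- The last vertex map `Sd X ⟶ X`. -/
def lam : sd ⟶ 𝟭 SSet.{0} where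
  app X := (sdExAdjunction.homEquiv _ _).symm (eta.app X)
  naturality X Y f := by
    rw [← sdExAdjunction.homEquiv_naturality_left_symm]
    exact (congrArg _ (eta.naturality f)).trans
      (sdExAdjunction.homEquiv_naturality_right_symm _ _)

theorem sdS_lam {K : SSet.{0}} {m : ℕ} (x : K _⦋m⦌) :
    sdS x ≫ lam.app K = ell m ≫ yonedaEquiv.symm x :=
  sdS_adj _ x

theorem isoNerve_inv_symm {m : ℕ} (σ : (nerve P) _⦋m⦌) :
    (stdSimplex.isoNerve m).inv ≫ yonedaEquiv.symm σ = nmap (simplexHom σ) := by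
  ext n x
  rfl

theorem lam_nerve (P : Type) [PartialOrder P] : lam.app (nerve P) = gam P ≫ nmap maxC := by
  refine sd_hom_ext fun m σ => ?_
  rw [sdS_lam, sdS_gam_assoc, maxC_nat, ← isoNerve_inv_symm]
  rfl

end Vale.Agent.P213
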