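import Vale.Agent.P213.Base
import Vale.Agent.P213.GLemB
import Vale.Agent.P213.KSd
import Vale.Agent.P213.Chain

/-! The nerve sends pushouts along Dwyer inclusions to homotopy pushouts. -/

open CategoryTheory Limits Opposite Simplicial MonoidalCategory SSet

set_option backward.isDefEq.respectTransparency false

noncomputable section

namespace Vale.Agent.P213

variable {n : ℕ∞}

theorem mem_usub_last {X : NCat n} {S : X.obj.C → Prop} (h : X.obj.IsSieve S)
    {m : SimplexCategoryᵒᵖ} (σ : Ori m.unop.len ⟶ X.obj) :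
    σ ∈ (usub S).obj m ↔ S (σ.f (vtx (Fin.last _))) :=
  ⟨fun k => k _, sieve_of_last h σ⟩

theorem Fam.app_const {B : Type} [PartialOrder B] {D : Set B} {Y : OmegaCat} (g : Fam D Y) {m : ℕ}
    (σ : Fin (m + 1) →o B) (h : ∀ i, σ i ∈ D) {b : B} (hb : b ∈ D) (e : ∀ i, σ i = b)
    (u : (Ori m).C) : (g.app σ h).f u = g.ob b hb := by
  rw [g.app_eq h (τ := (OrderHom.const (Fin (0 + 1)) b).comp (OrderHom.const _ 0)) (fun _ => hb) e,
    ← g.nat _ _ fun _ => hb]
  exact congrArg (g.app _ _).f (eq_vtx_of_subsingleton (V := Fin 1) _ 0)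

theorem IsPO.whe {B : Type} [PartialOrder B] {A : Set B} (hA : Dwyer A) {X P : NCat n}
    {f : Fam A X.obj} {j : X ⟶ P} {g : Fam Set.univ P.obj}
    (h : IsPO n (Set.subset_univ A) f j.hom g) {T : SSet.{0}} {a : (streetNerve n).obj X ⟶ T}
    {b : nerve B ⟶ T} (hT : IsPushout f.toS (nsub A).ι a b) (t : T ⟶ (streetNerve n).obj P)
    (ha : a ≫ t = (streetNerve n).map j) (hb : (nsub Set.univ).ι ≫ b ≫ t = g.toS) : WHE t := by
  obtain ⟨rk, hr⟩ := hA.rank
  have lo := hA.lower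
  have ta : ∀ (m : SimplexCategoryᵒᵖ) (z : Ori m.unop.len ⟶ X.obj), t.app m (a.app m z) = z ≫ j.hom := fun m z =>
    congrArg (fun F => F.app m z) ha
  have tb : ∀ (m : SimplexCategoryᵒᵖ) (σ : (nerve B).obj m),
      t.app m (b.app m σ) = g.app (m := m.unop.len) σ.toOrderHom fun _ => trivial := fun m σ =>
    congrArg (fun F => F.app m ⟨σ, fun _ => trivial⟩) hb
  have ba : ∀ m, ∀ σ ∈ (nsub A).obj m, ∃ z, a.app m z = b.app m σ := fun m σ k =>
    ⟨_, congrArg (fun F => F.app m ⟨σ, k⟩) hT.w⟩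
  have sj : ∀ E z, sv j.hom g E (j.hom.f z) := fun E z => Or.inl ⟨_, j.hom.map_d _ _ _⟩
  have ub : ∀ E, A ⊆ E → IsLowerSet E → ∀ m (σ : (nerve B).obj m), t.app m (b.app m σ) ∈
      (usub (sv j.hom g E)).obj m ↔ σ.obj (Fin.last _) ∈ E := fun E k k' m σ => by
    rw [tb, mem_usub_last (h.sv_sieve k k'), Fam.app_vtx, h.sv_ob k k']
    rfl
  have le : ∀ E, A ⊆ E → IsLowerSet E →
      poSub a b (nsub E) ≤ (usub (sv j.hom g E)).preimage t := by
    rintro E k k' m _ (⟨z, rfl⟩ | ⟨σ, i, rfl⟩)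
    · exact fun u => (congrArg (fun F => sv j.hom g E (OmegaCat.Hom.f F u)) (ta m z)).mpr (sj _ _)
    · exact (ub E k k' m σ).2 (i _)
  have L1 : Loc A fun E => poSub a b (nsub E) := fun m x => by
    rcases po_cases hT x with k | ⟨σ, rfl⟩
    · exact Or.inl fun _ _ _ => Or.inl k
    · exact Or.inr ⟨σ.obj (Fin.last _), fun E k k' => ⟨fun i => (ub E k k' m σ).1 (le E k k' m i),
        fun i => Or.inr ⟨σ, (mem_nsub_iff k' σ).2 i, rfl⟩⟩⟩
  have L2 : Loc A fun E => usub (sv j.hom g E) := fun m x => by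
    rcases h.sv_top (OmegaCat.Hom.f x (vtx (Fin.last m.unop.len))) with k | ⟨y, _, -, k⟩
    · exact Or.inl fun E i i' => (mem_usub_last (h.sv_sieve i i') x).2 (Or.inl k)
    · refine Or.inr ⟨y, fun E i i' => (mem_usub_last (h.sv_sieve i i') x).trans ?_⟩
      rw [(h.sv_sieve i i').tgt, ← k, h.sv_ob i i']
  have inj : ∀ (m : SimplexCategoryᵒᵖ) (z z' : Ori m.unop.len ⟶ X.obj), t.app m (a.app m z) = t.app m (a.app m z') →
      a.app m z = a.app m z' := fun m z z' e => by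
    rw [ta, ta] at e
    rw [OmegaCat.hom_ext fun u => h.sieveIncl.inj (congrArg (fun F => OmegaCat.Hom.f F u) e)]
  have srj : ∀ (m : SimplexCategoryᵒᵖ) (s : Ori m.unop.len ⟶ P.obj), (∀ u, ∃ z, j.hom.f z = s.f u) →
      ∃ z, t.app m (a.app m z) = s := fun m s k =>
    let ⟨z, e⟩ := OmegaCat.exists_lift_of_injective j.hom h.sieveIncl.inj s k
    ⟨z, (ta m z).trans e⟩
  have w0 : WR t (poSub a b (nsub A)) (usub (sv j.hom g A)) := by
    refine WR.of_bij (le A le_rfl lo) (fun m x hx y hy e => ?_) fun m s k => ?_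
    · obtain ⟨z, rfl⟩ := hx.elim id fun ⟨σ, i, e⟩ => e ▸ ba m σ i
      obtain ⟨z', rfl⟩ := hy.elim id fun ⟨σ, i, e⟩ => e ▸ ba m σ i
      exact inj m z z' e
    · obtain ⟨z, e⟩ := srj m s fun u => (h.sv_self _).1 (k u)
      exact ⟨_, Or.inl ⟨z, rfl⟩, e⟩
  have step : ∀ E, A ⊆ E → IsLowerSet E → ∀ y r, IsGreatest (E ∩ Set.Iic y) r →
      WR t (poSub a b (nsub E)) (usub (sv j.hom g E)) →
      WR t (poSub a b (nsub (E ∪ Set.Iic y))) (usub (sv j.hom g (E ∪ Set.Iic y))) :=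
    fun E k k' y r i => (WR.iff _ _ (le E k k')
      (le _ (k.trans Set.subset_union_left) (k'.union (isLowerSet_Iic y)))
      (whe_poSub hT (nsub_mono k) _ (whe_nsub_union k' i))
      (h.base k k' (Set.subset_univ _) i)).1
  refine rank_ind lo hr L1 L2 w0 fun y => ?_
  by_cases k : ∃ x ∈ A, x ≤ y
  · obtain ⟨r, i⟩ := hA.max y k
    exact step A le_rfl lo y r i w0
  obtain ⟨c, hc, mc⟩ := (InvImage.wf rk wellFounded_lt).has_min (Set.Iic y) ⟨y, le_rfl⟩
  have mc : IsMin c := fun x l => (l.eq_or_lt.resolve_right fun i => mc x (l.trans hc) (hr i)).ge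
  have nc : c ∉ A := fun i => k ⟨c, i, hc⟩
  have lc : IsLowerSet (insert c A) := fun x z l i =>
    i.imp (fun e : x = c => (l.trans_eq e).antisymm (mc (l.trans_eq e))) (lo l)
  have e : insert c A ∪ Set.Iic y = A ∪ Set.Iic y := by
    rw [Set.insert_union, Set.insert_eq_of_mem (Set.mem_union_right _ hc)]
  have no : ∀ z, j.hom.f z ≠ g.ob c trivial := fun z i =>
    nc ((h.sv_ob le_rfl lo c trivial).1 (i ▸ sj A z))
  have cs : ∀ m : SimplexCategoryᵒᵖ, ∀ x ∈ (poSub a b (nsub (insert c A))).obj m, (∃ z, a.app m z = x) ∨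
      x = b.app m ((OrderHom.const (Fin (m.unop.len + 1)) c).monotone.functor) := by
    rintro m _ (i | ⟨σ, i, rfl⟩)
    · exact Or.inl i
    · refine (i (Fin.last _)).symm.imp (fun l => ba m σ ((mem_nsub_iff lo σ).2 l)) fun l => ?_
      refine congrArg _ (nerve.ext_of_isThin (funext fun q => ?_))
      have := leOfHom (σ.map (homOfLE (Fin.le_last q)))
      exact (l ▸ this).antisymm (mc (l ▸ this))
  have tc : ∀ (m : SimplexCategoryᵒᵖ) (u : (Ori m.unop.len).C), OmegaCat.Hom.f (t.app m (b.app m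
      ((OrderHom.const (Fin (m.unop.len + 1)) c).monotone.functor))) u = g.ob c trivial :=
    fun m u => by
      rw [tb]
      exact g.app_const _ _ _ (fun _ => rfl) u
  refine e ▸ step _ (Set.subset_insert c A) lc y c ⟨⟨Or.inl rfl, hc⟩, fun x i =>
    (i.1.resolve_right fun l => k ⟨x, l, i.2⟩).le⟩ (WR.of_bij (le _ (Set.subset_insert c A) lc)
      (fun m x hx y hy e => ?_) fun m s i => ?_)
  · rcases cs m x hx with ⟨z, rfl⟩ | rfl <;> rcases cs m y hy with ⟨z', rfl⟩ | rfl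
    · exact inj m z z' e
    · rw [ta] at e
      exact absurd ((congrArg (fun F => OmegaCat.Hom.f F (vtx 0)) e).trans (tc m _)) (no _)
    · rw [ta] at e
      exact absurd ((congrArg (fun F => OmegaCat.Hom.f F (vtx 0)) e).symm.trans (tc m _)) (no _)
    · rfl
  · have i := fun u => h.sv_min mc trivial _ (i u)
    rcases i (vtx (Fin.last _)) with l | l
    · obtain ⟨z, e⟩ := srj m s (sieve_of_last h.sieveIncl.sieve s l)
      exact ⟨_, Or.inl ⟨z, rfl⟩, e⟩
    · refine ⟨_, Or.inr ⟨_, fun _ => Or.inl rfl, rfl⟩, OmegaCat.hom_ext fun u =>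
        (tc m u).trans ((i u).resolve_left fun l' => ?_).symm⟩
      obtain ⟨q, hq⟩ := exists_vtx u true
      obtain ⟨v, h1, h2⟩ := exists_edge (Fin.le_last q)
      obtain ⟨z, hz⟩ := (h.sieveIncl.sieve.tgt _).1 l'
      rcases i v with l'' | l''
      · obtain ⟨z, hz⟩ := (h.sieveIncl.sieve.tgt _).1 l''
        exact no z (hz.trans ((OmegaCat.Hom.map_d s _ _ _).symm.trans
          ((congrArg (OmegaCat.Hom.f s) h2).trans l)))
      · refine no z (hz.trans ((OmegaCat.Hom.map_d s _ _ _).symm.trans ?_))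
        refine (congrArg (OmegaCat.Hom.f s) (hq.trans h1.symm)).trans
          ((OmegaCat.Hom.map_d s _ _ _).trans ?_)
        rw [l'']
        exact g.ob_d _ _ _ _

end Vale.Agent.P213
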