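import Vale.Agent.P213.Amalg

/-! The omega-category of oplax paths. -/

open CategoryTheory Finsupp

set_option backward.isDefEq.respectTransparency false

noncomputable section

namespace Vale.Agent.P213

open ADC OmegaCat

variable {X : OmegaCat} {K L : ADC}

theorem ofCell_sat_of_le {u : Cell K} {k j : ℕ} (h : u.d false k = u) (l : k ≤ j) (a : Bool) :
    (ofCell u).cell (sat j a) = u := (ofCell_sat u j a).trans (d_of_d (X := K.nu) h l)

theorem d_sat (j : ℕ) (a b : Bool) {k : ℕ} (l : j ≤ k) : (sat j a).d b k = sat j a :=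
  St.sph.d_atom (b := (j, a)) b l

/-- Cells of the path object. -/
def GC (X : OmegaCat) : Type :=
  {g : sph.cyl.nu ⟶ X // ∃ k, (trunc false k).cyl.nu ≫ g = g}

theorem ofCell_comp_nu (F : K.Hom L) (u : Cell K) :
    (ofCell u).cyl.nu ≫ F.cyl.nu = (ofCell (F.cell u)).cyl.nu := by
  rw [← Hom.comp_nu, ← Hom.cyl_comp, ofCell_map]

/-- The path given by a cell of `ν K` and a functor on the cylinder. -/
def hatc (φ : K.cyl.nu ⟶ X) (u : Cell K) : GC X :=
  ⟨(ofCell u).cyl.nu ≫ φ, let ⟨k, hk⟩ := K.nu.fin u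
    ⟨k, by rw [← Category.assoc, trunc, ofCell_comp_nu, ofCell_sat_of_le hk le_rfl]⟩⟩

theorem hatc_map (F : K.Hom L) (φ : L.cyl.nu ⟶ X) (u : Cell K) :
    hatc (F.cyl.nu ≫ φ) u = hatc φ (F.cell u) :=
  Subtype.ext (by simp only [hatc]; rw [← Category.assoc, ofCell_comp_nu])

/-- Sources and targets of paths. -/
def GC.d (a : Bool) (k : ℕ) (g : GC X) : GC X := hatc g.1 (sat k a)

theorem hatc_d (φ : K.cyl.nu ⟶ X) (u : Cell K) (a : Bool) (k : ℕ) :
    hatc φ (u.d a k) = (hatc φ u).d a k := by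
  rw [← ofCell_sat, ← hatc_map]
  rfl

theorem GC.real (g : GC X) (N : ℕ) : ∃ k, N < k ∧ hatc g.1 (sat k false) = g := by
  obtain ⟨k, hk⟩ := g.2
  have e : hatc g.1 (sat k false) = g := Subtype.ext hk
  refine ⟨max k (N + 1), lt_max_of_lt_right N.lt_succ_self, ?_⟩
  change g.d false _ = g
  rw [← e, ← hatc_d, d_sat _ _ _ (le_max_left _ _)]

/-- The attachment used to compare composites. -/
def att (n : ℕ) : Att St.sph (n, true) := (nonempty_att _ _).some

theorem att_cmp (n : ℕ) {k l : ℕ} (h : n < k) (h' : n < l) :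
    ((att n).i.cell (sat k false)).d true n = ((att n).j.cell (sat l false)).d false n := by
  rw [← Hom.cell_d, ← Hom.cell_d, sat_d _ _ _ h, sat_d _ _ _ h']
  exact (att n).w

theorem att_desc {n : ℕ} {u v : Cell K} (e : u.d true n = v.d false n) :
    ∃ H : (att n).Q.Hom K, (att n).i.comp H = ofCell u ∧ (att n).j.comp H = ofCell v ∧
      ∃ N, ∀ k, N < k →
        H.cell (((att n).i.cell (sat k false)).comp n ((att n).j.cell (sat k false))) =
          u.comp n v := by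
  obtain ⟨H, h1, h2⟩ := (att n).desc (ofCell u) (ofCell v)
    ((ofCell_sat u n true).trans (e.trans (ofCell_sat v n false).symm))
  obtain ⟨k, hk⟩ := K.nu.fin u
  obtain ⟨l, hl⟩ := K.nu.fin v
  refine ⟨H, h1, h2, n + k + l, fun N hN => ?_⟩
  rw [H.cell_comp (att_cmp n (by omega) (by omega)), ← Hom.comp_cell, ← Hom.comp_cell, h1, h2,
    ofCell_sat_of_le hk (by omega), ofCell_sat_of_le hl (by omega)]

/-- The path given by a composite only depends on the paths given by the factors. -/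
theorem kp {n N : ℕ} {F : K.cyl.nu.C → X.C} {G : L.cyl.nu.C → X.C} (hF : PFun N F) (hG : PFun N G)
    {u v : Cell K} {u' v' : Cell L} (e : u.d true n = v.d false n) (e' : u'.d true n = v'.d false n)
    (h1 : ∀ w, sph.cyl.nu.DimLT N w → F ((ofCell u).cyl.cell w) = G ((ofCell u').cyl.cell w))
    (h2 : ∀ w, sph.cyl.nu.DimLT N w → F ((ofCell v).cyl.cell w) = G ((ofCell v').cyl.cell w))
    (w : Cell sph.cyl) (hw : sph.cyl.nu.DimLT N w) :
    F ((ofCell (u.comp n v)).cyl.cell w) = G ((ofCell (u'.comp n v')).cyl.cell w) := by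
  obtain ⟨H, a1, a2, k, a3⟩ := att_desc e
  obtain ⟨H', b1, b2, l, b3⟩ := att_desc e'
  have key := (att n).pext (hF.precomp H.cyl.nu) (hG.precomp H'.cyl.nu) (fun w hw => by
    have := h1 w hw
    rwa [← a1, ← b1, Hom.cyl_comp, Hom.cyl_comp] at this) fun w hw => by
      have := h2 w hw
      rwa [← a2, ← b2, Hom.cyl_comp, Hom.cyl_comp] at this
  have a4 := a3 (k + l + 1) (by omega)
  have b4 := b3 (k + l + 1) (by omega)
  generalize ((att n).i.cell _).comp n _ = W at a4 b4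
  rw [← a4, ← b4, ofCell_map, ofCell_map, Hom.cyl_comp, Hom.cyl_comp, Hom.comp_cell, Hom.comp_cell]
  exact key _ (hw.map (ofCell W).cyl.nu)

open Classical in
/-- Composition of paths. -/
def GC.comp (n : ℕ) (g h : GC X) : GC X :=
  if e : ∃ r, ∃ (K : ADC) (φ : K.cyl.nu ⟶ X) (u v : Cell K), u.d true n = v.d false n ∧
    hatc φ u = g ∧ hatc φ v = h ∧ r = hatc φ (u.comp n v) then e.choose else g

theorem hatc_comp (φ : K.cyl.nu ⟶ X) {n : ℕ} {u v : Cell K} (e : u.d true n = v.d false n) :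
    hatc φ (u.comp n v) = (hatc φ u).comp n (hatc φ v) := by
  have ex : ∃ r, ∃ (K : ADC) (ψ : K.cyl.nu ⟶ X) (u' v' : Cell K), u'.d true n = v'.d false n ∧
      hatc ψ u' = hatc φ u ∧ hatc ψ v' = hatc φ v ∧ r = hatc ψ (u'.comp n v') :=
    ⟨_, K, φ, u, v, e, rfl, rfl, rfl⟩
  obtain ⟨L, ψ, u', v', e', h1, h2, h3⟩ := ex.choose_spec
  rw [GC.comp, dif_pos ex, h3]
  refine Subtype.ext (hom_ext fun w => ?_)
  obtain ⟨N, hw⟩ := exists_dimLT w
  exact kp (φ.pFun N) (ψ.pFun N) e e' (fun w _ => congrArg (fun g : GC X => g.1.f w) h1.symm)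
    (fun w _ => congrArg (fun g : GC X => g.1.f w) h2.symm) w hw

/-- Realizing one more path. -/
theorem GC.attach (S : St K) (φ : K.cyl.nu ⟶ X) (c : K.B) {n : ℕ} (hc : K.dim c = n) (h : GC X)
    (e : hatc φ (S.atom c) = h.d false n) (N : ℕ) :
    ∃ (L : ADC) (T : St L) (ψ : L.cyl.nu ⟶ X) (i : K.Hom L) (v : Cell L),
      (∀ u, hatc ψ (i.cell u) = hatc φ u) ∧ hatc ψ v = h ∧ i.cell (S.atom c) = v.d false n ∧
      (∀ b, ∃ b', L.dim b' = K.dim b ∧ T.atom b' = i.cell (S.atom b)) ∧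
      ∀ m, n ≤ m → m ≤ N → ∃ b', L.dim b' = m ∧ T.atom b' = v.d true m := by
  subst hc
  obtain ⟨A⟩ := nonempty_att S c
  obtain ⟨χ, h1, h2⟩ := A.glue φ h.1 (congrArg Subtype.val e)
  obtain ⟨k, hk, h3⟩ := h.real (N + K.dim c)
  refine ⟨A.Q, A.T, χ, A.i, A.j.cell (sat k false), fun u => by rw [← hatc_map, h1],
    by rw [← hatc_map, h2, h3], by rw [← Hom.cell_d, sat_d _ _ _ (by omega), A.w], A.old,
    fun m l l' => ?_⟩
  rw [← Hom.cell_d, sat_d _ _ _ (by omega)]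
  exact A.new m true (l.eq_or_lt.symm.imp id fun e => ⟨e.symm, rfl⟩)

theorem GC.real₁ (g : GC X) (N : ℕ) : ∃ u : Cell sph, hatc g.1 u = g ∧
    ∀ m ≤ N, St.sph.atom (m, true) = u.d true m :=
  let ⟨k, hk, e⟩ := g.real N
  ⟨sat k false, e, fun _ l => (sat_d _ _ _ (l.trans_lt hk)).symm⟩

theorem GC.real₂ {n : ℕ} {g h : GC X} (e : g.d true n = h.d false n) :
    ∃ (K : ADC) (φ : K.cyl.nu ⟶ X) (u v : Cell K), hatc φ u = g ∧ hatc φ v = h ∧
      u.d true n = v.d false n := by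
  obtain ⟨u, h1, h2⟩ := g.real₁ n
  obtain ⟨L, T, ψ, i, v, a1, a2, a3, -⟩ := GC.attach (n := n) St.sph g.1 (n, true) rfl h e 0
  exact ⟨L, ψ, i.cell u, v, (a1 u).trans h1, a2, by rw [← a3, h2 n le_rfl, i.cell_d]⟩

theorem GC.real₃ {n : ℕ} {g h k : GC X} (e : g.d true n = h.d false n)
    (e' : h.d true n = k.d false n) :
    ∃ (K : ADC) (φ : K.cyl.nu ⟶ X) (u v w : Cell K), hatc φ u = g ∧ hatc φ v = h ∧ hatc φ w = k ∧
      u.d true n = v.d false n ∧ v.d true n = w.d false n := by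
  obtain ⟨u, h1, h2⟩ := g.real₁ n
  obtain ⟨L, T, ψ, i, v, a1, a2, a3, -, a4⟩ := GC.attach (n := n) St.sph g.1 (n, true) rfl h e n
  obtain ⟨c, hc, a5⟩ := a4 n le_rfl le_rfl
  obtain ⟨L', -, χ, j, w, b1, b2, b3, -⟩ := GC.attach T ψ c hc k (by rw [a5, hatc_d, a2, e']) 0
  exact ⟨L', χ, j.cell (i.cell u), j.cell v, w, (b1 _).trans ((a1 u).trans h1), (b1 _).trans a2, b2,
    by rw [← j.cell_d, ← j.cell_d, ← a3, h2 n le_rfl, i.cell_d], by rw [← b3, a5, j.cell_d]⟩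

theorem GC.real₄ {m n : ℕ} {x y z w : GC X} (l : m < n) (e : x.d true n = y.d false n)
    (e' : z.d true n = w.d false n) (k : x.d true m = z.d false m) :
    ∃ (K : ADC) (φ : K.cyl.nu ⟶ X) (u v u' v' : Cell K), hatc φ u = x ∧ hatc φ v = y ∧
      hatc φ u' = z ∧ hatc φ v' = w ∧ u.d true n = v.d false n ∧ u'.d true n = v'.d false n ∧
      u.d true m = u'.d false m := by
  obtain ⟨u, h1, h2⟩ := x.real₁ n
  obtain ⟨L, T, ψ, i, v, a1, a2, a3, a4, -⟩ := GC.attach (n := n) St.sph x.1 (n, true) rfl y e n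
  obtain ⟨c, hc, a5⟩ := a4 (m, true)
  rw [h2 m l.le] at a5
  obtain ⟨L', T', χ, j, u', b1, b2, b3, -, b4⟩ :=
    GC.attach T ψ c hc z (by rw [a5, a1, hatc_d, h1]; exact k) n
  obtain ⟨c', hc', b5⟩ := b4 n l.le le_rfl
  obtain ⟨L'', -, ω, f, v', c1, c2, c3, -⟩ :=
    GC.attach T' χ c' hc' w (by rw [b5, hatc_d, b2, e']) 0
  refine ⟨L'', ω, f.cell (j.cell (i.cell u)), f.cell (j.cell v), f.cell u', v',
    by rw [c1, b1, a1, h1], by rw [c1, b1, a2], by rw [c1, b2], c2, ?_, by rw [← c3, b5, f.cell_d], ?_⟩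
  · rw [← f.cell_d, ← f.cell_d, ← j.cell_d, ← j.cell_d, ← a3, h2 n le_rfl, i.cell_d]
  · rw [← f.cell_d, ← f.cell_d, ← j.cell_d, ← i.cell_d, ← a5]
    exact congrArg _ b3

/-- The omega-category of oplax paths. -/
@[implicit_reducible] def Gam (X : OmegaCat) : OmegaCat where
  C := GC X
  d := GC.d
  comp := GC.comp
  d_lt g h := by
    obtain ⟨u, e, -⟩ := g.real₁ 0
    rw [← e, ← hatc_d, ← hatc_d, ← hatc_d, Cell.d_lt _ h]
  d_ge g h := by
    obtain ⟨u, e, -⟩ := g.real₁ 0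
    rw [← e, ← hatc_d, ← hatc_d, Cell.d_ge _ h]
  id_comp n g := by
    obtain ⟨u, e, -⟩ := g.real₁ 0
    rw [← e, ← hatc_d, ← hatc_comp _ (Cell.d_ge _ le_rfl)]
    exact congrArg _ (sph.nu.id_comp n u)
  comp_id n g := by
    obtain ⟨u, e, -⟩ := g.real₁ 0
    rw [← e, ← hatc_d, ← hatc_comp _ (Cell.d_ge _ le_rfl).symm]
    exact congrArg _ (sph.nu.comp_id n u)
  src_comp c := by
    obtain ⟨K, φ, u, v, rfl, rfl, e⟩ := GC.real₂ c
    rw [← hatc_comp _ e, ← hatc_d, ← hatc_d, Cell.src_comp e]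
  tgt_comp c := by
    obtain ⟨K, φ, u, v, rfl, rfl, e⟩ := GC.real₂ c
    rw [← hatc_comp _ e, ← hatc_d, ← hatc_d, Cell.tgt_comp e]
  d_comp c k := by
    obtain ⟨K, φ, u, v, rfl, rfl, e⟩ := GC.real₂ c
    rw [← hatc_comp _ e, ← hatc_d, ← hatc_d, ← hatc_d, Cell.d_comp e k]
    exact hatc_comp _ (d_cmp (X := K.nu) e k)
  assoc c c' := by
    obtain ⟨K, φ, u, v, w, rfl, rfl, rfl, e, e'⟩ := GC.real₃ c c'
    rw [← hatc_comp _ e, ← hatc_comp _ e', ← hatc_comp _ ((Cell.tgt_comp e).trans e'),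
      ← hatc_comp _ (e.trans (Cell.src_comp e').symm)]
    exact congrArg _ (K.nu.assoc e e')
  interchange l c c' j := by
    obtain ⟨K, φ, u, v, u', v', rfl, rfl, rfl, rfl, e, e', k⟩ := GC.real₄ l c c' j
    have k' := (d_lt_eq (X := K.nu) e l).symm.trans (k.trans (d_lt_eq (X := K.nu) e' l))
    rw [← hatc_comp _ e, ← hatc_comp _ e', ← hatc_comp _ k, ← hatc_comp _ k',
      ← hatc_comp (u := u.comp _ u') _ (by rw [Cell.d_comp k l.ne', Cell.d_comp k' l.ne', e, e'])]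
    exact (hatc_comp _ ((d_comp_lt (X := K.nu) e l).trans
      (k.trans (d_comp_lt (X := K.nu) e' l).symm))).symm.trans
        (congrArg _ (K.nu.interchange l e e' k))
  fin g := let ⟨k, _, e⟩ := g.real 0; ⟨k, e⟩

/-- The functor to the path object given by a functor on the cylinder. -/
def hat (φ : K.cyl.nu ⟶ X) : K.nu ⟶ Gam X := ⟨hatc φ, fun a k u => hatc_d φ u a k, hatc_comp φ⟩

end Vale.Agent.P213
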