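import Vale.Agent.P213.Cyl

/-! Chains on a simplex: the join with a vertex, the Alexander-Whitney map and the cone
homotopy. -/

open CategoryTheory Finsupp

set_option backward.isDefEq.respectTransparency false

noncomputable section

namespace Vale.Agent.P213

open ADC

variable {V W W' : Type} [LinearOrder V] [LinearOrder W] [LinearOrder W']

/-- The sign operator on simplicial chains. -/
abbrev sgnL (V : Type) [LinearOrder V] : (Face V →₀ ℤ) →ₗ[ℤ] (Face V →₀ ℤ) := (simplexADC V).sgn

/-- The augmentation on simplicial chains. -/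
abbrev augL (V : Type) [LinearOrder V] : (Face V →₀ ℤ) →ₗ[ℤ] ℤ := (simplexADC V).aug

omit [LinearOrder V] in
theorem bas_of_nonempty {S : Finset V} (h : S.Nonempty) : bas S = single ⟨S, h⟩ 1 := dif_pos h

omit [LinearOrder V] in
theorem bas_nonneg (S : Finset V) : 0 ≤ bas S := by
  unfold bas
  split_ifs
  exacts [single_nonneg.2 zero_le_one, le_rfl]

omit [LinearOrder V] in
theorem jn_bas_empty : bas (∅ : Finset V) = 0 := dif_neg Finset.not_nonempty_empty

omit [LinearOrder V] in
theorem jn_single (S : Face V) : (single S 1 : Face V →₀ ℤ) = bas S.1 := (bas_of_nonempty S.2).symm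

omit [LinearOrder V] in
theorem jn_sum (x : Face V →₀ ℤ) : x = ∑ S ∈ x.support, x S • bas S.1 := by
  conv_lhs => rw [← x.sum_single, Finsupp.sum]
  exact Finset.sum_congr rfl fun S _ => by rw [← jn_single, smul_single, smul_eq_mul, mul_one]

omit [LinearOrder V] in
theorem jn_ext {M : Type} [AddCommGroup M] {f g : (Face V →₀ ℤ) →ₗ[ℤ] M} {x : Face V →₀ ℤ}
    (h : ∀ S : Face V, x S ≠ 0 → f (bas S.1) = g (bas S.1)) : f x = g x := by
  rw [jn_sum x, map_sum, map_sum]
  exact Finset.sum_congr rfl fun S hS => by rw [map_smul, map_smul, h S (mem_support_iff.1 hS)]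

theorem aug_bas (S : Finset V) : augL V (bas S) = if S.card = 1 then 1 else 0 := by
  rcases S.eq_empty_or_nonempty with rfl | h
  · simp [jn_bas_empty]
  · have := h.card_pos
    rw [bas_of_nonempty h]
    refine (linearCombination_single _ _ _).trans ((one_smul _ _).trans (if_congr ?_ rfl rfl))
    change S.card - 1 = 0 ↔ _
    omega

theorem sgn_bas (S : Finset V) :
    sgnL V (bas S) = (-1 : ℤ) ^ (S.card - 1) • bas S := by
  rcases S.eq_empty_or_nonempty with rfl | h
  · simp [jn_bas_empty]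
  · rw [bas_of_nonempty h]
    refine (linearCombination_single _ _ _).trans ((one_smul _ _).trans ?_)
    rw [smul_single, smul_eq_mul, mul_one]
    rfl

theorem simplexMap_comp (f : V →o W) (g : W →o W') :
    (simplexMap f).comp (simplexMap g) = simplexMap (g.comp f) :=
  ADC.Hom.ext (LinearMap.ext fun x => (pushL_comp f g x).symm)

theorem simplexMap_id : simplexMap (OrderHom.id : V →o V) = Hom.id _ :=
  ADC.Hom.ext (LinearMap.ext fun x => pushL_id x)

/-- The chain only involves vertices in `U`. -/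
def ChIn (U : Set V) (x : Face V →₀ ℤ) : Prop := ∀ S : Face V, x S ≠ 0 → ∀ i ∈ S.1, i ∈ U

omit [LinearOrder V] in
theorem pushL_congr {f g : V → W} {U : Set V} {x : Face V →₀ ℤ} (hx : ChIn U x)
    (h : ∀ i ∈ U, f i = g i) : pushL f x = pushL g x := by
  refine jn_ext fun S hS => ?_
  have e : Set.EqOn f g S.1 := fun i hi => h i (hx S hS i hi)
  rw [pushL_bas, pushL_bas, pushF, pushF, Finset.image_congr e]
  exact if_congr e.injOn_iff rfl rfl

omit [LinearOrder V] in
theorem jn_chIn_bas {U : Set V} {S : Finset V} (h : ∀ i ∈ S, i ∈ U) : ChIn U (bas S) :=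
  fun _ hT i hi => h i (bas_ne hT ▸ hi)

theorem jn_chIn_bd {U : Set V} {S : Finset V} (h : ∀ i ∈ S, i ∈ U) : ChIn U (bdL V (bas S)) := by
  intro T hT i hi
  rw [bd_bas, finsetSum_apply] at hT
  obtain ⟨j, _, k⟩ := Finset.exists_ne_zero_of_sum_ne_zero hT
  have e := bas_ne (right_ne_zero_of_smul k)
  exact h i (Finset.mem_of_mem_erase (e ▸ hi))

/-- The join with a vertex. -/
def joinL (v : V) : (Face V →₀ ℤ) →ₗ[ℤ] (Face V →₀ ℤ) :=
  linearCombination ℤ fun S => if v ∈ S.1 then 0 else bas (insert v S.1)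

theorem jn_join_bas (v : V) {S : Finset V} (h : S.Nonempty) :
    joinL v (bas S) = if v ∈ S then 0 else bas (insert v S) := by
  rw [bas_of_nonempty h]
  exact (linearCombination_single _ _ _).trans (one_smul _ _)

theorem jn_join_mem {v : V} {S : Finset V} (h : v ∈ S) : joinL v (bas S) = 0 := by
  rw [jn_join_bas v ⟨v, h⟩, if_pos h]

theorem jn_join_not {v : V} {S : Finset V} (h : v ∉ S) :
    bas (insert v S) = joinL v (bas S) + if S.card = 0 then bas {v} else 0 := by
  rcases S.eq_empty_or_nonempty with rfl | k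
  · simp [jn_bas_empty]
  · rw [jn_join_bas v k, if_neg h, if_neg k.card_pos.ne', add_zero]

theorem jn_card_lt {v : V} {S : Finset V} (hv : v ∈ S) (h : ∀ i ∈ S, i ≤ v) :
    (S.filter (· < v)).card = S.card - 1 := by
  rw [← Finset.card_erase_of_mem hv]
  congr 1
  ext i
  simp only [Finset.mem_filter, Finset.mem_erase]
  exact ⟨fun k => ⟨k.2.ne, k.1⟩, fun k => ⟨k.2, lt_of_le_of_ne (h i k.2) k.1⟩⟩

theorem jn_bd_single (v : V) : bdL V (bas {v}) = 0 := by
  simp [bd_bas, jn_bas_empty]

theorem jn_bd_join_bas {v : V} {S : Finset V} (hS : S.Nonempty) (h : ∀ i ∈ S, i ≤ v) :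
    bdL V (joinL v (bas S)) = joinL v (bdL V (bas S)) - sgnL V (bas S) +
      augL V (bas S) • bas {v} := by
  have hc := hS.card_pos
  by_cases hv : v ∈ S
  · rw [jn_join_mem hv, map_zero, bd_bas, map_sum, Finset.sum_eq_single_of_mem v hv fun i _ hi => by
      rw [map_smul, jn_join_mem (Finset.mem_erase.2 ⟨hi.symm, hv⟩), smul_zero], map_smul,
      jn_card_lt hv h, sgn_bas, aug_bas]
    have e := jn_join_not (Finset.notMem_erase v S)
    rw [Finset.insert_erase hv, Finset.card_erase_of_mem hv] at e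
    by_cases k : S.card = 1
    · rw [if_pos (by omega)] at e
      rw [if_pos k, k, e]
      simp
    · rw [if_neg (by omega), add_zero] at e
      rw [if_neg k, ← e]
      simp
  · by_cases k : S.card = 1
    · obtain ⟨a, rfl⟩ := Finset.card_eq_one.1 k
      have ha : a < v := lt_of_le_of_ne (h a (by simp)) fun e => hv (by simp [e])
      rw [jn_join_bas v hS, if_neg hv, jn_bd_single, sgn_bas, aug_bas, bd_bas, Finset.sum_insert hv,
        Finset.sum_singleton, Finset.erase_insert hv, Finset.erase_insert_of_ne ha.ne',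
        Finset.filter_insert, Finset.filter_insert, if_neg (lt_irrefl v), if_neg ha.not_gt]
      simp [Finset.filter_singleton, ha]
    · rw [jn_join_bas v hS, if_neg hv, sgn_bas, aug_bas, if_neg k, bd_bas, bd_bas,
        Finset.sum_insert hv, map_sum, Finset.erase_insert hv,
        jn_card_lt (Finset.mem_insert_self v S)
          (fun i hi => (Finset.mem_insert.1 hi).elim le_of_eq (h i)),
        Finset.card_insert_of_notMem hv, zero_smul, add_zero, Nat.add_sub_cancel]
      have e : (-1 : ℤ) ^ S.card = -(-1) ^ (S.card - 1) := by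
        conv_lhs => rw [show S.card = S.card - 1 + 1 by omega, pow_succ, mul_neg_one]
      rw [e, neg_smul, neg_add_eq_sub]
      congr 1
      refine Finset.sum_congr rfl fun i hi => ?_
      have hiv : i < v := lt_of_le_of_ne (h i hi) fun e => hv (e ▸ hi)
      rw [map_smul, Finset.filter_insert, if_neg hiv.not_gt, Finset.erase_insert_of_ne hiv.ne',
        jn_join_not fun l => hv (Finset.mem_of_mem_erase l), Finset.card_erase_of_mem hi,
        if_neg (by omega), add_zero]

theorem bd_joinL {v : V} {x : Face V →₀ ℤ} (hx : ChIn (Set.Iic v) x) :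
    bdL V (joinL v x) = joinL v (bdL V x) - sgnL V x +
      augL V x • bas {v} :=
  jn_ext (f := bdL V ∘ₗ joinL v)
    (g := joinL v ∘ₗ bdL V - sgnL V + (augL V).smulRight (bas {v}))
    fun S hS => jn_bd_join_bas S.2 (hx S hS)

theorem jn_aug_join (v : V) (x : Face V →₀ ℤ) : augL V (joinL v x) = 0 := by
  refine jn_ext (f := augL V ∘ₗ joinL v) (g := 0) fun S _ => ?_
  have := S.2.card_pos
  rw [LinearMap.comp_apply, jn_join_bas v S.2]
  split_ifs with h
  · simp
  · rw [aug_bas, Finset.card_insert_of_notMem h, if_neg (by omega)]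
    rfl

theorem jn_aug_sgn (x : Face V →₀ ℤ) : augL V (sgnL V x) = augL V x :=
  aug_sgn (K := simplexADC V) x

theorem aug_bdL (x : Face V →₀ ℤ) : augL V (bdL V x) = 0 := by
  refine jn_ext (f := augL V ∘ₗ bdL V) (g := 0) fun S _ => ?_
  change augL V (bdL V (bas S.1)) = 0
  induction S.1 using Finset.induction_on_max with
  | empty => simp [jn_bas_empty]
  | insert v T h _ =>
    rcases T.eq_empty_or_nonempty with rfl | k
    · simp [jn_bd_single]
    · have hv : v ∉ T := fun l => lt_irrefl v (h v l)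
      rw [jn_join_not hv, if_neg k.card_pos.ne', add_zero, jn_bd_join_bas k fun i hi => (h i hi).le,
        map_add, map_sub, jn_aug_join, jn_aug_sgn, map_smul, aug_bas {v}]
      simp

theorem bdL_bdL (x : Face V →₀ ℤ) : bdL V (bdL V x) = 0 := by
  refine jn_ext (f := bdL V ∘ₗ bdL V) (g := 0) fun S _ => ?_
  change bdL V (bdL V (bas S.1)) = 0
  induction S.1 using Finset.induction_on_max with
  | empty => simp [jn_bas_empty]
  | insert v T h ih =>
    rcases T.eq_empty_or_nonempty with rfl | k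
    · simp [jn_bd_single]
    · have hv : v ∉ T := fun l => lt_irrefl v (h v l)
      have e : bdL V (sgnL V (bas T)) = -sgnL V (bdL V (bas T)) := bd_sgn (K := simplexADC V) _
      rw [jn_join_not hv, if_neg k.card_pos.ne', add_zero, jn_bd_join_bas k fun i hi => (h i hi).le,
        map_add, map_sub, bd_joinL (jn_chIn_bd fun i hi => (h i hi).le), ih, aug_bdL, e, map_smul,
        jn_bd_single]
      simp

theorem pushL_joinL (f : V → W) (v : V) (x : Face V →₀ ℤ) :
    pushL f (joinL v x) = joinL (f v) (pushL f x) := by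
  refine jn_ext (f := pushL f ∘ₗ joinL v) (g := joinL (f v) ∘ₗ pushL f) fun S _ => ?_
  rw [LinearMap.comp_apply, LinearMap.comp_apply, jn_join_bas v S.2, pushL_bas, pushF]
  by_cases hv : v ∈ S.1
  · rw [if_pos hv, map_zero]
    split_ifs
    · exact (jn_join_mem (Finset.mem_image_of_mem f hv)).symm
    · exact (map_zero _).symm
  · have e : Set.InjOn f (insert v S.1 : Finset V) ↔ Set.InjOn f S.1 ∧ f v ∉ S.1.image f := by
      rw [Finset.coe_insert, Set.injOn_insert hv, ← Finset.mem_coe, Finset.coe_image]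
    rw [if_neg hv, pushL_bas, pushF, Finset.image_insert]
    by_cases h : Set.InjOn f S.1
    · rw [if_pos h, jn_join_bas _ (S.2.image f)]
      by_cases k : f v ∈ S.1.image f
      · rw [if_pos k, if_neg fun l => (e.1 l).2 k]
      · rw [if_neg k, if_pos (e.2 ⟨h, k⟩)]
    · rw [if_neg h, map_zero, if_neg fun l => h (e.1 l).1]

theorem joinL_sgn (v : V) (x : Face V →₀ ℤ) :
    joinL v (sgnL V x) = -sgnL V (joinL v x) := by
  refine jn_ext (f := joinL v ∘ₗ sgnL V) (g := -(sgnL V ∘ₗ joinL v)) fun S _ => ?_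
  have := S.2.card_pos
  rw [LinearMap.neg_apply, LinearMap.comp_apply, LinearMap.comp_apply, sgn_bas, map_smul,
    jn_join_bas v S.2]
  split_ifs with h
  · simp
  · rw [sgn_bas, Finset.card_insert_of_notMem h, show S.1.card + 1 - 1 = S.1.card - 1 + 1 by omega,
      pow_succ, mul_neg_one, neg_smul, neg_neg]

/-- The projection onto the chains on the vertices with `t = false`. -/
def lowL (t : V →o Bool) : (Face V →₀ ℤ) →ₗ[ℤ] (Face V →₀ ℤ) :=
  linearCombination ℤ fun S => if ∀ i ∈ S.1, t i = false then single S 1 else 0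

/-- The faces whose last vertex is the only one with `t = true` go to their front face. -/
def capL (t : V →o Bool) : (Face V →₀ ℤ) →ₗ[ℤ] (Face V →₀ ℤ) :=
  linearCombination ℤ fun S =>
    if t (S.1.max' S.2) = true then lowL t (bas (S.1.erase (S.1.max' S.2))) else 0

theorem jn_low_bas (t : V →o Bool) (S : Finset V) :
    lowL t (bas S) = if ∀ i ∈ S, t i = false then bas S else 0 := by
  rcases S.eq_empty_or_nonempty with rfl | h
  · simp [jn_bas_empty]
  · rw [bas_of_nonempty h]
    exact (linearCombination_single _ _ _).trans (one_smul _ _)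

theorem jn_cap_bas (t : V →o Bool) {S : Finset V} (h : S.Nonempty) :
    capL t (bas S) = if t (S.max' h) = true then lowL t (bas (S.erase (S.max' h))) else 0 := by
  rw [bas_of_nonempty h]
  exact (linearCombination_single _ _ _).trans (one_smul _ _)

theorem jn_low_iff (t : V →o Bool) {S : Finset V} (h : S.Nonempty) :
    (∀ i ∈ S, t i = false) ↔ ¬t (S.max' h) = true := by
  refine ⟨fun k => by simp [k _ (S.max'_mem h)], fun k i hi => ?_⟩
  have := t.mono (S.le_max' i hi)
  rw [Bool.not_eq_true] at k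
  rw [k] at this
  exact le_bot_iff.1 this

theorem lowL_bd (t : V →o Bool) (x : Face V →₀ ℤ) :
    lowL t (bdL V x) - bdL V (lowL t x) = capL t (sgnL V x) := by
  refine jn_ext (f := lowL t ∘ₗ bdL V - bdL V ∘ₗ lowL t) (g := capL t ∘ₗ sgnL V) fun S _ => ?_
  change lowL t (bdL V (bas S.1)) - bdL V (lowL t (bas S.1)) = capL t (sgnL V (bas S.1))
  rw [sgn_bas, map_smul, jn_cap_bas t S.2, jn_low_bas t S.1]
  by_cases h : t (S.1.max' S.2) = true
  · rw [if_pos h, if_neg fun k => (jn_low_iff t S.2).1 k h, map_zero, sub_zero, bd_bas, map_sum,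
      Finset.sum_eq_single_of_mem _ (S.1.max'_mem S.2) fun i _ hi => by
        rw [map_smul, jn_low_bas, if_neg fun k => by
          simp [k _ (Finset.mem_erase.2 ⟨hi.symm, S.1.max'_mem S.2⟩)] at h, smul_zero],
      map_smul, jn_card_lt (S.1.max'_mem S.2) S.1.le_max']
  · have k := (jn_low_iff t S.2).2 h
    rw [if_neg h, if_pos k, smul_zero, sub_eq_zero, bd_bas, map_sum]
    exact Finset.sum_congr rfl fun i _ => by
      rw [map_smul, jn_low_bas, if_pos fun j hj => k j (Finset.mem_of_mem_erase hj)]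

theorem lowL_nat (θ : W →o V) (t : V →o Bool) (x : Face W →₀ ℤ) :
    pushL θ (lowL (t.comp θ) x) = lowL t (pushL θ x) := by
  refine jn_ext (f := pushL θ ∘ₗ lowL (t.comp θ)) (g := lowL t ∘ₗ pushL θ) fun S _ => ?_
  rw [LinearMap.comp_apply, LinearMap.comp_apply, jn_low_bas, pushL_bas, apply_ite (pushL θ),
    pushL_bas, map_zero, pushF]
  by_cases h : Set.InjOn θ S.1
  · rw [if_pos h, jn_low_bas]
    exact if_congr (by simp) rfl rfl
  · simp [h]

theorem jn_push_sgn (θ : V →o W) (x : Face V →₀ ℤ) : pushL θ (sgnL V x) = sgnL W (pushL θ x) :=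
  (simplexMap θ).map_sgn x

theorem jn_sgn_sgn (x : Face V →₀ ℤ) : sgnL V (sgnL V x) = x := sgn_sgn (K := simplexADC V) x

theorem jn_bd_sgn (x : Face V →₀ ℤ) : bdL V (sgnL V x) = -sgnL V (bdL V x) :=
  bd_sgn (K := simplexADC V) x

theorem jn_low_sgn (t : V →o Bool) (x : Face V →₀ ℤ) : lowL t (sgnL V x) = sgnL V (lowL t x) := by
  refine jn_ext (f := lowL t ∘ₗ sgnL V) (g := sgnL V ∘ₗ lowL t) fun S _ => ?_
  rw [LinearMap.comp_apply, LinearMap.comp_apply, sgn_bas, map_smul, jn_low_bas]
  split_ifs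
  · rw [sgn_bas]
  · simp

theorem jn_cap_eq (t : V →o Bool) (x : Face V →₀ ℤ) :
    capL t x = lowL t (bdL V (sgnL V x)) - bdL V (lowL t (sgnL V x)) := by
  rw [lowL_bd, jn_sgn_sgn]

theorem jn_cap_sgn (t : V →o Bool) (x : Face V →₀ ℤ) :
    sgnL V (capL t x) = bdL V (lowL t x) - lowL t (bdL V x) := by
  rw [jn_cap_eq, jn_low_sgn, jn_bd_sgn, jn_bd_sgn, map_neg, jn_low_sgn, map_sub, map_neg, map_neg,
    jn_sgn_sgn, jn_sgn_sgn]
  abel

theorem jn_cap_bd (t : V →o Bool) (x : Face V →₀ ℤ) : bdL V (capL t x) = capL t (bdL V x) := by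
  rw [jn_cap_eq, jn_cap_eq, map_sub, bdL_bdL, jn_bd_sgn (bdL V x), bdL_bdL, jn_bd_sgn x]
  simp

theorem capL_nat (θ : W →o V) (t : V →o Bool) (x : Face W →₀ ℤ) :
    pushL θ (capL (t.comp θ) x) = capL t (pushL θ x) := by
  rw [jn_cap_eq, jn_cap_eq, map_sub, lowL_nat, ← pushL_bd, ← pushL_bd, lowL_nat, jn_push_sgn]

theorem jn_low_nonneg (t : V →o Bool) (S : Finset V) : 0 ≤ lowL t (bas S) := by
  rw [jn_low_bas]
  split_ifs
  exacts [bas_nonneg S, le_rfl]

theorem jn_high_bas (t : V →o Bool) (S : Finset V) :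
    bas S - lowL t (bas S) = if ∀ i ∈ S, t i = false then 0 else bas S := by
  rw [jn_low_bas]
  split_ifs
  exacts [sub_self _, sub_zero _]

theorem jn_low_ne {t : V →o Bool} {S : Finset V} {T : Face V} (h : lowL t (bas S) T ≠ 0) :
    T.1 = S := by
  rw [jn_low_bas] at h
  split_ifs at h
  exacts [bas_ne h, absurd rfl h]

theorem jn_tens_nonneg {B : Type} (o : Option Bool) {x : B →₀ ℤ} (h : 0 ≤ x) : 0 ≤ tens o x := by
  rintro ⟨c, o'⟩
  rw [tens_apply]
  split_ifs
  exacts [h c, le_rfl]

/-- The linear map underlying the Alexander-Whitney map. -/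
def jnAw (t : V →o Bool) : (Face V →₀ ℤ) →ₗ[ℤ] (Face V × Option Bool →₀ ℤ) :=
  tens (some false) ∘ₗ lowL t + tens (some true) ∘ₗ (LinearMap.id - lowL t) + tens none ∘ₗ capL t

theorem jnAw_apply (t : V →o Bool) (x : Face V →₀ ℤ) : jnAw t x =
    tens (some false) (lowL t x) + tens (some true) (x - lowL t x) + tens none (capL t x) := by
  simp only [jnAw, LinearMap.add_apply, LinearMap.comp_apply, LinearMap.sub_apply,
    LinearMap.id_apply]

theorem jnAw_pos (t : V →o Bool) (S : Face V) : 0 ≤ jnAw t (single S 1) := by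
  rw [jnAw_apply, jn_single, jn_high_bas, jn_cap_bas t S.2]
  refine add_nonneg (add_nonneg (jn_tens_nonneg _ (jn_low_nonneg t _)) (jn_tens_nonneg _ ?_))
    (jn_tens_nonneg _ ?_) <;> split_ifs
  exacts [le_rfl, bas_nonneg _, jn_low_nonneg t _, le_rfl]

theorem jnAw_dim (t : V →o Bool) (S T : Face V) (o : Option Bool)
    (h : jnAw t (single S 1) (T, o) ≠ 0) :
    T.1.card - 1 + (if o = none then 1 else 0) = S.1.card - 1 := by
  rw [jnAw_apply, jn_single, jn_high_bas, jn_cap_bas t S.2, Finsupp.add_apply, Finsupp.add_apply, tens_apply,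
    tens_apply, tens_apply] at h
  rcases o with _ | _ | _
  · simp only [reduceCtorEq, if_false, if_true, zero_add] at h ⊢
    split_ifs at h
    · have := T.2.card_pos
      rw [jn_low_ne h, Finset.card_erase_of_mem (S.1.max'_mem S.2)] at *
      omega
    · exact absurd rfl h
  · simp only [reduceCtorEq, if_false, if_true, add_zero, Option.some.injEq] at h ⊢
    rw [jn_low_ne h]
  · simp only [reduceCtorEq, if_false, if_true, add_zero, zero_add, Option.some.injEq] at h ⊢
    split_ifs at h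
    · exact absurd rfl h
    · rw [bas_ne h]

/-- The boundary of the cylinder on a simplex. -/
abbrev jnCbd (V : Type) [LinearOrder V] :
    (Face V × Option Bool →₀ ℤ) →ₗ[ℤ] (Face V × Option Bool →₀ ℤ) := (simplexADC V).cyl.bd

/-- The augmentation of the cylinder on a simplex. -/
abbrev jnCaug (V : Type) [LinearOrder V] : (Face V × Option Bool →₀ ℤ) →ₗ[ℤ] ℤ :=
  (simplexADC V).cyl.aug

theorem jnAw_bd (t : V →o Bool) (x : Face V →₀ ℤ) : jnCbd V (jnAw t x) = jnAw t (bdL V x) := by
  have e1 : ∀ e (y : Face V →₀ ℤ), jnCbd V (tens (some e) y) = tens (some e) (bdL V y) :=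
    cyl_bd_some (K := simplexADC V)
  have e2 : ∀ y : Face V →₀ ℤ, jnCbd V (tens none y) = tens none (bdL V y) +
      (tens (some true) (sgnL V y) - tens (some false) (sgnL V y)) :=
    cyl_bd_none (K := simplexADC V)
  rw [jnAw_apply, jnAw_apply, map_add, map_add, e1, e1, e2, jn_cap_bd, jn_cap_sgn]
  simp only [map_sub]
  abel

theorem jnAw_aug (t : V →o Bool) (x : Face V →₀ ℤ) : jnCaug V (jnAw t x) = augL V x := by
  have e : ∀ o (y : Face V →₀ ℤ), jnCaug V (tens o y) = if o = none then 0 else augL V y :=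
    cyl_aug (K := simplexADC V)
  rw [jnAw_apply, map_add, map_add, e, e, e]
  simp

/-- The Alexander-Whitney map attached to a simplex of the interval. -/
def aw (t : V →o Bool) : (simplexADC V).Hom (simplexADC V).cyl where
  f := tens (some false) ∘ₗ lowL t + tens (some true) ∘ₗ (LinearMap.id - lowL t) +
    tens none ∘ₗ capL t
  pos := jnAw_pos t
  dim S p := jnAw_dim t S p.1 p.2
  bd := jnAw_bd t
  aug := jnAw_aug t

theorem aw_nat (θ : W →o V) (t : V →o Bool) :
    (simplexMap θ).comp (aw t) = (aw (t.comp θ)).comp (simplexMap θ).cyl := by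
  refine ADC.Hom.ext (LinearMap.ext fun x => ?_)
  obtain ⟨F, hF⟩ : ∃ F : (Face W × Option Bool →₀ ℤ) →ₗ[ℤ] (Face V × Option Bool →₀ ℤ),
      F = (simplexMap θ).cyl.f := ⟨_, rfl⟩
  have e : ∀ o (y : Face W →₀ ℤ), F (tens o y) = tens o (pushL θ y) :=
    hF ▸ (simplexMap θ).cyl_tens
  have k : ∀ y : Face W →₀ ℤ, jnAw t (pushL θ y) = F (jnAw (t.comp θ) y) := fun y => by
    rw [jnAw_apply, jnAw_apply, map_add, map_add, e, e, e, map_sub (pushL θ), lowL_nat, capL_nat]
  subst hF
  exact k x

theorem jn_low_false {t : V →o Bool} (h : ∀ i, t i = false) (x : Face V →₀ ℤ) : lowL t x = x :=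
  jn_ext (g := LinearMap.id) fun S _ => by rw [jn_low_bas, if_pos fun i _ => h i]; rfl

theorem jn_low_true {t : V →o Bool} (h : ∀ i, t i = true) (x : Face V →₀ ℤ) : lowL t x = 0 :=
  jn_ext (g := 0) fun S _ => by
    rw [jn_low_bas, if_neg fun k => (jn_low_iff t S.2).1 k (h _)]; rfl

theorem aw_const (t : V →o Bool) (e : Bool) (h : ∀ i, t i = e) :
    aw t = (simplexADC V).inc e := by
  refine ADC.Hom.ext (LinearMap.ext fun x => ?_)
  have k : ∀ y : Face V →₀ ℤ, jnAw t y = tens (some e) y := fun y => by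
    rw [jnAw_apply, jn_cap_eq]
    cases e
    · simp [jn_low_false h]
    · simp [jn_low_true h]
  exact k x

/-- The map that sends the vertices with `t = true` to the top. -/
def kap [OrderTop W] (δ : V →o W) (t : V →o Bool) : V →o W :=
  ⟨fun i => if t i = true then ⊤ else δ i, fun i j h => by
    by_cases hj : t j = true
    · simp [hj]
    · have hi : ¬t i = true := fun k => hj (top_le_iff.1 (k.ge.trans (t.mono h)))
      simp only [if_neg hi, if_neg hj]
      exact δ.mono h⟩

theorem jn_kap [OrderTop W] (δ : V →o W) (t : V →o Bool) (i : V) :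
    kap δ t i = if t i = true then ⊤ else δ i := rfl

theorem jn_push_kap_low [OrderTop W] (δ : V →o W) (t : V →o Bool) {S : Finset V}
    (h : ∀ i ∈ S, t i = false) : pushL (kap δ t) (bas S) = pushL δ (bas S) :=
  pushL_congr (U := S) (jn_chIn_bas fun _ hi => hi) fun i hi => by simp [jn_kap, h i hi]

theorem jn_join_kap [OrderTop W] (δ : V →o W) (t : V →o Bool) (S : Finset V) :
    joinL ⊤ (pushL (kap δ t) (bas S)) = joinL ⊤ (pushL δ (lowL t (bas S))) := by
  rw [jn_low_bas]
  split_ifs with h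
  · rw [jn_push_kap_low δ t h]
  · push Not at h
    obtain ⟨i, hi, k⟩ := h
    rw [map_zero, map_zero, pushL_bas, pushF]
    split_ifs
    · exact jn_join_mem (Finset.mem_image.2 ⟨i, hi, by simp [jn_kap, k]⟩)
    · exact map_zero _

theorem jn_push_kap [OrderTop W] (δ : V →o W) (t : V →o Bool) (x : Face V →₀ ℤ) :
    pushL (kap δ t) x = joinL ⊤ (pushL δ (capL t x)) + pushL δ (lowL t x) +
      augL V (x - lowL t x) • bas {⊤} := by
  refine jn_ext (g := joinL ⊤ ∘ₗ pushL δ ∘ₗ capL t + pushL δ ∘ₗ lowL t +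
    (augL V ∘ₗ (LinearMap.id - lowL t)).smulRight (bas {⊤})) fun S _ => ?_
  change _ = joinL ⊤ (pushL δ (capL t (bas S.1))) + pushL δ (lowL t (bas S.1)) +
      augL V (bas S.1 - lowL t (bas S.1)) • bas {⊤}
  rw [jn_cap_bas t S.2, jn_low_bas t S.1]
  by_cases h : t (S.1.max' S.2) = true
  · have hm := S.1.max'_mem S.2
    have hk : kap δ t (S.1.max' S.2) = ⊤ := by rw [jn_kap, if_pos h]
    have e := jn_join_not (Finset.notMem_erase (S.1.max' S.2) S.1)
    have := S.2.card_pos
    rw [Finset.insert_erase hm, Finset.card_erase_of_mem hm] at e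
    rw [if_pos h, if_neg fun k => (jn_low_iff t S.2).1 k h, map_zero, add_zero, sub_zero, aug_bas,
      ← jn_join_kap, ← hk, ← pushL_joinL]
    conv_lhs => rw [e, map_add]
    congr 1
    by_cases k : S.1.card = 1
    · rw [if_pos (by omega), if_pos k, pushL_bas, pushF, if_pos (by simp), one_smul,
        Finset.image_singleton]
    · rw [if_neg (by omega), if_neg k, map_zero, zero_smul]
  · have k := (jn_low_iff t S.2).2 h
    rw [if_neg h, if_pos k, jn_push_kap_low δ t k]
    simp

theorem jn_join_nonneg (v : V) {x : Face V →₀ ℤ} (h : 0 ≤ x) : 0 ≤ joinL v x := by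
  rw [jn_sum x, map_sum]
  refine Finset.sum_nonneg fun S _ => ?_
  rw [map_smul, jn_join_bas v S.2]
  refine smul_nonneg (h S) ?_
  split_ifs
  exacts [le_rfl, bas_nonneg _]

/-- The chain homotopy underlying `hmo`. -/
def jnH [OrderTop W] (δ : V →o W) (t : V →o Bool) : (Face V →₀ ℤ) →ₗ[ℤ] (Face W →₀ ℤ) :=
  joinL ⊤ ∘ₗ pushL δ ∘ₗ (LinearMap.id - lowL t)

theorem jnH_apply [OrderTop W] (δ : V →o W) (t : V →o Bool) (x : Face V →₀ ℤ) :
    jnH δ t x = joinL ⊤ (pushL δ (x - lowL t x)) := by
  simp only [jnH, LinearMap.comp_apply, LinearMap.sub_apply, LinearMap.id_apply]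

theorem jnH_pos [OrderTop W] (δ : V →o W) (t : V →o Bool) (S : Face V) :
    0 ≤ jnH δ t (single S 1) := by
  rw [jnH_apply]
  refine jn_join_nonneg _ ((simplexMap δ).nonneg (x := single S 1 - lowL t (single S 1)) ?_)
  change (0 : Face V →₀ ℤ) ≤ _
  rw [jn_single, jn_high_bas]
  split_ifs
  exacts [le_rfl, bas_nonneg _]

theorem jnH_dim [OrderTop W] (δ : V →o W) (t : V →o Bool) (S : Face V) (T : Face W)
    (h : jnH δ t (single S 1) T ≠ 0) : T.1.card - 1 = S.1.card - 1 + 1 := by
  have := S.2.card_pos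
  rw [jnH_apply, jn_single, jn_high_bas] at h
  split_ifs at h
  · simp at h
  · rw [pushL_bas, pushF] at h
    split_ifs at h with k
    · rw [jn_join_bas _ (S.2.image δ)] at h
      split_ifs at h with l
      · exact absurd rfl h
      · rw [bas_ne h, Finset.card_insert_of_notMem l, Finset.card_image_of_injOn k]
        omega
    · simp at h

theorem jnH_bd [OrderTop W] (δ : V →o W) (t : V →o Bool) (x : Face V →₀ ℤ) :
    bdL W (jnH δ t x) = jnH δ t (bdL V x) + (pushL (kap δ t) (sgnL V x) - pushL δ (sgnL V x)) := by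
  have a1 : augL W (pushL δ (x - lowL t x)) = augL V (sgnL V x - lowL t (sgnL V x)) := by
    rw [jn_low_sgn, ← map_sub, jn_aug_sgn]
    exact pushL_aug _ _
  rw [jnH_apply, jnH_apply, bd_joinL fun _ _ _ _ => le_top, jn_push_kap, a1, pushL_bd, ← lowL_bd,
    ← jn_push_sgn, jn_low_sgn]
  simp only [map_sub]
  abel

/-- The positive chain homotopy from `δ` to `kap δ t`. -/
def hmo [OrderTop W] (δ : V →o W) (t : V →o Bool) : (simplexADC V).cyl.Hom (simplexADC W) :=
  Hom.ofCyl (simplexMap δ) (simplexMap (kap δ t))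
    (joinL ⊤ ∘ₗ pushL δ ∘ₗ (LinearMap.id - lowL t)) (jnH_pos δ t) (jnH_dim δ t) (jnH_bd δ t)

theorem jn_hmo_none [OrderTop W] (δ : V →o W) (t : V →o Bool) (x : Face V →₀ ℤ) :
    (hmo δ t).f (tens none x) = joinL ⊤ (pushL δ (x - lowL t x)) :=
  (ofCyl_none (simplexMap δ) (simplexMap (kap δ t)) (jnH δ t) (jnH_pos δ t) (jnH_dim δ t)
    (jnH_bd δ t) x).trans (jnH_apply δ t x)

theorem inc_hmo [OrderTop W] (δ : V →o W) (t : V →o Bool) (e : Bool) :
    ((simplexADC V).inc e).comp (hmo δ t) = simplexMap (if e then kap δ t else δ) := by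
  rw [hmo, inc_ofCyl]
  cases e <;> rfl

theorem hmo_low [OrderTop W] (δ : V →o W) (t : V →o Bool) (h : ∀ i, t i = false) :
    hmo δ t = (simplexADC V).proj.comp (simplexMap δ) := by
  refine Hom.cyl_ext (fun e => ?_) fun x => ?_
  · have : kap δ t = δ := OrderHom.ext _ _ (funext fun i => by simp [jn_kap, h i])
    rw [inc_hmo, ← Hom.comp_assoc, inc_proj, this, ite_self]
    rfl
  · have : (simplexADC V).proj.f (tens none x) = 0 := ofCyl_none _ _ _ _ _ _ x
    change _ = pushL δ ((simplexADC V).proj.f (tens none x))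
    rw [jn_hmo_none, jn_low_false h, this]
    simp

theorem hmo_pre [OrderTop W] (θ : W' →o V) (δ : V →o W) (t : V →o Bool) :
    (simplexMap θ).cyl.comp (hmo δ t) = hmo (δ.comp θ) (t.comp θ) := by
  refine Hom.cyl_ext (fun e => ?_) fun x => ?_
  · rw [inc_hmo, ← Hom.comp_assoc, Hom.inc_cyl, Hom.comp_assoc, inc_hmo, simplexMap_comp]
    cases e <;> rfl
  · change (hmo δ t).f ((simplexMap θ).cyl.f (tens none x)) = _
    rw [Hom.cyl_tens, jn_hmo_none, jn_hmo_none]
    change joinL ⊤ (pushL δ (pushL θ x - lowL t (pushL θ x))) = joinL ⊤ (pushL (δ ∘ θ) _)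
    rw [pushL_comp, map_sub (pushL θ), lowL_nat]

theorem hmo_post [OrderTop W] [OrderTop W'] (δ : V →o W) (t : V →o Bool) (f : W →o W')
    (hf : f ⊤ = ⊤) : (hmo δ t).comp (simplexMap f) = hmo (f.comp δ) t := by
  refine Hom.cyl_ext (fun e => ?_) fun x => ?_
  · have : f.comp (kap δ t) = kap (f.comp δ) t := OrderHom.ext _ _ (funext fun i => by
      simp only [OrderHom.comp_coe, Function.comp, jn_kap, apply_ite f, hf])
    rw [inc_hmo, ← Hom.comp_assoc, inc_hmo, simplexMap_comp]
    cases e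
    · rfl
    · exact congrArg simplexMap this
  · change pushL f ((hmo δ t).f (tens none x)) = _
    rw [jn_hmo_none, jn_hmo_none, pushL_joinL, hf]
    exact congrArg _ (pushL_comp δ f _).symm

end Vale.Agent.P213
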