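import Vale.Agent.P213.KSd

/-! Kan's lemmas on `Ex`. -/

open CategoryTheory Limits Opposite Simplicial MonoidalCategory SSet

set_option backward.isDefEq.respectTransparency false

noncomputable section

namespace Vale.Agent.P213

open CartesianMonoidalCategory

theorem ke_anodyne {X : SSet.{0}} {C D : X.Subcomplex} (h : C ≤ D)
    (ha : anodyneExtensions (C.preimage D.ι).ι) : anodyneExtensions (Subcomplex.homOfLE h) := by
  let e : (C : SSet.{0}) ≅ C.preimage D.ι :=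
    { hom := Subcomplex.lift (Subcomplex.homOfLE h) (by rintro n _ ⟨x, rfl⟩; exact x.2)
      inv := Subcomplex.lift ((C.preimage D.ι).ι ≫ D.ι) (by rintro n _ ⟨x, rfl⟩; exact x.2)
      hom_inv_id := rfl
      inv_hom_id := rfl }
  have := e.isIso_hom
  exact anodyneExtensions.comp_mem e.hom _ (.of_isIso _) ha

/-- Faces of the horn. -/
def hornA {n : ℕ} (k : Fin (n + 1)) : Set (Ch (Fm n)) :=
  {c | ∃ j : Fin (n + 1), j ≠ k ∧ ULift.up j ∉ c.finset}

theorem chs_horn {n : ℕ} (k : Fin (n + 1)) :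
    chs (Subcomplex.range (Λ[n, k].ι ≫ (stdSimplex.isoNerve.{0} n).hom)) = hornA k := by
  ext c
  constructor
  · rintro ⟨m, _, ⟨x, rfl⟩, h⟩
    obtain ⟨j, hj, hx⟩ := (mem_horn_iff_notMem_range x.1 k).1 x.2
    refine ⟨j, hj, fun hc => ?_⟩
    obtain ⟨i, hi⟩ := h _ hc
    exact hx ⟨i, congrArg ULift.down hi⟩
  · rintro ⟨j, hj, hc⟩
    obtain ⟨m, σ, hσ⟩ := exists_enum c
    refine ⟨m, _, ⟨⟨stdSimplex.objMk ⟨fun i => (σ i).down, σ.monotone⟩,
      (mem_horn_iff_notMem_range _ k).2 ⟨j, hj, ?_⟩⟩, rfl⟩, fun x hx => (hσ x).1 hx⟩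
    rintro ⟨i, rfl⟩
    exact hc ((hσ _).2 ⟨i, rfl⟩)

theorem sd_horn {n : ℕ} (k : Fin (n + 1)) :
    ∃ e : sd.obj Λ[n, k] ≅ (nsub (hornA k) : SSet.{0}), e.hom ≫ (nsub _).ι =
      sd.map Λ[n, k].ι ≫ sd.map (stdSimplex.isoNerve n).hom ≫ gam (Fm n) := by
  rw [← chs_horn]
  exact sd_arrow _ _

open Classical in
/-- The image of a face under an arbitrary map of vertices. -/
def img {P : Type} [PartialOrder P] {n : ℕ} (u : P → Fm n) : Ch P →o Ch (Fm n) :=
  ⟨fun c => ⟨c.finset.image u, c.nonempty.image u, fun a b => le_total a.1.down b.1.down⟩,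
    fun _ _ h => Finset.image_subset_image h⟩

theorem mem_img {P : Type} [PartialOrder P] {n : ℕ} (u : P → Fm n) (c : Ch P) (y : Fm n) :
    y ∈ (img u c).finset ↔ ∃ x ∈ c.finset, u x = y := by
  simp [img]

theorem img_eq {P : Type} [PartialOrder P] {n : ℕ} (φ : P →o Fm n) : img φ = chMap φ := by
  ext c x
  simp [mem_img]

theorem img_comp {P Q : Type} [PartialOrder P] [PartialOrder Q] {n : ℕ} (φ : P →o Q)
    (u : Q → Fm n) : img (u ∘ φ) = (img u).comp (chMap φ) := by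
  ext c x
  simp [mem_img]

open Classical in
/-- Adding a vertex to a face. -/
def ins {n : ℕ} (k : Fm n) : Ch (Fm n) →o Ch (Fm n) :=
  ⟨fun c => ⟨insert k c.finset, Finset.insert_nonempty _ _, fun a b => le_total a.1.down b.1.down⟩,
    fun _ _ h => Finset.insert_subset_insert _ h⟩

theorem mem_ins {n : ℕ} (k : Fm n) (c : Ch (Fm n)) (y : Fm n) :
    y ∈ (ins k c).finset ↔ y = k ∨ y ∈ c.finset := by
  simp [ins]

theorem anodyne_hornA (n : ℕ) (k : Fin (n + 2)) : anodyneExtensions (nsub (hornA k)).ι := by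
  let D : Set (Ch (Fm (n + 1))) := {c | ULift.up k ∈ c.finset}
  have h2 : anodyneExtensions (nsub (hornA k) ⊔ nsub D).ι := by
    obtain ⟨H, H0, H1, hH⟩ := exists_htpy_nmap (φ := OrderHom.id) (ψ := ins (ULift.up k))
      fun c x hx => (mem_ins _ _ _).2 (Or.inr hx)
    refine anodyne_of_htpy₀ _ H H0 ?_ ?_
    · rw [H1]
      rintro m _ ⟨σ, rfl⟩
      exact Or.inr fun i => (mem_ins _ _ _).2 (Or.inl rfl)
    · rintro ⟨⟨m⟩⟩ _ ⟨⟨⟨σ, hσ | hσ⟩, t⟩, rfl⟩
      · refine Or.inl fun i => Set.mem_of_eq_of_mem (hH m σ t i) ?_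
        split_ifs
        · exact hσ i
        · obtain ⟨j, hj, h⟩ := hσ i
          exact ⟨j, hj, fun l => ((mem_ins _ _ _).1 l).elim (fun e => hj (congrArg ULift.down e)) h⟩
      · refine Or.inr fun i => Set.mem_of_eq_of_mem (hH m σ t i) ?_
        split_ifs
        · exact hσ i
        · exact (mem_ins _ _ _).2 (Or.inl rfl)
  let c₀ : D := ⟨⟨{ULift.up k}, Finset.singleton_nonempty _,
    fun a b => le_total a.1.down b.1.down⟩, Finset.mem_singleton_self _⟩
  have hc₀ : c₀.1 ∈ hornA k := by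
    obtain ⟨j, hj⟩ := exists_ne k
    exact ⟨j, hj, fun l => hj (congrArg ULift.down (Finset.mem_singleton.1 l))⟩
  have h1 : anodyneExtensions ((nsub (hornA k) ⊓ nsub D).preimage (nsub D).ι).ι := by
    obtain ⟨H, H0, H1, hH⟩ := exists_htpy_nmap (φ := OrderHom.const D c₀) (ψ := OrderHom.id)
      fun c => Finset.singleton_subset_iff.2 c.2
    refine anodyne_of_htpy₁ _ ((khSubIso D).hom ▷ Δ[1] ≫ H ≫ (khSubIso D).inv) ?_ ?_ ?_
    · rw [ι₁_comp_assoc, reassoc_of% H1]
      exact (khSubIso D).hom_inv_id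
    · rw [ι₀_comp_assoc, reassoc_of% H0]
      rintro m _ ⟨σ, rfl⟩
      exact ⟨fun _ => hc₀, fun _ => c₀.2⟩
    · rintro ⟨⟨m⟩⟩ _ ⟨⟨⟨σ, hσ⟩, t⟩, rfl⟩
      refine ⟨fun i => Set.mem_of_eq_of_mem
        (congrArg Subtype.val (hH m ((khSubIso D).hom.app _ σ) t i)) ?_,
        fun i => ((H.app _ ((khSubIso D).hom.app _ σ, t)).obj i).2⟩
      split_ifs
      · exact hc₀
      · exact hσ.1 i
  have sq : Subcomplex.BicartSq (nsub (hornA k) ⊓ nsub D) (nsub (hornA k)) (nsub D)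
    (nsub (hornA k) ⊔ nsub D) := ⟨rfl, rfl⟩
  exact anodyneExtensions.comp_mem (Subcomplex.homOfLE le_sup_left) _
    (MorphismProperty.of_isPushout sq.isPushout (ke_anodyne _ h1)) h2

theorem anodyne_sd_horn (n : ℕ) (k : Fin (n + 2)) :
    anodyneExtensions (sd.map (Λ[n + 1, k].ι : _ ⟶ (Δ[n + 1] : SSet.{0}))) := by
  obtain ⟨e, h⟩ := sd_horn k
  exact (anodyneExtensions.arrow_mk_iso_iff (Arrow.isoMk e
    (sd.mapIso (stdSimplex.isoNerve _) ≪≫ asIso (gam _)) h)).2 (anodyne_hornA n k)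

theorem kanFib_ex {X Y : SSet.{0}} {p : X ⟶ Y} (hp : KanFib p) : KanFib (ex.map p) := by
  intro _ _ _ h
  simp only [modelCategoryQuillen.J, MorphismProperty.iSup_iff] at h
  obtain ⟨n, ⟨k⟩⟩ := h
  exact (sdExAdjunction.hasLiftingProperty_iff _ p).1 (anodyne_sd_horn n k p hp)

open Classical in
/-- The vertex attached to a face in Kan's extension lemma. -/
def kxKap {n : ℕ} (k : Fin (n + 1)) (c : Ch (Fm n)) : Fm n := if c ∈ hornA k then maxC c else ⟨k⟩

theorem img_kap {n q : ℕ} (k : Fin (n + 2)) (c : Fm q →o Ch (Fm (n + 1))) (J : Ch (Fm q)) :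
    img (kxKap k ∘ c) J ∈ hornA k := by
  classical
  by_cases h : (J.finset.filter fun i => c i ∈ hornA k).Nonempty
  · obtain ⟨i, hi, hm⟩ := Finset.exists_max_image _ (fun i : Fm q => i.down) h
    obtain ⟨j, hj, hc⟩ := (Finset.mem_filter.1 hi).2
    refine ⟨j, hj, fun l => ?_⟩
    obtain ⟨x, hx, e⟩ := (mem_img _ _ _).1 l
    by_cases hx' : c x ∈ hornA k
    · rw [Function.comp_apply, kxKap, if_pos hx'] at e
      exact hc (c.monotone (hm x (Finset.mem_filter.2 ⟨hx, hx'⟩)) (e ▸ (maxC_spec (c x)).1))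
    · rw [Function.comp_apply, kxKap, if_neg hx'] at e
      exact hj (congrArg ULift.down e).symm
  · obtain ⟨j, hj⟩ := exists_ne k
    refine ⟨j, hj, fun l => ?_⟩
    obtain ⟨x, hx, e⟩ := (mem_img _ _ _).1 l
    rw [Function.comp_apply, kxKap, if_neg fun hx' => h ⟨x, Finset.mem_filter.2 ⟨hx, hx'⟩⟩] at e
    exact hj (congrArg ULift.down e).symm

/-- The map to the subdivided horn attached to a chain of faces. -/
def kxKapMap {n q : ℕ} (k : Fin (n + 2)) (c : (nerve (Ch (Fm (n + 1)))) _⦋q⦌) :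
    nerve (Ch (Fm q)) ⟶ (nsub (hornA k) : SSet.{0}) :=
  Subcomplex.lift (nmap (img (kxKap k ∘ simplexHom c))) (by
    rintro m _ ⟨σ, rfl⟩ i
    exact img_kap k _ _)

theorem ex_horn {Y : SSet.{0}} {n : ℕ} {k : Fin (n + 2)} (a : (Λ[n + 1, k] : SSet.{0}) ⟶ ex.obj Y) :
    ∃ b : Δ[n + 1] ⟶ ex.obj (ex.obj Y), Λ[n + 1, k].ι ≫ b = a ≫ eta.app (ex.obj Y) := by
  obtain ⟨e, he⟩ := sd_horn k
  let f := e.inv ≫ (sdExAdjunction.homEquiv _ _).symm a
  let g : nerve (Ch (Fm (n + 1))) ⟶ ex.obj Y :=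
    { app q := ↾fun c => ULift.up (kxKapMap (q := q.unop.len) k c ≫ f)
      naturality q q' φ := by
        ext c
        refine congrArg (fun u => ULift.up (u ≫ f)) (?_ : _ =
          nmap (chMap (fm (a := q'.unop.len) (b := q.unop.len) φ.unop)) ≫ kxKapMap k c)
        rw [← cancel_mono (nsub (hornA k)).ι]
        exact congrArg nmap (img_comp (fm (a := q'.unop.len) (b := q.unop.len) φ.unop)
          (kxKap k ∘ simplexHom c)) }
  refine ⟨yonedaEquiv.symm (ULift.up g), ?_⟩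
  ext ⟨⟨m⟩⟩ x
  apply ULift.ext
  change nmap (chMap (fm (stdSimplex.objEquiv x.1))) ≫ g = ell m ≫ yonedaEquiv.symm (a.app _ x)
  ext ⟨⟨q⟩⟩ c
  apply ULift.ext
  let μ : ⦋q⦌ ⟶ ⦋m⦌ := stdSimplex.objEquiv ((ell m).app _ c)
  have h1 : ((ex.obj Y).map μ.op (a.app _ x)).down =
      (sdS ((Λ[n + 1, k] : SSet.{0}).map μ.op x) ≫ e.hom) ≫ f := by
    rw [← NatTrans.naturality_apply, ← sdS_adj]
    simp [f]
  refine Eq.trans (congrArg (· ≫ f) ?_) h1.symm
  rw [← cancel_mono (nsub (hornA k)).ι, Category.assoc, he, sdS_map_assoc, sdS_map_assoc, sdS_gam]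
  refine (congrArg (fun u : Fm q → Fm (n + 1) => nmap (img u)) (funext fun i => ?_)).trans
    (congrArg nmap (img_eq _))
  have hA : chMap (fm (stdSimplex.objEquiv x.1)) (c.obj i.down) ∈ hornA k := by
    obtain ⟨j, hj, hx⟩ := (mem_horn_iff_notMem_range x.1 k).1 x.2
    refine ⟨j, hj, fun l => ?_⟩
    obtain ⟨y, -, hy⟩ := (PartialOrder.NonemptyFiniteChains.mem_map_iff _ _ _).1 l
    exact hx ⟨y.down, congrArg ULift.down hy⟩
  exact (if_pos hA).trans (maxC_chMap _ _)

/-- `Ex` is compatible with products. -/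
def exProd (X T : SSet.{0}) : ex.obj X ⊗ ex.obj T ⟶ ex.obj (X ⊗ T) where
  app m := ↾fun x => ULift.up (lift x.1.down x.2.down)
  naturality _ _ _ := rfl

theorem Htp.ex {X Y : SSet.{0}} {f g : X ⟶ Y} (h : Htp f g) : Htp (ex.map f) (ex.map g) := by
  refine Htp.ind (R := fun f g => Htp (SSet.ex.map f) (SSet.ex.map g))
    ⟨fun _ => Htp.refl _, Htp.symm, Htp.trans⟩ (fun H => ?_) h
  exact Htp.of_map (SSet.ex.obj X ◁ eta.app Δ[1] ≫ exProd X Δ[1] ≫ SSet.ex.map H) rfl rfl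

/-- Switching from a monotone map to a larger one. -/
def iteHom {P Q : Type} [PartialOrder P] [PartialOrder Q] {φ ψ : P →o Q} (h : φ ≤ ψ)
    (s : P →o Fin 2) : P →o Q :=
  ⟨fun x => if s x = 0 then φ x else ψ x, fun x y l => by
    dsimp only
    split_ifs with h1 h2 h2
    · exact φ.monotone l
    · exact (φ.monotone l).trans (h _)
    · exact (h1 (le_antisymm (h2 ▸ s.monotone l) (Fin.zero_le _))).elim
    · exact ψ.monotone l⟩

theorem ke_le {P Q : Type} [PartialOrder P] [PartialOrder Q] (c : P →o Ch Q) :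
    chMap (maxC.comp c) ≤ c.comp maxC := fun J y hy => by
  obtain ⟨x, hx, rfl⟩ := (PartialOrder.NonemptyFiniteChains.mem_map_iff _ _ _).1 hy
  exact c.monotone ((maxC_spec J).2 hx) (maxC_spec (c x)).1

/-- The monotone maps interpolating between the two maps `Ex X ⟶ Ex Ex X`. -/
def psi {P Q : Type} [PartialOrder P] [PartialOrder Q] (t : Q →o Fin 2) (c : P →o Ch Q) :
    Ch P →o Ch Q :=
  iteHom (ke_le c) (t.comp (maxC.comp (c.comp maxC)))

theorem psi_apply {P Q : Type} [PartialOrder P] [PartialOrder Q] (t : Q →o Fin 2) (c : P →o Ch Q)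
    (J : Ch P) : psi t c J =
      if t (maxC (c (maxC J))) = 0 then chMap (maxC.comp c) J else c (maxC J) := rfl

theorem psi_comp {P P' Q : Type} [PartialOrder P] [PartialOrder P'] [PartialOrder Q]
    (t : Q →o Fin 2) (c : P →o Ch Q) (φ : P' →o P) :
    psi t (c.comp φ) = (psi t c).comp (chMap φ) := by
  refine OrderHom.ext _ _ (funext fun J => ?_)
  rw [OrderHom.comp_coe, Function.comp_apply, psi_apply, psi_apply, maxC_chMap,
    ← OrderHom.comp_assoc, chMap_comp φ]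
  rfl

theorem comp_psi {P Q Q' : Type} [PartialOrder P] [PartialOrder Q'] [PartialOrder Q]
    (t : Q' →o Fin 2) (c : P →o Ch Q) (θ : Q →o Q') :
    (chMap θ).comp (psi (t.comp θ) c) = psi t ((chMap θ).comp c) := by
  refine OrderHom.ext _ _ (funext fun J => ?_)
  have e : maxC.comp ((chMap θ).comp c) = θ.comp (maxC.comp c) :=
    OrderHom.ext _ _ (funext fun x => maxC_chMap θ (c x))
  rw [OrderHom.comp_coe, Function.comp_apply, psi_apply, psi_apply, e, chMap_comp _ θ,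
    apply_ite (chMap θ)]
  exact if_congr (Iff.of_eq (congrArg (fun y => t y = 0) (maxC_chMap θ _).symm)) rfl rfl

/-- A simplex of `Δ[1]` as a monotone map. -/
def tHom {m : SimplexCategoryᵒᵖ} (t : (Δ[1] : SSet.{0}).obj m) : Fm m.unop.len →o Fin 2 :=
  ⟨fun i => stdSimplex.asOrderHom t i.down, fun _ _ h => (stdSimplex.asOrderHom t).monotone h⟩

/-- The homotopy, on a simplex. -/
def exH {X : SSet.{0}} {m : ℕ} (x : nerve (Ch (Fm m)) ⟶ X) (t : Fm m →o Fin 2) :
    nerve (Ch (Fm m)) ⟶ ex.obj X where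
  app q := ↾fun c => ULift.up (nmap (psi t (simplexHom (m := q.unop.len) c)) ≫ x)
  naturality q q' φ := by
    ext c
    exact congrArg (fun u => ULift.up (nmap u ≫ x))
      (psi_comp t (simplexHom c) (fm (a := q'.unop.len) (b := q.unop.len) φ.unop))

theorem ke_ext {A B : SSet.{0}} {f g : A ⟶ B} (h : ∀ q c, f.app q c = g.app q c) : f = g := by
  ext q c
  exact h q c

theorem htp_ex_eta (X : SSet.{0}) : Htp (ex.map (eta.app X)) (eta.app (ex.obj X)) := by
  let K : ex.obj X ⊗ Δ[1] ⟶ ex.obj (ex.obj X) :=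
    { app m := ↾fun x => ULift.up (exH (m := m.unop.len) x.1.down (tHom x.2))
      naturality m m' θ := by
        ext x
        refine congrArg ULift.up (ke_ext fun q c => ?_)
        exact congrArg (fun u => ULift.up (nmap u ≫ x.1.down)) (comp_psi (tHom x.2)
          (simplexHom c) (fm (a := m'.unop.len) (b := m.unop.len) θ.unop)) }
  refine (Htp.of_map K ?_ ?_).symm
  · ext m x
    refine congrArg ULift.up (ke_ext fun q c => ?_)
    exact congrArg (fun u => ULift.up (nmap u ≫ x.down))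
      (OrderHom.ext _ (chMap (maxC.comp (simplexHom c))) (funext fun J =>
        (psi_apply _ _ J).trans (if_pos (show (0 : Fin 2) = 0 from rfl))))
  · ext m x
    refine congrArg ULift.up (ke_ext fun q c => ?_)
    refine (congrArg (fun u => ULift.up (nmap u ≫ x.down))
      (OrderHom.ext _ ((simplexHom c).comp maxC) (funext fun J =>
        (psi_apply _ _ J).trans (if_neg (show (1 : Fin 2) ≠ 0 by decide))))).trans
      (congrArg ULift.up ?_)
    rw [← nmap_comp, ← isoNerve_inv_symm, Category.assoc, Category.assoc, yonedaEquiv_symm_comp]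
    rfl

theorem ell_section (m : ℕ) : ∃ s : Δ[m] ⟶ SimplexCategory.sd.{0}.obj ⦋m⦌, s ≫ ell m = 𝟙 _ := by
  classical
  let s : Fm m →o Ch (Fm m) :=
    ⟨fun i => ⟨Finset.univ.filter (· ≤ i), ⟨i, Finset.mem_filter.2 ⟨Finset.mem_univ _, le_rfl⟩⟩,
      fun a b => le_total a.1.down b.1.down⟩, fun _ _ h _ hx =>
        Finset.mem_filter.2 ⟨Finset.mem_univ _, (Finset.mem_filter.1 hx).2.trans h⟩⟩
  have h : maxC.comp s = OrderHom.id := OrderHom.ext _ _ (funext fun i =>
    (maxC_spec _).unique ⟨Finset.mem_filter.2 ⟨Finset.mem_univ _, le_rfl⟩,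
      fun _ hx => (Finset.mem_filter.1 hx).2⟩)
  refine ⟨(stdSimplex.isoNerve m).hom ≫ nmap s, ?_⟩
  rw [ell, Category.assoc, ← Category.assoc (nmap s), nmap_comp, h]
  exact (stdSimplex.isoNerve m).hom_inv_id

instance (X : SSet.{0}) : Mono (eta.app X) := by
  rw [NatTrans.mono_iff_mono_app]
  intro m
  rw [mono_iff_injective]
  intro x x' h
  obtain ⟨s, hs⟩ := ell_section m.unop.len
  have h1 : ell _ ≫ yonedaEquiv.symm x = ell _ ≫ yonedaEquiv.symm x' := congrArg ULift.down h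
  have h2 := s ≫= h1
  rw [reassoc_of% hs, reassoc_of% hs] at h2
  exact yonedaEquiv.symm.injective h2

end Vale.Agent.P213
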