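import Vale.Agent.P213.KHtp

/-! Fibrations between Kan complexes and trivial cofibrations. -/

open CategoryTheory Limits Opposite Simplicial MonoidalCategory SSet

set_option backward.isDefEq.respectTransparency false

noncomputable section

namespace Vale.Agent.P213

open CartesianMonoidalCategory MonoidalClosed HomotopicalAlgebra modelCategoryQuillen

variable {X Y E B : SSet.{0}}

theorem kf_fib_iff {p : E ⟶ B} : Fibration p ↔ KanFib p := modelCategoryQuillen.fibration_iff p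

theorem kf_kan {p : E ⟶ B} (hp : KanFib p) (hB : KanComplex B) : KanComplex E := by
  have := kf_fib_iff.2 hp
  exact isFibrant_of_fibration p

theorem kf_kan_top : KanComplex (⊤_ SSet.{0}) := by
  rw [kan_iff]
  have : IsIso (terminal.from (⊤_ SSet.{0})) :=
    isIso_of_isTerminal terminalIsTerminal terminalIsTerminal _
  exact MorphismProperty.rlp_of_isIso _ _

theorem TFib.hlp {p : E ⟶ B} (hp : TFib p) (i : X ⟶ Y) [Mono i] : HasLiftingProperty i p := by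
  rw [TFib, ← rlp_monomorphisms] at hp
  exact hp i (MorphismProperty.monomorphisms.infer_property i)

theorem tfib_of_hlp {p : E ⟶ B}
    (h : ∀ ⦃X Y : SSet.{0}⦄ (i : X ⟶ Y), Mono i → HasLiftingProperty i p) : TFib p := by
  rw [TFib, ← rlp_monomorphisms]
  exact fun _ _ i hi => h i hi

/-- The two ends of a cylinder. -/
instance kf_mono_ends (X : SSet.{0}) : Mono (coprod.desc (ι₀ : X ⟶ X ⊗ Δ[1]) ι₁) := by
  rw [NatTrans.mono_iff_mono_app]
  intro n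
  rw [mono_iff_injective]
  have hc := ((Types.binaryCofan_isColimit_iff _).1 ⟨mapIsColimitOfPreservesOfIsColimit
    ((evaluation _ _).obj n) _ _ (coprodIsCoprod X X)⟩).2.2
  have hs : ∀ z : (X ⨿ X).obj n, ∃ x, (coprod.inl : X ⟶ X ⨿ X).app n x = z ∨
      (coprod.inr : X ⟶ X ⨿ X).app n x = z := fun z => by
    rcases (hc.sup_eq_top.ge (Set.mem_univ z) : z ∈ _ ∪ _) with ⟨x, hx⟩ | ⟨x, hx⟩
    exacts [⟨x, Or.inl hx⟩, ⟨x, Or.inr hx⟩]
  have e0 : ∀ x, (coprod.desc (ι₀ : X ⟶ X ⊗ Δ[1]) ι₁).app n ((coprod.inl : X ⟶ X ⨿ X).app n x) =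
      (ι₀ : X ⟶ X ⊗ Δ[1]).app n x := fun x => by
    rw [← NatTrans.comp_app_apply, coprod.inl_desc]
  have e1 : ∀ x, (coprod.desc (ι₀ : X ⟶ X ⊗ Δ[1]) ι₁).app n ((coprod.inr : X ⟶ X ⨿ X).app n x) =
      (ι₁ : X ⟶ X ⊗ Δ[1]).app n x := fun x => by
    rw [← NatTrans.comp_app_apply, coprod.inr_desc]
  have ne : ∀ x y, (ι₀ : X ⟶ X ⊗ Δ[1]).app n x ≠ (ι₁ : X ⟶ X ⊗ Δ[1]).app n y := fun x y h =>
    absurd (congrArg (fun w : (X ⊗ Δ[1]).obj n => (stdSimplex.objEquiv w.2).toOrderHom 0) h)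
      (show (0 : Fin 2) ≠ 1 by decide)
  intro z z' h
  obtain ⟨x, rfl | rfl⟩ := hs z <;> obtain ⟨x', rfl | rfl⟩ := hs z'
  · rw [e0, e0] at h
    exact congrArg _ (congrArg Prod.fst h)
  · rw [e0, e1] at h
    exact absurd h (ne _ _)
  · rw [e1, e0] at h
    exact absurd h.symm (ne _ _)
  · rw [e1, e1] at h
    exact congrArg _ (congrArg Prod.fst h)

/-- Filling an open box. -/
theorem kf_box {p : E ⟶ B} (hp : KanFib p) (a0 a1 y : X ⊗ Δ[1] ⟶ E)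
    (b : (X ⊗ Δ[1]) ⊗ Δ[1] ⟶ B) (h0 : ι₀ ≫ a0 = ι₀ ≫ y) (h1 : ι₀ ≫ a1 = ι₁ ≫ y)
    (k0 : a0 ≫ p = ι₀ ▷ Δ[1] ≫ b) (k1 : a1 ≫ p = ι₁ ▷ Δ[1] ≫ b) (k : y ≫ p = ι₀ ≫ b) :
    ∃ l : X ⊗ Δ[1] ⟶ E, ι₀ ≫ l = ι₁ ≫ a0 ∧ ι₁ ≫ l = ι₁ ≫ a1 ∧ l ≫ p = ι₁ ≫ b := by
  have hc := mapIsColimitOfPreservesOfIsColimit (tensorRight Δ[1]) _ _ (coprodIsCoprod X X)
  obtain ⟨a, e0, e1⟩ : ∃ a : (X ⨿ X) ⊗ Δ[1] ⟶ E, coprod.inl ▷ Δ[1] ≫ a = a0 ∧
      coprod.inr ▷ Δ[1] ≫ a = a1 := ⟨_, (BinaryCofan.IsColimit.desc' hc a0 a1).2⟩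
  obtain ⟨l, l1, l2, l3⟩ := hlp₀ (coprod.desc ι₀ ι₁) hp a y b (by
    apply coprod.hom_ext
    · rw [← ι₀_comp_assoc, e0, h0, coprod.inl_desc_assoc]
    · rw [← ι₀_comp_assoc, e1, h1, coprod.inr_desc_assoc]) (by
    apply BinaryCofan.IsColimit.hom_ext hc
    · change coprod.inl ▷ Δ[1] ≫ _ = coprod.inl ▷ Δ[1] ≫ _
      rw [reassoc_of% e0, k0, ← comp_whiskerRight_assoc, coprod.inl_desc]
    · change coprod.inr ▷ Δ[1] ≫ _ = coprod.inr ▷ Δ[1] ≫ _
      rw [reassoc_of% e1, k1, ← comp_whiskerRight_assoc, coprod.inr_desc]) k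
  refine ⟨ι₁ ≫ l, ?_, ?_, by rw [Category.assoc, l3]⟩
  · rw [← e0, ← l1, ← comp_whiskerRight_assoc, coprod.inl_desc, ι₁_comp_assoc]
  · rw [← e1, ← l1, ← comp_whiskerRight_assoc, coprod.inr_desc, ι₁_comp_assoc]

/-- Absolute homotopy lifting. -/
theorem kf_hlp {p : E ⟶ B} (hp : KanFib p) (y : Y ⟶ E) (b : Y ⊗ Δ[1] ⟶ B)
    (h3 : y ≫ p = ι₀ ≫ b) : ∃ l : Y ⊗ Δ[1] ⟶ E, ι₀ ≫ l = y ∧ l ≫ p = b := by
  have hi : IsInitial ((⊥_ SSet.{0}) ⊗ Δ[1]) :=
    IsInitial.isInitialObj (tensorRight Δ[1]) _ initialIsInitial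
  obtain ⟨l, -, h⟩ := hlp₀ (initial.to Y) hp (hi.to _) y b (initial.hom_ext _ _)
    (hi.hom_ext _ _) h3
  exact ⟨l, h⟩

/-- A Kan fibration that is a homotopy equivalence to a Kan complex is a trivial fibration. -/
theorem tfib_of_kan {p : E ⟶ B} (hp : KanFib p) (hB : KanComplex B) (hw : WHE p) : TFib p := by
  have hE := kf_kan hp hB
  obtain ⟨q, q1, q2⟩ := WHE.he hE hB hw
  obtain ⟨H, H0, H1⟩ := q2.exists_of_kan hB
  obtain ⟨L, L0, L1⟩ := kf_hlp hp q H H0.symm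
  have hs : (ι₁ ≫ L) ≫ p = 𝟙 B := by rw [Category.assoc, L1, H1]
  generalize hse : ι₁ ≫ L = s at hs
  obtain ⟨h, h0, h1⟩ := (((Htp.of_map L L0 hse).symm.precomp p).trans q1).exists_of_kan hE
  obtain ⟨k, k0, k1, k2⟩ := kf_box hp (h ≫ p ≫ s) h (fst _ _ ≫ p ≫ s) (fst _ _ ▷ Δ[1] ≫ h ≫ p)
    (by rw [reassoc_of% h0, reassoc_of% hs, ι₀_fst_assoc]) (by rw [h0, ι₁_fst_assoc])
    (by rw [← comp_whiskerRight_assoc, ι₀_fst]; simp [hs])
    (by rw [← comp_whiskerRight_assoc, ι₁_fst]; simp)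
    (by rw [ι₀_comp_assoc, reassoc_of% h0]; simp)
  rw [reassoc_of% h1] at k0
  rw [h1] at k1
  rw [ι₁_comp_assoc, reassoc_of% h1] at k2
  refine tfib_of_hlp fun X Y i _ => ⟨fun {a0 b0} sq => ?_⟩
  obtain ⟨l, l1, -, l3⟩ := hlp₀ i hp (a0 ▷ Δ[1] ≫ k) (b0 ≫ s) (fst _ _ ≫ b0)
    (by rw [ι₀_comp_assoc, k0, sq.w_assoc])
    (by rw [Category.assoc, k2, whiskerRight_fst_assoc, whiskerRight_fst_assoc, sq.w])
    (by rw [Category.assoc, hs, ι₀_fst_assoc, Category.comp_id])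
  exact ⟨⟨{ l := ι₁ ≫ l
            fac_left := by rw [← ι₁_comp_assoc, l1, ι₁_comp_assoc, k1, Category.comp_id]
            fac_right := by rw [Category.assoc, l3, ι₁_fst_assoc] }⟩⟩

theorem kf_contract (n : ℕ) : ∃ (c : Δ[n] ⊗ Δ[1] ⟶ (Δ[n] : SSet.{0})) (v : ⊤_ _ ⟶ Δ[n]),
    ι₀ ≫ c = 𝟙 _ ∧ ι₁ ≫ c = terminal.from _ ≫ v := by
  obtain ⟨H, H0, H1, -⟩ := exists_htpy_nmap (P := ULift.{0} (Fin (n + 1)))
    (φ := OrderHom.id) (ψ := OrderHom.const _ ⟨Fin.last n⟩) fun x => Fin.le_last x.down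
  refine ⟨(stdSimplex.isoNerve n).hom ▷ Δ[1] ≫ H ≫ (stdSimplex.isoNerve n).inv,
    const (stdSimplex.obj₀Equiv.symm (Fin.last n)), ?_, ?_⟩
  · rw [ι₀_comp_assoc, reassoc_of% H0]
    exact (stdSimplex.isoNerve n).hom_inv_id
  · rw [ι₁_comp_assoc, reassoc_of% H1]
    rfl

/-- A Kan fibration with contractible fibres is a trivial fibration. -/
theorem tfib_of_fibers {p : E ⟶ B} (hp : KanFib p)
    (h : ∀ y : ⊤_ SSet.{0} ⟶ B, TFib (pullback.snd p y)) : TFib p := by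
  rintro _ _ _ ⟨n⟩
  refine ⟨fun {a0 b0} sq => ?_⟩
  obtain ⟨c, v, c0, c1⟩ := kf_contract n
  obtain ⟨l, l0, l1⟩ := kf_hlp hp a0 (∂Δ[n].ι ▷ Δ[1] ≫ c ≫ b0)
    (by rw [ι₀_comp_assoc, reassoc_of% c0, sq.w])
  have := h (v ≫ b0) _ (boundary_ι_mem_I n)
  have sq' : CommSq (pullback.lift (f := p) (g := v ≫ b0) (ι₁ ≫ l) (terminal.from _) (by
      rw [Category.assoc, l1, ι₁_comp_assoc, reassoc_of% c1, terminal.comp_from_assoc]))
      ∂Δ[n].ι (pullback.snd p (v ≫ b0)) (terminal.from _) := ⟨terminal.hom_ext _ _⟩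
  obtain ⟨L, L1, -, L3⟩ := hlp₁ ∂Δ[n].ι hp l (sq'.lift ≫ pullback.fst _ _) (c ≫ b0)
    (by rw [sq'.fac_left_assoc, pullback.lift_fst]) l1
    (by rw [Category.assoc, pullback.condition, sq'.fac_right_assoc, reassoc_of% c1])
  exact ⟨⟨{ l := ι₀ ≫ L
            fac_left := by rw [← ι₀_comp_assoc, L1, l0]
            fac_right := by rw [Category.assoc, L3, reassoc_of% c0] }⟩⟩

/-- Kan fibrations between Kan complexes. -/
def KFib : MorphismProperty SSet.{0} := fun _ B p => KanFib p ∧ KanComplex B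

/-- Trivial cofibrations. -/
def TC : MorphismProperty SSet.{0} := MorphismProperty.monomorphisms _ ⊓ WHE

theorem kf_curry {A Z : SSet.{0}} {f g : A ⊗ X ⟶ Z} (h : Htp f g) : Htp (curry f) (curry g) := by
  refine Htp.ind (R := fun f g => Htp (curry f) (curry g))
    ⟨fun _ => Htp.refl _, Htp.symm, Htp.trans⟩ (fun H => ?_) h
  refine Htp.of_map (curry ((α_ _ _ _).inv ≫ H)) ?_ ?_ <;> rw [← curry_natural_left] <;> rfl

theorem kf_uncurry {A Z : SSet.{0}} {f g : X ⟶ (ihom A).obj Z} (h : Htp f g) :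
    Htp (uncurry f) (uncurry g) := by
  refine Htp.ind (R := fun f g => Htp (uncurry f) (uncurry g))
    ⟨fun _ => Htp.refl _, Htp.symm, Htp.trans⟩ (fun H => ?_) h
  refine Htp.of_map ((α_ _ _ _).hom ≫ uncurry H) ?_ ?_ <;> rw [uncurry_natural_left] <;> rfl

theorem whe_whiskerLeft (A : SSet.{0}) {f : X ⟶ Y} (hf : WHE f) : WHE (A ◁ f) := by
  intro Z hZ
  obtain ⟨h1, h2⟩ := hf ((ihom A).obj Z) inferInstance
  refine ⟨fun g => ?_, fun h h' k => ?_⟩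
  · obtain ⟨h, k⟩ := h1 (curry g)
    refine ⟨uncurry h, ?_⟩
    simpa only [uncurry_natural_left, uncurry_curry] using kf_uncurry k
  · have := kf_curry k
    rw [curry_natural_left, curry_natural_left] at this
    simpa only [uncurry_curry] using kf_uncurry (h2 _ _ this)

theorem whe_whiskerRight {f : X ⟶ Y} (hf : WHE f) (A : SSet.{0}) : WHE (f ▷ A) :=
  (WHE.arrow_mk_iso_iff (Arrow.isoMk (β_ _ _) (β_ _ _) (by simp))).1 (whe_whiskerLeft A hf)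

theorem kf_whe_pre {f : X ⟶ Y} (hf : WHE f) {Z : SSet.{0}} (hZ : KanComplex Z) :
    WHE ((pre f).app Z) := by
  obtain ⟨q, hq⟩ := (whe_whiskerRight hf ((ihom X).obj Z) Z hZ).1 (uncurry (𝟙 _))
  have h1 : Htp (curry q ≫ (pre f).app Z) (𝟙 _) := by
    simpa only [← curry_pre_app, curry_uncurry] using kf_curry hq
  refine WHE.of_he _ (curry q) ?_ h1
  have h2 := kf_uncurry (h1.precomp ((pre f).app Z))
  rw [← Category.assoc, Category.comp_id, uncurry_pre_app, ← Category.id_comp ((pre f).app Z),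
    uncurry_pre_app, Category.id_comp] at h2
  simpa only [curry_uncurry] using kf_curry ((whe_whiskerRight hf _ Z hZ).2 _ _ h2)

theorem TC_le : TC ≤ KFib.llp := by
  rintro X Y i ⟨hi : Mono i, hw⟩ E B p ⟨hp, hB⟩
  have hE := kf_kan hp hB
  have := kf_fib_iff.2 hp
  have ht : ∀ Z, KanComplex Z → TFib ((pre i).app Z) := fun Z hZ =>
    tfib_of_kan (kf_fib_iff.1 inferInstance) inferInstance (kf_whe_pre hw hZ)
  let sq := Functor.PullbackObjObj.ofHasPullback internalHom i p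
  have h1 : TFib sq.fst := MorphismProperty.of_isPullback sq.isPullback.flip (ht B hB)
  have h2 : TFib sq.π := tfib_of_kan (kf_fib_iff.1 (fibration_pullbackObjObjπ sq))
    (kf_kan (kanFib_of_tfib h1) (inferInstanceAs (KanComplex ((ihom X).obj E))))
    (WHE.of_postcomp _ _ (whe_of_tfib h1) (sq.π_fst ▸ whe_of_tfib (ht E hE)))
  have h3 := (internalHomAdjunction₂.hasLiftingProperty_iff (Functor.PushoutObjObj.ofIsInitialRight
    (curriedTensor _) i (initial.to (𝟙_ _)) initialIsInitial) sq).2 (h2.hlp _)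
  exact (HasLiftingProperty.iff_of_arrow_iso_left
    (show Arrow.mk (i ▷ 𝟙_ _) ≅ Arrow.mk i from Arrow.isoMk (ρ_ _) (ρ_ _) (by simp)) p).1 h3

theorem llp_le_whe : KFib.llp ≤ WHE := by
  intro X Y f hf Z hZ
  refine ⟨fun g => ?_, fun h h' k => ?_⟩
  · have := hf (terminal.from Z) ⟨kan_iff.1 hZ, kf_kan_top⟩
    have sq : CommSq g f (terminal.from Z) (terminal.from Y) := ⟨terminal.hom_ext _ _⟩
    exact ⟨sq.lift, sq.fac_left.symm ▸ Htp.refl _⟩
  obtain ⟨H, H0, H1⟩ := k.exists_of_kan hZ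
  have := hf ((pre (coprod.desc (ι₀ : 𝟙_ _ ⟶ 𝟙_ _ ⊗ Δ[1]) ι₁)).app Z)
    ⟨kf_fib_iff.1 inferInstance, inferInstance⟩
  have hc := fun W : SSet.{0} =>
    mapIsColimitOfPreservesOfIsColimit (tensorRight W) _ _ (coprodIsCoprod (𝟙_ _) (𝟙_ _))
  obtain ⟨b, e0, e1⟩ : ∃ b : (𝟙_ _ ⨿ 𝟙_ _) ⊗ Y ⟶ Z, coprod.inl ▷ Y ≫ b = snd _ _ ≫ h ∧
      coprod.inr ▷ Y ≫ b = snd _ _ ≫ h' := ⟨_, (BinaryCofan.IsColimit.desc' (hc Y) _ _).2⟩
  have sq : CommSq (curry (lift (snd _ _) (fst _ _ ≫ snd _ _) ≫ H)) f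
      ((pre (coprod.desc (ι₀ : 𝟙_ _ ⟶ 𝟙_ _ ⊗ Δ[1]) ι₁)).app Z) (curry b) := ⟨by
    rw [curry_pre_app, ← curry_natural_left]
    congr 1
    apply BinaryCofan.IsColimit.hom_ext (hc X)
    · change coprod.inl ▷ X ≫ _ = coprod.inl ▷ X ≫ _
      rw [← comp_whiskerRight_assoc, coprod.inl_desc, ← whisker_exchange_assoc, e0,
        whiskerLeft_snd_assoc, ← H0]
      rfl
    · change coprod.inr ▷ X ≫ _ = coprod.inr ▷ X ≫ _
      rw [← comp_whiskerRight_assoc, coprod.inr_desc, ← whisker_exchange_assoc, e1,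
        whiskerLeft_snd_assoc, ← H1]
      rfl⟩
  have e := congrArg uncurry sq.fac_right
  rw [uncurry_pre_app, uncurry_curry] at e
  generalize uncurry sq.lift = K at e
  refine Htp.of_map (lift (lift (toUnit _) (snd _ _)) (fst _ _) ≫ K) ?_ ?_
  · have : (λ_ Y).inv ≫ coprod.inl ▷ Y ≫ b = h := by rw [e0]; rfl
    rw [← this, ← e, ← comp_whiskerRight_assoc, coprod.inl_desc]
    rfl
  · have : (λ_ Y).inv ≫ coprod.inr ▷ Y ≫ b = h' := by rw [e1]; rfl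
    rw [← this, ← e, ← comp_whiskerRight_assoc, coprod.inr_desc]
    rfl

theorem TC_eq : TC = MorphismProperty.monomorphisms _ ⊓ KFib.llp :=
  le_antisymm (le_inf inf_le_left TC_le) (inf_le_inf_left _ llp_le_whe)

instance : TC.IsStableUnderCobaseChange := by
  rw [TC_eq]
  infer_instance

instance : MorphismProperty.IsStableUnderCoproducts.{0} TC := by
  rw [TC_eq]
  exact ⟨fun J => ⟨fun X₁ X₂ c₁ c₂ h₁ h₂ f hf φ hφ =>
    ⟨MorphismProperty.IsStableUnderColimitsOfShape.condition X₁ X₂ c₁ c₂ h₁ h₂ f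
      (fun j => (hf j).1) φ hφ, MorphismProperty.IsStableUnderColimitsOfShape.condition
        X₁ X₂ c₁ c₂ h₁ h₂ f (fun j => (hf j).2) φ hφ⟩⟩⟩

instance : TC.IsMultiplicative := by
  rw [TC_eq]
  infer_instance

instance : MorphismProperty.IsStableUnderTransfiniteComposition.{0} TC := by
  rw [TC_eq]
  exact ⟨fun J _ _ _ _ => ⟨fun _ _ f ⟨h⟩ =>
    ⟨MorphismProperty.transfiniteCompositionsOfShape_le _ J f ⟨h.ofLE inf_le_left⟩,
      MorphismProperty.transfiniteCompositionsOfShape_le _ J f ⟨h.ofLE inf_le_right⟩⟩⟩⟩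

/-- The first map to the colimit of a sequence of trivial cofibrations. -/
theorem TC.seq {F : ℕ ⥤ SSet.{0}} {c : Cocone F} (hc : IsColimit c)
    (h : ∀ r, TC (F.map (homOfLE (Nat.le_succ r)))) : TC (c.ι.app 0) :=
  MorphismProperty.transfiniteCompositionsOfShape_le TC ℕ _
    ⟨{ F := F
       isoBot := Iso.refl _
       incl := c.ι
       isColimit := hc
       fac := Category.id_comp _
       map_mem := fun r _ => h r }⟩

/-- Lifting against a sequential colimit of maps. -/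
theorem hlp_seq {A A' : SSet.{0}} [A.Finite] [A'.Finite] (i : A ⟶ A') {F G : ℕ ⥤ SSet.{0}}
    (α : F ⟶ G) {cF : Cocone F} {cG : Cocone G} (hF : IsColimit cF) (hG : IsColimit cG)
    (φ : cF.pt ⟶ cG.pt) (hφ : ∀ r, cF.ι.app r ≫ φ = α.app r ≫ cG.ι.app r)
    (h : ∀ r, HasLiftingProperty i (α.app r)) : HasLiftingProperty i φ := by
  refine ⟨fun {u v} sq => ?_⟩
  obtain ⟨r, u', rfl⟩ := IsFinitelyPresentable.exists_hom_of_isColimit hF u
  obtain ⟨s, v', rfl⟩ := IsFinitelyPresentable.exists_hom_of_isColimit hG v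
  obtain ⟨t, a, b, e⟩ := IsFinitelyPresentable.exists_eq_of_isColimit hG (u' ≫ α.app r) (i ≫ v')
    (by simpa only [Category.assoc, hφ] using sq.w)
  have := h t
  have sq' : CommSq (u' ≫ F.map a) i (α.app t) (v' ≫ G.map b) :=
    ⟨by simpa only [Category.assoc, α.naturality] using e⟩
  exact ⟨⟨{ l := sq'.lift ≫ cF.ι.app t
            fac_left := by rw [sq'.fac_left_assoc, Category.assoc, cF.w]
            fac_right := by rw [Category.assoc, hφ, sq'.fac_right_assoc, Category.assoc, cG.w] }⟩⟩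

end Vale.Agent.P213
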