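import Vale.Agent.P213.KFib

/-! Gluing lemmas for weak homotopy equivalences. -/

open CategoryTheory Limits Opposite Simplicial MonoidalCategory SSet

set_option backward.isDefEq.respectTransparency false

noncomputable section

namespace Vale.Agent.P213

theorem kg_htp_sigma {ι : Type} {X : ι → SSet.{0}} {Z : SSet.{0}} (hZ : KanComplex Z)
    {u v : ∐ X ⟶ Z} (h : ∀ i, Htp (Sigma.ι X i ≫ u) (Sigma.ι X i ≫ v)) : Htp u v := by
  choose H H0 H1 using fun i => (h i).exists_of_kan hZ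
  have hc := isColimitOfHasCoproductOfPreservesColimit (tensorRight Δ[1]) X
  have e : ∀ i, Sigma.ι X i ▷ Δ[1] ≫ Cofan.IsColimit.desc hc H = H i :=
    Cofan.IsColimit.fac hc H
  refine Htp.of_map (Cofan.IsColimit.desc hc H) (Sigma.hom_ext _ _ fun i => ?_)
    (Sigma.hom_ext _ _ fun i => ?_)
  · rw [← ι₀_comp_assoc, e, H0]
  · rw [← ι₁_comp_assoc, e, H1]

theorem whe_sigma {ι : Type} {X Y : ι → SSet.{0}} (f : ∀ i, X i ⟶ Y i) (h : ∀ i, WHE (f i)) :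
    WHE (Limits.Sigma.map f) := by
  intro Z hZ
  refine ⟨fun g => ?_, fun u v k => kg_htp_sigma hZ fun i => (h i Z hZ).2 _ _ ?_⟩
  · choose u hu using fun i => (h i Z hZ).1 (Sigma.ι X i ≫ g)
    refine ⟨Sigma.desc u, kg_htp_sigma hZ fun i => ?_⟩
    rw [Sigma.ι_map_assoc, Sigma.ι_desc]
    exact hu i
  · simpa only [Sigma.ι_map_assoc] using k.precomp (Sigma.ι X i)

theorem kg_mono {S S' Y Y' : SSet.{0}} {w : S ⟶ S'} {i : S ⟶ Y} {i' : S' ⟶ Y'} {w' : Y ⟶ Y'}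
    (h : IsPushout w i i' w') [Mono i] : Mono i' :=
  MorphismProperty.of_isPushout (P := .monomorphisms _) h
    (MorphismProperty.monomorphisms.infer_property i)

/-- A weak equivalence is a trivial cofibration followed by a trivial fibration. -/
theorem kg_factor {X Y : SSet.{0}} {g : X ⟶ Y} (hg : WHE g) :
    ∃ (M : SSet.{0}) (j : X ⟶ M) (r : M ⟶ Y), TC j ∧ TFib r ∧ j ≫ r = g := by
  obtain ⟨M, j, r, hj, hr, rfl⟩ := exists_mono_tfib g
  exact ⟨M, j, r, ⟨hj, WHE.of_postcomp _ _ (whe_of_tfib hr) hg⟩, hr, rfl⟩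

theorem kg_section {S M Y : SSet.{0}} {r : M ⟶ Y} (hr : TFib r) (m : S ⟶ M) (i : S ⟶ Y) [Mono i]
    (e : m ≫ r = i) : ∃ k : Y ⟶ M, TC k ∧ i ≫ k = m ∧ k ≫ r = 𝟙 Y := by
  have := hr.hlp i
  have sq : CommSq m i r (𝟙 Y) := ⟨by rw [e, Category.comp_id]⟩
  refine ⟨sq.lift, ⟨mono_of_mono_fac sq.fac_right, WHE.of_postcomp _ _ (whe_of_tfib hr) ?_⟩,
    sq.fac_left, sq.fac_right⟩
  rw [sq.fac_right]
  exact WHE.id_mem _

/-- Cobase change preserves weak equivalences under an object. -/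
theorem kg_under {S S' Y₁ Y₂ P₁ P₂ : SSet.{0}} {u : S ⟶ S'} {i₁ : S ⟶ Y₁} {i₂ : S ⟶ Y₂}
    {a₁ : S' ⟶ P₁} {b₁ : Y₁ ⟶ P₁} {a₂ : S' ⟶ P₂} {b₂ : Y₂ ⟶ P₂} (h₁ : IsPushout u i₁ a₁ b₁)
    (h₂ : IsPushout u i₂ a₂ b₂) [Mono i₂] {g : Y₁ ⟶ Y₂} (e : i₁ ≫ g = i₂) (hg : WHE g)
    {G : P₁ ⟶ P₂} (e₁ : a₁ ≫ G = a₂) (e₂ : b₁ ≫ G = g ≫ b₂) : WHE G := by
  obtain ⟨M, j, r, hj, hr, rfl⟩ := kg_factor hg
  obtain ⟨k, hk, k1, k2⟩ := kg_section hr (i₁ ≫ j) i₂ (by rw [Category.assoc, e])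
  have hQ := IsPushout.of_hasPushout u (i₁ ≫ j)
  have key : ∀ {Y P : SSet.{0}} {i : S ⟶ Y} {a : S' ⟶ P} {b : Y ⟶ P} (h : IsPushout u i a b)
      {t : Y ⟶ M} (_ : TC t) (_ : i ≫ t = i₁ ≫ j), ∃ T : P ⟶ pushout u (i₁ ≫ j),
      WHE T ∧ a ≫ T = pushout.inl _ _ ∧ b ≫ T = t ≫ pushout.inr _ _ := by
    intro Y P i a b h t ht et
    have w : u ≫ pushout.inl u (i₁ ≫ j) = i ≫ t ≫ pushout.inr _ _ := by
      rw [hQ.w, reassoc_of% et, Category.assoc]
    have sq : IsPushout b t (h.desc _ _ w) (pushout.inr u (i₁ ≫ j)) :=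
      IsPushout.of_top (by rwa [et, h.inl_desc]) (h.inr_desc _ _ w) h
    exact ⟨_, (MorphismProperty.of_isPushout sq ht).2, h.inl_desc _ _ w, h.inr_desc _ _ w⟩
  obtain ⟨T₁, w₁, t₁, s₁⟩ := key h₁ hj rfl
  obtain ⟨T₂, w₂, t₂, s₂⟩ := key h₂ hk k1
  have w : u ≫ a₂ = (i₁ ≫ j) ≫ r ≫ b₂ := by rw [h₂.w, ← e]; simp
  have c₂ : T₂ ≫ pushout.desc a₂ (r ≫ b₂) w = 𝟙 _ := h₂.hom_ext
    (by rw [reassoc_of% t₂]; simp) (by rw [reassoc_of% s₂]; simp [reassoc_of% k2])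
  have c₁ : T₁ ≫ pushout.desc a₂ (r ≫ b₂) w = G := h₁.hom_ext
    (by rw [reassoc_of% t₁, e₁]; simp) (by rw [reassoc_of% s₁, e₂]; simp)
  rw [← c₁]
  exact WHE.comp_mem _ _ w₁ (WHE.of_precomp _ _ w₂ (c₂ ▸ WHE.id_mem _))

theorem kg_pushout_tfib {M S' Y Y' : SSet.{0}} {r : M ⟶ S'} {i : M ⟶ Y} {i' : S' ⟶ Y'}
    {w' : Y ⟶ Y'} (h : IsPushout r i i' w') [Mono i] (hr : TFib r) : WHE w' := by
  obtain ⟨k, hk, -, k2⟩ := kg_section hr (initial.to _) (initial.to _) (initial.hom_ext _ _)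
  have hQ := IsPushout.of_hasPushout k (k ≫ i)
  have w1 : k ≫ r ≫ k ≫ i = (k ≫ i) ≫ 𝟙 Y := by rw [reassoc_of% k2, Category.comp_id]
  have w2 : k ≫ i = (k ≫ i) ≫ 𝟙 Y := (Category.comp_id _).symm
  have sq : IsPushout r (pushout.inl k (k ≫ i)) (k ≫ i) (pushout.desc _ _ w1) :=
    IsPushout.of_left (by
      rw [k2, pushout.inr_desc]
      exact IsPushout.of_horiz_isIso ⟨by simp⟩) (pushout.inl_desc _ _ w1).symm hQ
  refine kg_under sq h (g := pushout.desc _ _ w2) (pushout.inl_desc _ _ _)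
    (WHE.of_precomp (pushout.inr k (k ≫ i)) _ (MorphismProperty.of_isPushout hQ.flip hk).2 ?_)
    ?_ ?_
  · rw [pushout.inr_desc]
    exact WHE.id_mem _
  · rw [Category.assoc, ← h.w, reassoc_of% k2]
  · apply pushout.hom_ext
    · simp only [pushout.inl_desc_assoc, Category.assoc, ← h.w, reassoc_of% k2]
    · simp

/-- Left properness. -/
theorem whe_pushout {S S' Y Y' : SSet.{0}} {w : S ⟶ S'} {i : S ⟶ Y} {i' : S' ⟶ Y'} {w' : Y ⟶ Y'}
    (h : IsPushout w i i' w') [Mono i] (hw : WHE w) : WHE w' := by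
  obtain ⟨M, j, r, hj, hr, rfl⟩ := kg_factor hw
  have hQ := IsPushout.of_hasPushout j i
  have := kg_mono hQ
  have w1 : j ≫ r ≫ i' = i ≫ w' := by rw [← h.w, Category.assoc]
  have sq : IsPushout r (pushout.inl j i) i' (pushout.desc _ _ w1) :=
    IsPushout.of_left (by rwa [pushout.inr_desc]) (pushout.inl_desc _ _ w1).symm hQ
  rw [← pushout.inr_desc _ _ w1]
  exact WHE.comp_mem _ _ (MorphismProperty.of_isPushout hQ.flip hj).2 (kg_pushout_tfib sq hr)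

/-- The gluing lemma. -/
theorem whe_glue {S X Y P S' X' Y' P' : SSet.{0}} {f : S ⟶ X} {i : S ⟶ Y} {a : X ⟶ P} {b : Y ⟶ P}
    {f' : S' ⟶ X'} {i' : S' ⟶ Y'} {a' : X' ⟶ P'} {b' : Y' ⟶ P'} (h : IsPushout f i a b)
    (h' : IsPushout f' i' a' b') [Mono i] [Mono i'] {s : S ⟶ S'} {x : X ⟶ X'} {y : Y ⟶ Y'}
    {p : P ⟶ P'} (e1 : f ≫ x = s ≫ f') (e2 : i ≫ y = s ≫ i') (e3 : a ≫ p = x ≫ a')
    (e4 : b ≫ p = y ≫ b') (hs : WHE s) (hx : WHE x) (hy : WHE y) : WHE p := by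
  have hT := IsPushout.of_hasPushout s i
  have hQ := IsPushout.of_hasPushout f' (pushout.inl s i)
  have hP := hT.paste_horiz hQ
  rw [← e1] at hP
  have := kg_mono h
  have w : f ≫ x ≫ pushout.inl f' (pushout.inl s i) = i ≫ pushout.inr s i ≫ pushout.inr _ _ := by
    rw [← hP.w, Category.assoc]
  have sq : IsPushout a x (h.desc _ _ w) (pushout.inl f' (pushout.inl s i)) :=
    IsPushout.of_top (by rw [h.inr_desc]; exact hP.flip) (h.inl_desc _ _ w) h.flip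
  have hg : WHE (pushout.desc i' y e2.symm) :=
    WHE.of_precomp _ _ (whe_pushout hT hs) (by rwa [pushout.inr_desc])
  have w2 : f' ≫ a' = pushout.inl s i ≫ pushout.desc i' y e2.symm ≫ b' := by
    rw [pushout.inl_desc_assoc, h'.w]
  have hd := kg_under hQ h' (pushout.inl_desc _ _ _) hg (pushout.inl_desc _ _ w2)
    (pushout.inr_desc _ _ w2)
  have c : h.desc _ _ w ≫ pushout.desc _ _ w2 = p := h.hom_ext (by simp [e3]) (by simp [e4])
  rw [← c]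
  exact WHE.comp_mem _ _ (whe_pushout sq.flip hx) hd

/-- One stage of the factorization of a map of sequences. -/
structure KgStage {X Y : SSet.{0}} (a : X ⟶ Y) where
  M : SSet.{0}
  j : X ⟶ M
  q : M ⟶ Y
  hj : TC j
  hq : TFib q
  fac : j ≫ q = a

theorem kg_step {X Y X' Y' : SSet.{0}} {a : X ⟶ Y} {a' : X' ⟶ Y'} (x : X ⟶ X') (y : Y ⟶ Y')
    (e : x ≫ a' = a ≫ y) (ha : WHE a') (s : KgStage a) : ∃ (s' : KgStage a') (m : s.M ⟶ s'.M),
      x ≫ s'.j = s.j ≫ m ∧ m ≫ s'.q = s.q ≫ y ∧ ∀ ⦃E B : SSet.{0}⦄ (p : E ⟶ B), KFib p →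
        ∀ (u : X' ⟶ E) (l : s.M ⟶ E) (v : s'.M ⟶ B), x ≫ u = s.j ≫ l → u ≫ p = s'.j ≫ v →
          l ≫ p = m ≫ v → ∃ l' : s'.M ⟶ E, s'.j ≫ l' = u ∧ m ≫ l' = l ∧ l' ≫ p = v := by
  have hN := IsPushout.of_hasPushout x s.j
  have h1 : TC (pushout.inl x s.j) := MorphismProperty.of_isPushout hN s.hj
  have w : x ≫ a' = s.j ≫ s.q ≫ y := by rw [e, ← Category.assoc, s.fac]
  obtain ⟨M, j, r, hj, hr, fac⟩ := kg_factor (g := pushout.desc _ _ w)
    (WHE.of_precomp _ _ h1.2 (by rwa [pushout.inl_desc]))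
  refine ⟨⟨M, pushout.inl _ _ ≫ j, r, TC.comp_mem _ _ h1 hj, hr, by simp [fac]⟩,
    pushout.inr _ _ ≫ j, hN.w_assoc _, by simp [fac], fun E B p hp u l v e1 e2 e3 => ?_⟩
  have := TC_le _ hj p hp
  have sq : CommSq (pushout.desc u l e1) j p v :=
    ⟨pushout.hom_ext (by simpa using e2) (by simpa using e3)⟩
  exact ⟨sq.lift, by simp, by simp, sq.fac_right⟩

/-- Sequential colimits of weak equivalences. -/
theorem whe_ladder {F G : ℕ ⥤ SSet.{0}} (α : F ⟶ G) {cF : Cocone F} {cG : Cocone G}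
    (hF : IsColimit cF) (hG : IsColimit cG) (φ : cF.pt ⟶ cG.pt)
    (hφ : ∀ r, cF.ι.app r ≫ φ = α.app r ≫ cG.ι.app r) (h : ∀ r, WHE (α.app r)) : WHE φ := by
  choose nx m m1 m2 m3 using fun r => kg_step _ _ (α.naturality (homOfLE (Nat.le_add_right r 1)))
    (h (r + 1))
  obtain ⟨M₀, j₀, q₀, hj₀, hq₀, f₀⟩ := kg_factor (h 0)
  let st : ∀ r, KgStage (α.app r) := fun r => Nat.rec ⟨M₀, j₀, q₀, hj₀, hq₀, f₀⟩ nx r
  let M : ℕ ⥤ SSet.{0} := Functor.ofSequence (X := fun r => (st r).M) fun r => m r (st r)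
  have hM : ∀ r, M.map (homOfLE (Nat.le_add_right r 1)) = m r (st r) :=
    Functor.ofSequence_map_homOfLE_succ _
  let j : F ⟶ M := NatTrans.ofSequence (fun r => (st r).j) fun r => by rw [hM]; exact m1 r _
  let q : M ⟶ G := NatTrans.ofSequence (fun r => (st r).q) fun r => by rw [hM]; exact m2 r _
  have hJ : ∀ r, cF.ι.app r ≫ hF.desc ⟨_, j ≫ (colimit.cocone M).ι⟩ = (st r).j ≫ colimit.ι M r :=
    hF.fac _
  have hQ : ∀ r, colimit.ι M r ≫ colimit.desc M ⟨_, q ≫ cG.ι⟩ = (st r).q ≫ cG.ι.app r :=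
    colimit.ι_desc _
  generalize hF.desc ⟨_, j ≫ (colimit.cocone M).ι⟩ = J at hJ
  generalize colimit.desc M ⟨_, q ≫ cG.ι⟩ = Q at hQ
  have e : J ≫ Q = φ := hF.hom_ext fun r => by
    rw [reassoc_of% hJ, hQ, hφ, ← Category.assoc, (st r).fac]
  rw [← e]
  refine WHE.comp_mem _ _ (llp_le_whe _ fun E B p hp => ⟨fun {u v} sq => ?_⟩) (whe_of_tfib ?_)
  · have w : ∀ r, (cF.ι.app r ≫ u) ≫ p = (st r).j ≫ colimit.ι M r ≫ v := fun r => by
      rw [Category.assoc, sq.w, reassoc_of% hJ]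
    have := TC_le _ hj₀ p hp
    have sq₀ : CommSq (cF.ι.app 0 ≫ u) j₀ p (colimit.ι M 0 ≫ v) := ⟨w 0⟩
    have step : ∀ r (l : {l : (st r).M ⟶ E //
        (st r).j ≫ l = cF.ι.app r ≫ u ∧ l ≫ p = colimit.ι M r ≫ v}),
        ∃ l' : {l : (st (r + 1)).M ⟶ E // (st (r + 1)).j ≫ l = cF.ι.app (r + 1) ≫ u ∧
          l ≫ p = colimit.ι M (r + 1) ≫ v}, m r (st r) ≫ l'.1 = l.1 := fun r l => by
      obtain ⟨l', a, b, c⟩ := m3 r (st r) p hp (cF.ι.app (r + 1) ≫ u) l.1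
        (colimit.ι M (r + 1) ≫ v) (by rw [l.2.1, cF.w_assoc]) (w (r + 1))
        (by rw [l.2.2, ← hM, colimit.w_assoc])
      exact ⟨⟨l', a, c⟩, b⟩
    choose nl hl using step
    let l : ∀ r, {l : (st r).M ⟶ E //
        (st r).j ≫ l = cF.ι.app r ≫ u ∧ l ≫ p = colimit.ι M r ≫ v} :=
      fun r => Nat.rec ⟨sq₀.lift, sq₀.fac_left, sq₀.fac_right⟩ nl r
    let c : M ⟶ (Functor.const _).obj E := NatTrans.ofSequence (fun r => (l r).1) fun r => by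
      rw [hM]
      exact (hl r (l r)).trans (Category.comp_id _).symm
    have hc : ∀ r, colimit.ι M r ≫ colimit.desc M ⟨E, c⟩ = (l r).1 := colimit.ι_desc _
    exact ⟨⟨{ l := colimit.desc M ⟨E, c⟩
              fac_left := hF.hom_ext fun r => by rw [reassoc_of% hJ, hc, (l r).2.1]
              fac_right := colimit.hom_ext fun r => by rw [reassoc_of% hc, (l r).2.2] }⟩⟩
  · rintro _ _ _ ⟨n⟩
    exact hlp_seq _ q (colimit.isColimit M) hG Q hQ fun r =>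
      (st r).hq _ (modelCategoryQuillen.boundary_ι_mem_I n)

variable {T V : SSet.{0}}

theorem kg_sub_ext {ι : Type} {U : ι → T.Subcomplex} {A : T.Subcomplex} (h : ∀ i, U i ≤ A)
    (hA : A ≤ ⨆ i, U i) {u v : (A : SSet.{0}) ⟶ V}
    (e : ∀ i, Subcomplex.homOfLE (h i) ≫ u = Subcomplex.homOfLE (h i) ≫ v) : u = v := by
  ext n ⟨x, hx⟩
  have := hA n hx
  simp only [Subfunctor.iSup_obj, Set.mem_iUnion] at this
  obtain ⟨i, hi⟩ := this
  exact ConcreteCategory.congr_hom (NatTrans.congr_app (e i) n) ⟨x, hi⟩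

theorem kg_sub_desc {ι : Type} {U : ι → T.Subcomplex} {A : T.Subcomplex} (h : ∀ i, U i ≤ A)
    (hA : A ≤ ⨆ i, U i) (φ : ∀ i, (U i : SSet.{0}) ⟶ V)
    (e : ∀ i j, Subcomplex.homOfLE (inf_le_left : U i ⊓ U j ≤ _) ≫ φ i =
      Subcomplex.homOfLE inf_le_right ≫ φ j) :
    ∃ ψ : (A : SSet.{0}) ⟶ V, ∀ i, Subcomplex.homOfLE (h i) ≫ ψ = φ i := by
  have hx : ∀ n (x : A.obj n), ∃ i, x.1 ∈ (U i).obj n := fun n x => by
    simpa only [Subfunctor.iSup_obj, Set.mem_iUnion] using hA n x.2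
  choose k hk using hx
  have e' : ∀ i j n x (hi : x ∈ (U i).obj n) (hj : x ∈ (U j).obj n),
      (φ i).app n ⟨x, hi⟩ = (φ j).app n ⟨x, hj⟩ := fun i j n x hi hj =>
    ConcreteCategory.congr_hom (NatTrans.congr_app (e i j) n) ⟨x, hi, hj⟩
  refine ⟨⟨fun n => ↾fun x => (φ (k n x)).app n ⟨x.1, hk n x⟩, fun n n' f => ?_⟩, fun i => ?_⟩
  · ext x
    exact (e' _ (k n x) n' _ _ ((U _).map f (hk n x))).trans
      (NatTrans.naturality_apply (φ (k n x)) f ⟨x.1, hk n x⟩)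
  · ext n x
    exact e' _ _ _ _ _ x.2

/-- `t` restricts to a weak equivalence between two subcomplexes. -/
def WR (t : T ⟶ V) (C : T.Subcomplex) (D : V.Subcomplex) : Prop :=
  ∃ r : (C : SSet.{0}) ⟶ D, r ≫ D.ι = C.ι ≫ t ∧ WHE r

theorem WR.top {t : T ⟶ V} (h : WR t ⊤ ⊤) : WHE t := by
  obtain ⟨r, e, h⟩ := h
  exact (WHE.arrow_mk_iso_iff (Arrow.isoMk (Subcomplex.topIso T) (Subcomplex.topIso V) e.symm)).1 h

theorem kg_restr {t : T ⟶ V} {C : T.Subcomplex} {D : V.Subcomplex} (h : C ≤ D.preimage t) :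
    ∃ r : (C : SSet.{0}) ⟶ D, r ≫ D.ι = C.ι ≫ t :=
  ⟨Subcomplex.lift (C.ι ≫ t) (by rintro n _ ⟨x, rfl⟩; exact h n x.2), rfl⟩

theorem kg_le {t : T ⟶ V} {C : T.Subcomplex} {D : V.Subcomplex} {r : (C : SSet.{0}) ⟶ D}
    (e : r ≫ D.ι = C.ι ≫ t) : C ≤ D.preimage t := fun n x hx => by
  have h := ConcreteCategory.congr_hom (NatTrans.congr_app e n) ⟨x, hx⟩
  have : (r.app n ⟨x, hx⟩).1 = t.app n x := h
  change t.app n x ∈ D.obj n
  exact this ▸ (r.app n ⟨x, hx⟩).2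

theorem kg_sq {t : T ⟶ V} {C C' : T.Subcomplex} {D D' : V.Subcomplex} (hC : C ≤ C') (hD : D ≤ D')
    {r : (C : SSet.{0}) ⟶ D} {r' : (C' : SSet.{0}) ⟶ D'} (e : r ≫ D.ι = C.ι ≫ t)
    (e' : r' ≫ D'.ι = C'.ι ≫ t) : Subcomplex.homOfLE hC ≫ r' = r ≫ Subcomplex.homOfLE hD := by
  rw [← cancel_mono D'.ι, Category.assoc, Category.assoc, e', Subcomplex.homOfLE_ι, e,
    Subcomplex.homOfLE_ι_assoc]

/-- Two out of three for restrictions. -/
theorem WR.iff {t : T ⟶ V} {C C' : T.Subcomplex} {D D' : V.Subcomplex} (hC : C ≤ C') (hD : D ≤ D')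
    (h1 : C ≤ D.preimage t) (h2 : C' ≤ D'.preimage t) (wC : WHE (Subcomplex.homOfLE hC))
    (wD : WHE (Subcomplex.homOfLE hD)) : WR t C D ↔ WR t C' D' := by
  constructor
  · rintro ⟨r, e, h⟩
    obtain ⟨r', e'⟩ := kg_restr h2
    exact ⟨r', e', WHE.of_precomp _ _ wC (kg_sq hC hD e e' ▸ WHE.comp_mem _ _ h wD)⟩
  · rintro ⟨r', e', h⟩
    obtain ⟨r, e⟩ := kg_restr h1
    exact ⟨r, e, WHE.of_postcomp _ _ wD (kg_sq hC hD e e' ▸ WHE.comp_mem _ _ wC h)⟩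

theorem kg_wide {G : T.Subcomplex} {ι : Type} {C : ι → T.Subcomplex}
    (dC : ∀ y y', y ≠ y' → C y ⊓ C y' ≤ G) :
    IsPushout (Sigma.desc fun y => Subcomplex.homOfLE (inf_le_right : C y ⊓ G ≤ G))
      (Limits.Sigma.map fun y => Subcomplex.homOfLE (inf_le_left : C y ⊓ G ≤ C y))
      (Subcomplex.homOfLE (le_sup_left : G ≤ G ⊔ ⨆ y, C y))
      (Sigma.desc fun y => Subcomplex.homOfLE (le_sup_of_le_right (le_iSup C y))) := by
  let U : Option ι → T.Subcomplex := fun o => o.elim G C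
  have h : ∀ o, U o ≤ G ⊔ ⨆ y, C y := fun o => by
    cases o
    exacts [le_sup_left, le_sup_of_le_right (le_iSup C _)]
  have hA : G ⊔ ⨆ y, C y ≤ ⨆ o, U o :=
    sup_le (le_iSup U none) (iSup_le fun y => le_iSup U (some y))
  have key : ∀ {W : SSet.{0}} (u : (G : SSet.{0}) ⟶ W) (v : ∐ (fun y => (C y : SSet.{0})) ⟶ W),
      (Sigma.desc fun y => Subcomplex.homOfLE (inf_le_right : C y ⊓ G ≤ G)) ≫ u =
      (Limits.Sigma.map fun y => Subcomplex.homOfLE (inf_le_left : C y ⊓ G ≤ C y)) ≫ v →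
      ∃ ψ : ((G ⊔ ⨆ y, C y : T.Subcomplex) : SSet.{0}) ⟶ W,
        Subcomplex.homOfLE le_sup_left ≫ ψ = u ∧
        (Sigma.desc fun y => Subcomplex.homOfLE (le_sup_of_le_right (le_iSup C y))) ≫ ψ = v := by
    intro W u v w
    have w' : ∀ y, Subcomplex.homOfLE (inf_le_right : C y ⊓ G ≤ G) ≫ u =
        Subcomplex.homOfLE inf_le_left ≫ Sigma.ι (fun y => (C y : SSet.{0})) y ≫ v := fun y => by
      simpa using Sigma.ι (fun y => ((C y ⊓ G : T.Subcomplex) : SSet.{0})) y ≫= w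
    obtain ⟨ψ, hψ⟩ := kg_sub_desc h hA
      (fun o => Option.rec u (fun y => Sigma.ι (fun y => (C y : SSet.{0})) y ≫ v) o) (by
        rintro (_ | y) (_ | y')
        · rfl
        · exact Subcomplex.homOfLE (le_inf inf_le_right inf_le_left : G ⊓ C y' ≤ C y' ⊓ G) ≫= w' y'
        · exact (w' y).symm
        · by_cases hy : y = y'
          · subst hy
            rfl
          · exact (Subcomplex.homOfLE (le_inf inf_le_left (dC y y' hy)) ≫= w' y).symm.trans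
              (Subcomplex.homOfLE (le_inf inf_le_right (dC y y' hy)) ≫= w' y'))
    exact ⟨ψ, hψ none, Sigma.hom_ext _ _ fun y => by
      rw [Sigma.ι_desc_assoc]
      exact hψ (some y)⟩
  refine ⟨⟨Sigma.hom_ext _ _ fun y => by simp; rfl⟩, ⟨PushoutCocone.IsColimit.mk _
    (fun s => (key s.inl s.inr s.condition).choose)
    (fun s => (key s.inl s.inr s.condition).choose_spec.1)
    (fun s => (key s.inl s.inr s.condition).choose_spec.2) fun s l h1 h2 => ?_⟩⟩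
  obtain ⟨k1, k2⟩ := (key s.inl s.inr s.condition).choose_spec
  refine kg_sub_ext h hA ?_
  rintro (_ | y)
  · exact h1.trans k1.symm
  · simpa using Sigma.ι (fun y => (C y : SSet.{0})) y ≫= h2.trans k2.symm

/-- Gluing many subcomplexes at once. -/
theorem WR.wide {t : T ⟶ V} {G : T.Subcomplex} {H : V.Subcomplex} {ι : Type}
    {C : ι → T.Subcomplex} {D : ι → V.Subcomplex} (dC : ∀ y y', y ≠ y' → C y ⊓ C y' ≤ G)
    (dD : ∀ y y', y ≠ y' → D y ⊓ D y' ≤ H) (w1 : WR t G H) (w2 : ∀ y, WR t (C y) (D y))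
    (w3 : ∀ y, WR t (C y ⊓ G) (D y ⊓ H)) : WR t (G ⊔ ⨆ y, C y) (H ⊔ ⨆ y, D y) := by
  obtain ⟨x, ex, hx⟩ := w1
  choose r er hr using w2
  choose s es hs using w3
  obtain ⟨p, ep⟩ := kg_restr (t := t) (C := G ⊔ ⨆ y, C y) (D := H ⊔ ⨆ y, D y) (by
    rw [Subcomplex.preimage_max, Subcomplex.preimage_iSup]
    exact sup_le_sup (kg_le ex) (iSup_mono fun y => kg_le (er y)))
  have mono : ∀ {T : SSet.{0}} (G : T.Subcomplex) (C : ι → T.Subcomplex),
      Mono (Limits.Sigma.map fun y => Subcomplex.homOfLE (inf_le_left : C y ⊓ G ≤ C y)) :=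
    fun G C => MorphismProperty.colimMap (W := .monomorphisms _) _ fun y =>
      MorphismProperty.monomorphisms.infer_property (Subcomplex.homOfLE inf_le_left)
  have := mono G C
  have := mono H D
  refine ⟨p, ep, whe_glue (kg_wide dC) (kg_wide dD) (Sigma.hom_ext _ _ fun y => ?_)
    (Sigma.hom_ext _ _ fun y => ?_) (kg_sq _ _ ex ep) (Sigma.hom_ext _ _ fun y => ?_)
    (whe_sigma s hs) hx (whe_sigma r hr)⟩
  · simpa using kg_sq _ _ (es y) ex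
  · simpa using kg_sq inf_le_left inf_le_left (es y) (er y) =≫
      Sigma.ι (fun y => (D y : SSet.{0})) y
  · simpa using kg_sq _ _ (er y) ep

/-- The union of an increasing sequence of subcomplexes is a colimit. -/
def kgSeq {C : ℕ → T.Subcomplex} (hC : Monotone C) :
    IsColimit (Subcomplex.toSSetFunctor.mapCocone
      (⟨⨆ r, C r, fun r => homOfLE (le_iSup C r), fun _ _ _ => rfl⟩ : Cocone hC.functor)) :=
  have key := fun s : Cocone (hC.functor ⋙ Subcomplex.toSSetFunctor) =>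
    kg_sub_desc (le_iSup C) le_rfl (fun r => s.ι.app r) fun i j => by
      rw [← s.w (homOfLE (le_max_left i j)), ← s.w (homOfLE (le_max_right i j))]
      rfl
  { desc := fun s => (key s).choose
    fac := fun s => (key s).choose_spec
    uniq := fun s _ h => kg_sub_ext (le_iSup C) le_rfl fun r =>
      (h r).trans ((key s).choose_spec r).symm }

theorem WR.seq {t : T ⟶ V} {C : ℕ → T.Subcomplex} {D : ℕ → V.Subcomplex} (hC : Monotone C)
    (hD : Monotone D) (w : ∀ r, WR t (C r) (D r)) : WR t (⨆ r, C r) (⨆ r, D r) := by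
  choose r er hr using w
  obtain ⟨p, ep⟩ := kg_restr (t := t) (C := ⨆ y, C y) (D := ⨆ y, D y) (by
    rw [Subcomplex.preimage_iSup]
    exact iSup_mono fun y => kg_le (er y))
  exact ⟨p, ep, whe_ladder ⟨r, fun i j f => kg_sq (hC f.le) (hD f.le) (er i) (er j)⟩
    (kgSeq hC) (kgSeq hD) p (fun i => kg_sq (le_iSup C i) (le_iSup D i) (er i) ep) hr⟩

end Vale.Agent.P213
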