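import Vale.Agent.P213.KGlue
import Vale.Agent.P213.KEx

/-! Cell induction; the maps `Sd X ⟶ X` and `X ⟶ Ex X` are weak equivalences. -/

open CategoryTheory Limits Opposite Simplicial MonoidalCategory SSet

set_option backward.isDefEq.respectTransparency false

noncomputable section

namespace Vale.Agent.P213

/-- `c` attaches cells of one dimension. -/
def IsAtt {K K' : SSet.{0}} (c : K ⟶ K') : Prop :=
  ∃ (n : ℕ) (ι : Type) (a : (∐ fun _ : ι => (∂Δ[n] : SSet.{0})) ⟶ K)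
    (d : (∐ fun _ : ι => (Δ[n] : SSet.{0})) ⟶ K'),
    IsPushout a (Limits.Sigma.map fun _ => ∂Δ[n].ι) c d

/-- An empty coproduct is initial. -/
def klam_initial (F : Empty → SSet.{0}) : IsInitial (∐ F) :=
  IsInitial.ofUniqueHom (fun _ => Sigma.desc fun i => i.elim)
    fun _ _ => Sigma.hom_ext _ _ fun i => i.elim

theorem klam_skel (ι : Type) (r : ℕ) :
    skeletonOfMono (⊥ : (∐ fun _ : ι => (∂Δ[r] : SSet.{0})).Subcomplex).ι r = ⊤ := by
  rw [← top_le_iff, Subcomplex.le_iff_contains_nonDegenerate]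
  rintro n ⟨x, hx⟩ -
  obtain ⟨c, y, rfl⟩ : ∃ (c : ι) (y : (∂Δ[r] : SSet.{0}) _⦋n⦌),
      (Sigma.ι (fun _ : ι => (∂Δ[r] : SSet.{0})) c).app _ y = x :=
    Cofan.inj_jointly_surjective_of_isColimit
      (isColimitCofanMkObjOfIsColimit ((evaluation _ _).obj (op ⦋n⦌)) _ _
        (coproductIsCoproduct _)) x
  have hn : n < r := by
    by_contra h
    refine (mem_nonDegenerate_iff_notMem_degenerate _ _).1 hx (degenerate_app_apply ?_ _)
    rw [degenerate_eq_univ_of_hasDimensionLT _ r n (not_lt.1 h)]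
    trivial
  rw [skeletonOfMono_obj_eq_top _ hn]
  trivial

theorem cell_ind (R : SSet.{0} → Prop) (h0 : ∀ K, IsInitial K → R K)
    (hstep : ∀ (n : ℕ) (ι : Type) (K K' : SSet.{0}) (a : (∐ fun _ : ι => (∂Δ[n] : SSet.{0})) ⟶ K)
      (c : K ⟶ K') (d : (∐ fun _ : ι => (Δ[n] : SSet.{0})) ⟶ K'),
      IsPushout a (Limits.Sigma.map fun _ => ∂Δ[n].ι) c d →
      R (∐ fun _ : ι => (∂Δ[n] : SSet.{0})) → R K → R K')
    (hseq : ∀ (F : ℕ ⥤ SSet.{0}) (c : Cocone F), IsColimit c →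
      (∀ r, IsAtt (F.map (homOfLE (Nat.le_succ r)))) → (∀ r, R (F.obj r)) → R c.pt)
    (K : SSet.{0}) : R K := by
  have hiso : ∀ {K K' : SSet.{0}} (e : K ≅ K'), R K → R K' := fun {K K'} e hK => by
    have i1 : IsInitial (∐ fun _ : Empty => (∂Δ[0] : SSet.{0})) := klam_initial _
    have i2 : IsInitial (∐ fun _ : Empty => (Δ[0] : SSet.{0})) := klam_initial _
    haveI := isIso_of_isInitial i1 i2 (Limits.Sigma.map fun _ => ∂Δ[0].ι)
    exact hstep 0 Empty K K' (i1.to _) e.hom (i2.to _)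
      (IsPushout.of_vert_isIso ⟨i1.hom_ext _ _⟩) (h0 _ i1) hK
  have key : ∀ (r : ℕ) (K : SSet.{0}), R (skeletonOfMono (⊥ : K.Subcomplex).ι r) := by
    intro r
    induction r with
    | zero =>
      intro K
      exact hiso (Subcomplex.eqToIso (by simp)) (h0 _ (Subcomplex.isInitialBot (X := K)))
    | succ r ih =>
      intro K
      refine hstep r _ _ _ _ _ _ (relativeCellComplexOfMono.isPushout (⊥ : K.Subcomplex).ι r) ?_
        (ih K)
      exact hiso (Subcomplex.eqToIso (klam_skel _ r) ≪≫ Subcomplex.topIso _) (ih _)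
  exact hseq _ _ (relativeCellComplexOfMono (⊥ : K.Subcomplex).ι).isColimit
    (fun r => ⟨r, _, _, _, relativeCellComplexOfMono.isPushout (⊥ : K.Subcomplex).ι r⟩)
    fun r => key r K

theorem klam_of_terminal {X Y : SSet.{0}} (f : X ⟶ Y) (hX : WHE (terminal.from X))
    (hY : WHE (terminal.from Y)) : WHE f :=
  WHE.of_postcomp f (terminal.from Y) hY (by rwa [terminal.comp_from])

theorem klam_iso {X Y : SSet.{0}} (e : X ≅ Y) (hY : WHE (terminal.from Y)) :
    WHE (terminal.from X) := by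
  rw [← terminal.comp_from e.hom]
  exact WHE.comp_mem _ _ (WHE.of_isIso _) hY

theorem klam_simplex (n : ℕ) : WHE (lam.app Δ[n]) := by
  refine klam_of_terminal _ (klam_iso (stdSimplex.sdIso.app ⦋n⦌) ?_)
    (klam_iso (stdSimplex.isoNerve n) (whe_nerve_of_top (B := Fm n) ⊤ fun _ => le_top))
  exact whe_nerve_of_top (B := Ch (Fm n))
    ⟨Finset.univ, Finset.univ_nonempty, fun a b => le_total a b⟩ fun x => Finset.subset_univ _

theorem klam_sigma (ι : Type) (n : ℕ) : WHE (lam.app (∐ fun _ : ι => (Δ[n] : SSet.{0}))) := by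
  have e : sigmaComparison sd (fun _ : ι => (Δ[n] : SSet.{0})) ≫ lam.app _ =
      Limits.Sigma.map fun _ => lam.app Δ[n] := by
    refine Sigma.hom_ext _ _ fun i => ?_
    rw [ι_comp_sigmaComparison_assoc, Sigma.ι_map]
    exact lam.naturality _
  refine WHE.of_precomp _ _ (WHE.of_isIso (sigmaComparison sd _)) ?_
  rw [e]
  exact whe_sigma _ fun _ => klam_simplex n

theorem whe_lam (K : SSet.{0}) : WHE (lam.app K) := by
  refine cell_ind (fun K => WHE (lam.app K)) (fun K hK => ?_)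
    (fun n ι K K' a c d h h1 h2 => ?_) (fun F c hc _ h => ?_) K
  · haveI := isIso_of_isInitial (hK.isInitialObj sd K) hK (lam.app K)
    exact WHE.of_isIso _
  · obtain ⟨P, _, ⟨e⟩⟩ := exists_nerve_sigma (ι := ι) fun _ => n
    haveI := mono_sd (Limits.Sigma.map fun _ : ι => (∂Δ[n].ι : _ ⟶ (Δ[n] : SSet.{0}))) e
    exact whe_glue (h.map sd) h (lam.naturality _) (lam.naturality _) (lam.naturality _)
      (lam.naturality _) h1 h2 (klam_sigma ι n)
  · exact whe_ladder (F := F ⋙ sd) (G := F) (Functor.whiskerLeft F lam) (isColimitOfPreserves sd hc)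
      hc _ (fun r => lam.naturality _) h

theorem whe_sd_iff {X Y : SSet.{0}} (f : X ⟶ Y) : WHE (sd.map f) ↔ WHE f := by
  rw [← WHE.postcomp_iff _ _ (whe_lam Y), lam.naturality, WHE.precomp_iff _ _ (whe_lam X)]
  rfl

theorem klam_fst (A : SSet.{0}) : WHE (CartesianMonoidalCategory.fst A Δ[1]) := by
  have h : anodyneExtensions (ι₀ : A ⟶ A ⊗ Δ[1]) := fun E B p hp => ⟨fun {y b} sq => by
    have i : IsInitial ((tensorRight Δ[1]).obj (⊥_ SSet.{0})) :=
      initialIsInitial.isInitialObj _ _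
    obtain ⟨l, -, h1, h2⟩ := hlp₀ (initial.to A) (p := p) hp (i.to _) y b (initial.hom_ext _ _)
      (i.hom_ext _ _) sq.w
    exact ⟨⟨⟨l, h1, h2⟩⟩⟩⟩
  exact WHE.of_precomp ι₀ _ (whe_of_anodyne h) (WHE.id_mem A)

theorem klam_eta (K : SSet.{0}) : sdExAdjunction.homEquiv _ _ (lam.app K) = eta.app K :=
  Equiv.apply_symm_apply _ _

theorem klam_adj {A Z : SSet.{0}} (g : A ⟶ Z) :
    sdExAdjunction.homEquiv _ _ (lam.app A ≫ g) = g ≫ eta.app Z := by
  rw [Adjunction.homEquiv_naturality_right, klam_eta]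
  exact (eta.naturality g).symm

theorem klam_surj {A Z : SSet.{0}} (hZ : KanComplex Z) (u : A ⟶ ex.obj Z) :
    ∃ g : A ⟶ Z, Htp (g ≫ eta.app Z) u := by
  obtain ⟨v, rfl⟩ := (sdExAdjunction.homEquiv _ _).surjective u
  obtain ⟨g, hg⟩ := (whe_lam A Z hZ).1 v
  refine ⟨g, ?_⟩
  rw [← klam_adj, Adjunction.homEquiv_unit, Adjunction.homEquiv_unit]
  exact hg.ex.precomp _

theorem klam_inj {A Z : SSet.{0}} (hZ : KanComplex Z) {g g' : A ⟶ Z}
    (h : Htp (g ≫ eta.app Z) (g' ≫ eta.app Z)) : Htp g g' := by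
  have key : Htp ((sdExAdjunction.homEquiv _ _).symm (g ≫ eta.app Z))
      ((sdExAdjunction.homEquiv _ _).symm (g' ≫ eta.app Z)) := by
    refine Htp.ind (R := fun u u' : A ⟶ ex.obj Z => Htp ((sdExAdjunction.homEquiv _ _).symm u)
      ((sdExAdjunction.homEquiv _ _).symm u'))
      ⟨fun _ => Htp.refl _, Htp.symm, Htp.trans⟩ (fun H => ?_) h
    obtain ⟨k, hk⟩ := ((whe_sd_iff _).2 (klam_fst A) Z hZ).1
      ((sdExAdjunction.homEquiv _ _).symm H)
    have h0 := hk.precomp (sd.map ι₀)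
    have h1 := hk.precomp (sd.map ι₁)
    rw [← sd.map_comp_assoc, ι₀_fst] at h0
    rw [← sd.map_comp_assoc, ι₁_fst] at h1
    rw [Adjunction.homEquiv_naturality_left_symm, Adjunction.homEquiv_naturality_left_symm]
    exact h0.symm.trans h1
  rw [← klam_adj, ← klam_adj, Equiv.symm_apply_apply, Equiv.symm_apply_apply] at key
  exact (whe_lam A Z hZ).2 _ _ key

theorem whe_eta (K : SSet.{0}) : WHE (eta.app K) := by
  intro Z hZ
  refine ⟨fun f => ?_, fun h h' k => klam_inj hZ ?_⟩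
  · obtain ⟨g, hg⟩ := klam_surj hZ (ex.map f)
    refine ⟨g, klam_inj hZ ?_⟩
    have := hg.precomp (eta.app K)
    rwa [← eta.naturality, ← Category.assoc] at this
  · have e : ∀ h : ex.obj K ⟶ Z, Htp (ex.map (eta.app K ≫ h)) (h ≫ eta.app Z) := fun h => by
      have := (htp_ex_eta K).postcomp (ex.map h)
      rwa [← eta.naturality, ← ex.map_comp] at this
    exact (e h).symm.trans (k.ex.trans (e h'))

theorem whe_ex_iff {X Y : SSet.{0}} (f : X ⟶ Y) : WHE (ex.map f) ↔ WHE f := by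
  rw [← WHE.precomp_iff _ _ (whe_eta X), ← eta.naturality, WHE.postcomp_iff _ _ (whe_eta Y)]
  rfl

theorem whe_homEquiv {K Z : SSet.{0}} (u : sd.obj K ⟶ Z) :
    WHE (sdExAdjunction.homEquiv _ _ u) ↔ WHE u := by
  have h : WHE (sdExAdjunction.unit.app K) :=
    WHE.of_postcomp _ (ex.map (lam.app K)) ((whe_ex_iff _).2 (whe_lam K)) (by
      have := whe_eta K
      rwa [← klam_eta, Adjunction.homEquiv_unit] at this)
  rw [Adjunction.homEquiv_unit, WHE.precomp_iff _ _ h, whe_ex_iff]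

end Vale.Agent.P213
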