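import Vale.Agent.P213.KLam

/-! The Kan-Quillen model structure. -/

open CategoryTheory Limits Opposite Simplicial MonoidalCategory SSet

set_option backward.isDefEq.respectTransparency false

noncomputable section

namespace Vale.Agent.P213

/-- Iterates of `Ex`. -/
def kq_exk (k : ℕ) : SSet.{0} ⥤ SSet.{0} :=
  Nat.rec (𝟭 _) (fun _ G => G ⋙ ex) k

/-- The sequence of iterates of `Ex`. -/
def kq_seq : ℕ ⥤ (SSet.{0} ⥤ SSet.{0}) :=
  Functor.ofSequence (X := kq_exk) fun k => Functor.whiskerLeft (kq_exk k) eta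

/-- Kan's functor `Ex^∞`. -/
def kq_inf : SSet.{0} ⥤ SSet.{0} := kq_seq.flip ⋙ colim

theorem kq_step (X : SSet.{0}) (r : ℕ) :
    (kq_seq.flip.obj X).map (homOfLE (Nat.le_succ r)) = eta.app ((kq_exk r).obj X) := by
  have := Functor.ofSequence_map_homOfLE_succ (X := kq_exk)
    (fun k => Functor.whiskerLeft (kq_exk k) eta) r
  exact congrArg (fun t => t.app X) this

theorem kq_exk_lim (k : ℕ) : PreservesFiniteLimits (kq_exk k) := by
  induction k with
  | zero => exact inferInstanceAs (PreservesFiniteLimits (𝟭 _))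
  | succ k ih =>
    have : PreservesLimitsOfSize.{0, 0} ex.{0} := sdExAdjunction.rightAdjoint_preservesLimits
    exact inferInstanceAs (PreservesFiniteLimits (kq_exk k ⋙ ex))

theorem kq_inf_lim : PreservesFiniteLimits kq_inf := by
  have : PreservesFiniteLimits kq_seq.flip :=
    preservesFiniteLimits_of_evaluation _ fun k => kq_exk_lim k
  have : PreservesFiniteLimits (colim : (ℕ ⥤ SSet.{0}) ⥤ SSet.{0}) :=
    HasExactColimitsOfShape.preservesFiniteLimits
  exact inferInstanceAs (PreservesFiniteLimits (kq_seq.flip ⋙ colim))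

theorem kq_exk_fib {X Y : SSet.{0}} {p : X ⟶ Y} (hp : KanFib p) (k : ℕ) :
    KanFib ((kq_exk k).map p) := by
  induction k with
  | zero => exact hp
  | succ k ih => exact kanFib_ex ih

theorem kq_inf_fib {X Y : SSet.{0}} {p : X ⟶ Y} (hp : KanFib p) : KanFib (kq_inf.map p) := by
  intro A B i hi
  have hi' := hi
  simp only [modelCategoryQuillen.J, MorphismProperty.iSup_iff] at hi
  obtain ⟨n, ⟨k⟩⟩ := hi
  exact hlp_seq _ (kq_seq.flip.map p) (colimit.isColimit _) (colimit.isColimit _) _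
    (fun r => colimit.ι_map _ r) fun r => kq_exk_fib hp r _ hi'

theorem kq_inf_kan (T : SSet.{0}) : KanComplex (kq_inf.obj T) := by
  rw [kan_iff]
  intro A B i hi
  simp only [modelCategoryQuillen.J, MorphismProperty.iSup_iff] at hi
  obtain ⟨n, ⟨k⟩⟩ := hi
  refine ⟨fun {u v} sq => ?_⟩
  obtain ⟨r, u', hu⟩ := IsFinitelyPresentable.exists_hom_of_isColimit
    (colimit.isColimit (kq_seq.flip.obj T)) u
  obtain ⟨b, hb⟩ := ex_horn (Y := (kq_exk r).obj T) (u' ≫ eta.app ((kq_exk r).obj T))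
  refine ⟨⟨{ l := b ≫ colimit.ι (kq_seq.flip.obj T) (r + 1 + 1)
             fac_left := ?_
             fac_right := terminal.hom_ext _ _ }⟩⟩
  have h1 := colimit.w (kq_seq.flip.obj T) (homOfLE (Nat.le_succ r))
  have h2 := colimit.w (kq_seq.flip.obj T) (homOfLE (Nat.le_succ (r + 1)))
  rw [kq_step] at h1 h2
  rw [← hu, reassoc_of% hb]
  erw [h2, h1]
  rfl

theorem kq_whe_ι (X : SSet.{0}) : WHE (colimit.ι (kq_seq.flip.obj X) 0) := by
  refine (TC.seq (colimit.isColimit (kq_seq.flip.obj X)) fun r => ?_).2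
  rw [kq_step]
  exact ⟨inferInstanceAs (Mono _), whe_eta _⟩

theorem kq_whe_iff {X Y : SSet.{0}} (f : X ⟶ Y) : WHE (kq_inf.map f) ↔ WHE f := by
  have h : colimit.ι (kq_seq.flip.obj X) 0 ≫ kq_inf.map f =
      f ≫ colimit.ι (kq_seq.flip.obj Y) 0 := colimit.ι_map (kq_seq.flip.map f) 0
  rw [← WHE.precomp_iff _ _ (kq_whe_ι X), h]
  exact WHE.postcomp_iff _ _ (kq_whe_ι Y)

theorem tfib_iff {X Y : SSet.{0}} (p : X ⟶ Y) : TFib p ↔ KanFib p ∧ WHE p := by
  refine ⟨fun h => ⟨kanFib_of_tfib h, whe_of_tfib h⟩, fun ⟨hp, hw⟩ => ?_⟩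
  have := kq_inf_lim
  have h1 : TFib (kq_inf.map p) :=
    tfib_of_kan (kq_inf_fib hp) (kq_inf_kan Y) ((kq_whe_iff p).2 hw)
  refine tfib_of_fibers hp fun y => ?_
  have hpb := IsPullback.of_hasPullback p y
  have h2 : TFib (kq_inf.map (pullback.snd p y)) :=
    MorphismProperty.of_isPullback (hpb.map kq_inf) h1
  refine tfib_of_kan (MorphismProperty.of_isPullback (P := modelCategoryQuillen.J.rlp) hpb hp) ?_
    ((kq_whe_iff _).1 (whe_of_tfib h2))
  rw [kan_iff, show terminal.from (⊤_ SSet.{0}) = 𝟙 _ from terminal.hom_ext _ _]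
  exact MorphismProperty.rlp_of_isIso _ _

theorem anodyne_iff {X Y : SSet.{0}} (f : X ⟶ Y) : anodyneExtensions f ↔ Mono f ∧ WHE f := by
  refine ⟨fun h => ⟨mono_of_anodyne h, whe_of_anodyne h⟩, fun ⟨hm, hw⟩ => ?_⟩
  obtain ⟨M, i, p, hi, hp, fac⟩ := exists_anodyne_fib f
  have h1 : WHE p := WHE.of_precomp i p (whe_of_anodyne hi) (fac ▸ hw)
  have h2 : TFib p := (tfib_iff p).2 ⟨hp, h1⟩
  have h3 : HasLiftingProperty f p := by
    have : (MorphismProperty.monomorphisms SSet.{0}).rlp p := by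
      rw [rlp_monomorphisms]; exact h2
    exact this _ hm
  exact MorphismProperty.of_retract (RetractArrow.ofLeftLiftingProperty fac) hi

theorem isModel_sset : IsModel (MorphismProperty.monomorphisms SSet.{0}) WHE KanFib := by
  let cF : HomotopicalAlgebra.CategoryWithFibrations SSet.{0} := ⟨KanFib⟩
  let cC : HomotopicalAlgebra.CategoryWithCofibrations SSet.{0} :=
    ⟨MorphismProperty.monomorphisms _⟩
  let cW : HomotopicalAlgebra.CategoryWithWeakEquivalences SSet.{0} := ⟨WHE⟩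
  refine ⟨{ categoryWithFibrations := cF
            categoryWithCofibrations := cC
            categoryWithWeakEquivalences := cW
            cm2 := inferInstanceAs WHE.HasTwoOutOfThreeProperty
            cm3a := inferInstanceAs WHE.IsStableUnderRetracts
            cm3b := inferInstanceAs (modelCategoryQuillen.J.rlp).IsStableUnderRetracts
            cm3c := inferInstanceAs (MorphismProperty.monomorphisms _).IsStableUnderRetracts
            cm4a := fun i p hi hw hp => ?_
            cm4b := fun i p hi hp hw => ?_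
            cm5a := ⟨fun f => ?_⟩
            cm5b := ⟨fun f => ?_⟩ }, rfl, rfl, rfl⟩
  · exact (anodyne_iff i).2 ⟨hi.mem, hw.mem⟩ p hp.mem
  · have : (MorphismProperty.monomorphisms SSet.{0}).rlp p := by
      rw [rlp_monomorphisms]; exact (tfib_iff p).2 ⟨hp.mem, hw.mem⟩
    exact this _ hi.mem
  · obtain ⟨M, i, p, hi, hp, fac⟩ := exists_anodyne_fib f
    exact ⟨⟨M, i, p, fac, (anodyne_iff i).1 hi, hp⟩⟩
  · obtain ⟨M, i, p, hi, hp, fac⟩ := exists_mono_tfib f
    exact ⟨⟨M, i, p, fac, hi, (tfib_iff p).1 hp⟩⟩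

end Vale.Agent.P213
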