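import Vale.Agent.P213.Defs

/-! Basic constructions on strict omega-categories: subcategories, products, sieves, cones. -/

open CategoryTheory

set_option backward.isDefEq.respectTransparency false

noncomputable section

namespace Vale.Agent.P213

namespace OmegaCat

variable {X Y Z : OmegaCat}

theorem hom_ext {F G : X ⟶ Y} (h : ∀ x, F.f x = G.f x) : F = G := Hom.ext (funext h)

@[simp] theorem comp_f (F : X ⟶ Y) (G : Y ⟶ Z) (x : X.C) : (F ≫ G).f x = G.f (F.f x) := rfl

@[simp] theorem id_f (x : X.C) : (𝟙 X : X ⟶ X).f x = x := rfl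

theorem d_of_d {a b : Bool} {k l : ℕ} {x : X.C} (h : X.d a k x = x) (hl : k ≤ l) :
    X.d b l x = x := by
  rw [← h, X.d_ge _ hl]

theorem d_cmp {a : Bool} {m n : ℕ} {x y : X.C} (h : X.d true n x = X.d false n y) (hm : m ≠ n) :
    X.d true n (X.d a m x) = X.d false n (X.d a m y) := by
  rcases lt_or_gt_of_ne hm with k | k
  · rw [X.d_ge _ k.le, X.d_ge _ k.le, ← X.d_lt (a := true) x k, h, X.d_lt _ k]
  · rw [X.d_lt _ k, X.d_lt _ k, h]

theorem d_lt_eq {a : Bool} {m n : ℕ} {x y : X.C} (h : X.d true n x = X.d false n y) (hm : m < n) :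
    X.d a m x = X.d a m y := by
  rw [← X.d_lt (a := true) x hm, h, X.d_lt _ hm]

theorem d_comp_lt {a : Bool} {m n : ℕ} {x y : X.C} (h : X.d true n x = X.d false n y)
    (hm : m < n) : X.d a m (X.comp n x y) = X.d a m x := by
  rw [← X.d_lt (a := false) _ hm, X.src_comp h, X.d_lt _ hm]

theorem Hom.cmp (F : X ⟶ Y) {n : ℕ} {x y : X.C} (h : X.d true n x = X.d false n y) :
    Y.d true n (F.f x) = Y.d false n (F.f y) := by
  rw [← F.map_d, ← F.map_d, h]

/-- The cell has dimension less than `n`. -/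
def DimLT (X : OmegaCat) (n : ℕ) (x : X.C) : Prop := ∃ k < n, X.d false k x = x

theorem DimLT.mono {n n' : ℕ} {x : X.C} (h : X.DimLT n x) (hn : n ≤ n') : X.DimLT n' x :=
  let ⟨k, hk, e⟩ := h; ⟨k, hk.trans_le hn, e⟩

theorem exists_dimLT (x : X.C) : ∃ n, X.DimLT n x :=
  let ⟨k, e⟩ := X.fin x; ⟨k + 1, k, k.lt_succ_self, e⟩

theorem dimLT_succ {n : ℕ} {x : X.C} : X.DimLT (n + 1) x ↔ X.d false n x = x :=
  ⟨fun ⟨_, hk, e⟩ => d_of_d e (Nat.le_of_lt_succ hk), fun e => ⟨n, n.lt_succ_self, e⟩⟩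

theorem DimLT.d {n : ℕ} {x : X.C} (h : X.DimLT n x) (a : Bool) (m : ℕ) : X.DimLT n (X.d a m x) := by
  obtain ⟨k, hk, e⟩ := h
  rcases le_or_gt k m with l | l
  · exact ⟨k, hk, by rw [d_of_d e l, e]⟩
  · exact ⟨k, hk, X.d_ge _ l.le⟩

theorem DimLT.comp {n m : ℕ} {x y : X.C} (h : X.d true m x = X.d false m y) (hx : X.DimLT n x)
    (hy : X.DimLT n y) : X.DimLT n (X.comp m x y) := by
  obtain ⟨k, hk, e⟩ := hx
  obtain ⟨l, hl, e'⟩ := hy
  have e1 : ∀ b, X.d b (max k l) x = x := fun b => d_of_d e (le_max_left k l)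
  have e2 : ∀ b, X.d b (max k l) y = y := fun b => d_of_d e' (le_max_right k l)
  refine ⟨max k l, max_lt hk hl, ?_⟩
  rcases eq_or_ne (max k l) m with rfl | j
  · rw [e1, e2] at h
    subst h
    have := X.id_comp (max k l) x
    rw [e1] at this
    rw [this, e1]
  · rw [X.d_comp h j, e1, e2]

theorem DimLT.map {n : ℕ} {x : X.C} (h : X.DimLT n x) (F : X ⟶ Y) : Y.DimLT n (F.f x) :=
  let ⟨k, hk, e⟩ := h; ⟨k, hk, by rw [← F.map_d, e]⟩

/-- A map that is a functor on the cells of dimension less than `n`. -/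
structure PFun (n : ℕ) (F : X.C → Y.C) : Prop where
  map_d : ∀ a k x, X.DimLT n x → F (X.d a k x) = Y.d a k (F x)
  map_comp : ∀ k x y, X.DimLT n x → X.DimLT n y → X.d true k x = X.d false k y →
    F (X.comp k x y) = Y.comp k (F x) (F y)

theorem Hom.pFun (F : X ⟶ Y) (n : ℕ) : PFun n F.f :=
  ⟨fun a k x _ => F.map_d a k x, fun _ _ _ _ _ h => F.map_comp h⟩

theorem PFun.precomp {n : ℕ} {F : Y.C → Z.C} (h : PFun n F) (G : X ⟶ Y) : PFun n (F ∘ G.f) :=
  ⟨fun a k x hx => by simp only [Function.comp, G.map_d, h.map_d a k _ (hx.map G)],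
    fun k x y hx hy e => by
      simp only [Function.comp, G.map_comp e, h.map_comp k _ _ (hx.map G) (hy.map G) (G.cmp e)]⟩

/-- Sets of cells closed under the operations. -/
structure Closed (X : OmegaCat) (S : X.C → Prop) : Prop where
  d : ∀ a n x, S x → S (X.d a n x)
  comp : ∀ n x y, X.d true n x = X.d false n y → S x → S y → S (X.comp n x y)

open Classical in
/-- Composition in a subcategory. -/
def Closed.cp {S : X.C → Prop} (h : X.Closed S) (n : ℕ) (x y : Subtype S) : Subtype S :=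
  if e : X.d true n x.1 = X.d false n y.1 then ⟨X.comp n x.1 y.1, h.comp _ _ _ e x.2 y.2⟩ else x

theorem Closed.cp_val {S : X.C → Prop} (h : X.Closed S) {n : ℕ} {x y : Subtype S}
    (e : X.d true n x.1 = X.d false n y.1) : (h.cp n x y).1 = X.comp n x.1 y.1 := by
  rw [Closed.cp, dif_pos e]

/-- The subcategory on a closed set of cells. -/
@[implicit_reducible] def sub {S : X.C → Prop} (h : X.Closed S) : OmegaCat where
  C := Subtype S
  d a n x := ⟨X.d a n x.1, h.d a n _ x.2⟩
  comp := h.cp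
  d_lt x k := Subtype.ext (X.d_lt x.1 k)
  d_ge x k := Subtype.ext (X.d_ge x.1 k)
  id_comp n x := Subtype.ext ((h.cp_val (X.d_ge _ le_rfl)).trans (X.id_comp n x.1))
  comp_id n x := Subtype.ext ((h.cp_val (X.d_ge _ le_rfl).symm).trans (X.comp_id n x.1))
  src_comp e := Subtype.ext (by
    have e := congrArg Subtype.val e
    exact (congrArg _ (h.cp_val e)).trans (X.src_comp e))
  tgt_comp e := Subtype.ext (by
    have e := congrArg Subtype.val e
    exact (congrArg _ (h.cp_val e)).trans (X.tgt_comp e))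
  d_comp {a m n x y} e k := Subtype.ext (by
    have e : X.d true n x.1 = X.d false n y.1 := congrArg Subtype.val e
    exact ((congrArg _ (h.cp_val e)).trans (X.d_comp e k)).trans
      (h.cp_val (x := ⟨_, h.d a m _ x.2⟩) (y := ⟨_, h.d a m _ y.2⟩) (d_cmp e k)).symm)
  assoc {n x y z} e e' := Subtype.ext (by
    have e : X.d true n x.1 = X.d false n y.1 := congrArg Subtype.val e
    have e' : X.d true n y.1 = X.d false n z.1 := congrArg Subtype.val e'
    rw [h.cp_val (by rw [h.cp_val e, X.tgt_comp e, e']), h.cp_val e,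
      h.cp_val (by rw [h.cp_val e', X.src_comp e', e]), h.cp_val e', X.assoc e e'])
  interchange {m n x y z w} l e e' j := Subtype.ext (by
    have e : X.d true n x.1 = X.d false n y.1 := congrArg Subtype.val e
    have e' : X.d true n z.1 = X.d false n w.1 := congrArg Subtype.val e'
    have j : X.d true m x.1 = X.d false m z.1 := congrArg Subtype.val j
    have j' : X.d true m y.1 = X.d false m w.1 := by rw [← d_lt_eq e l, ← d_lt_eq e' l, j]
    rw [h.cp_val (by rw [h.cp_val e, h.cp_val e', d_comp_lt e l, d_comp_lt e' l, j]),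
      h.cp_val e, h.cp_val e', h.cp_val (by
        rw [h.cp_val j, h.cp_val j', X.d_comp j l.ne', X.d_comp j' l.ne', e, e']),
      h.cp_val j, h.cp_val j', X.interchange l e e' j])
  fin x := let ⟨n, e⟩ := X.fin x.1; ⟨n, Subtype.ext e⟩

/-- The inclusion of a subcategory. -/
def subι {S : X.C → Prop} (h : X.Closed S) : sub h ⟶ X :=
  ⟨Subtype.val, fun _ _ _ => rfl, fun e => h.cp_val (congrArg Subtype.val e)⟩

/-- Lifting a functor to a subcategory. -/
def subLift {S : X.C → Prop} (h : X.Closed S) (F : Y ⟶ X) (hF : ∀ y, S (F.f y)) : Y ⟶ sub h :=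
  ⟨fun y => ⟨F.f y, hF y⟩, fun a n y => Subtype.ext (F.map_d a n y), fun e =>
    Subtype.ext ((F.map_comp e).trans
      (h.cp_val (x := ⟨_, hF _⟩) (y := ⟨_, hF _⟩) (F.cmp e)).symm)⟩

@[simp] theorem subLift_ι {S : X.C → Prop} (h : X.Closed S) (F : Y ⟶ X) (hF : ∀ y, S (F.f y)) :
    subLift h F hF ≫ subι h = F := rfl

theorem sub_ncat {n : ℕ∞} {S : X.C → Prop} (h : X.Closed S) (hX : IsNCat n X) :
    IsNCat n (sub h) := fun k x e => Subtype.ext (hX k x.1 e)

/-- The binary product. -/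
@[implicit_reducible] def prod (X Y : OmegaCat) : OmegaCat where
  C := X.C × Y.C
  d a n x := (X.d a n x.1, Y.d a n x.2)
  comp n x y := (X.comp n x.1 y.1, Y.comp n x.2 y.2)
  d_lt x k := Prod.ext (X.d_lt _ k) (Y.d_lt _ k)
  d_ge x k := Prod.ext (X.d_ge _ k) (Y.d_ge _ k)
  id_comp n x := Prod.ext (X.id_comp _ _) (Y.id_comp _ _)
  comp_id n x := Prod.ext (X.comp_id _ _) (Y.comp_id _ _)
  src_comp e := Prod.ext (X.src_comp (congrArg Prod.fst e)) (Y.src_comp (congrArg Prod.snd e))
  tgt_comp e := Prod.ext (X.tgt_comp (congrArg Prod.fst e)) (Y.tgt_comp (congrArg Prod.snd e))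
  d_comp e k := Prod.ext (X.d_comp (congrArg Prod.fst e) k) (Y.d_comp (congrArg Prod.snd e) k)
  assoc e e' := Prod.ext (X.assoc (congrArg Prod.fst e) (congrArg Prod.fst e'))
    (Y.assoc (congrArg Prod.snd e) (congrArg Prod.snd e'))
  interchange l e e' j :=
    Prod.ext (X.interchange l (congrArg Prod.fst e) (congrArg Prod.fst e') (congrArg Prod.fst j))
      (Y.interchange l (congrArg Prod.snd e) (congrArg Prod.snd e') (congrArg Prod.snd j))
  fin x := let ⟨k, e⟩ := X.fin x.1; let ⟨l, e'⟩ := Y.fin x.2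
    ⟨max k l, Prod.ext (d_of_d e (le_max_left k l)) (d_of_d e' (le_max_right k l))⟩

/-- The terminal omega-category. -/
@[implicit_reducible] def pt : OmegaCat where
  C := Unit
  d _ _ _ := ()
  comp _ _ _ := ()
  d_lt _ _ := rfl
  d_ge _ _ := rfl
  id_comp _ _ := rfl
  comp_id _ _ := rfl
  src_comp _ := rfl
  tgt_comp _ := rfl
  d_comp _ _ := rfl
  assoc _ _ := rfl
  interchange _ _ _ _ := rfl
  fin _ := ⟨0, rfl⟩

/-- The map to the point. -/
def toPt (X : OmegaCat) : X ⟶ pt := ⟨fun _ => (), fun _ _ _ => rfl, fun _ => rfl⟩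

/-- Sieves: the cells whose target object lies in a set of objects closed under sources. -/
structure IsSieve (X : OmegaCat) (S : X.C → Prop) : Prop where
  tgt : ∀ x, S x ↔ S (X.d true 0 x)
  src : ∀ x, S x → S (X.d false 0 x)

theorem IsSieve.closed {S : X.C → Prop} (h : X.IsSieve S) : X.Closed S where
  d a n x hx := by
    rcases n with _ | n
    · cases a
      exacts [h.src x hx, (h.tgt x).1 hx]
    · rw [h.tgt, X.d_lt _ n.succ_pos]
      exact (h.tgt x).1 hx
  comp n x y e hx hy := by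
    rw [h.tgt]
    rcases n with _ | n
    · rw [X.tgt_comp e]
      exact (h.tgt y).1 hy
    · rw [d_comp_lt e n.succ_pos]
      exact (h.tgt x).1 hx

theorem IsSieve.preimage {S : Y.C → Prop} (h : Y.IsSieve S) (F : X ⟶ Y) :
    X.IsSieve fun x => S (F.f x) :=
  ⟨fun x => by rw [F.map_d]; exact h.tgt _, fun x hx => by rw [F.map_d]; exact h.src _ hx⟩

/-- Inclusions of sieves. -/
structure SieveIncl (j : X ⟶ Y) : Prop where
  inj : Function.Injective j.f
  sieve : Y.IsSieve fun y => ∃ x, j.f x = y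

end OmegaCat

end Vale.Agent.P213
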