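import Vale.Agent.P213.Fam

/-! Pushouts along inclusions of lower sets and their sieves. -/

open CategoryTheory Limits Opposite Simplicial MonoidalCategory SSet

set_option backward.isDefEq.respectTransparency false

noncomputable section

namespace Vale.Agent.P213

open OmegaCat

variable {B : Type} [PartialOrder B] {n : ℕ∞} {A D E : Set B} {X P : OmegaCat}

/-- `P` is the pushout of `X` and of the `n`-category generated by the nerve of `D` along the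
`n`-category generated by the nerve of `A`. -/
structure IsPO (n : ℕ∞) (hA : A ⊆ D) (f : Fam A X) (j : X ⟶ P) (g : Fam D P) : Prop where
  one : 1 ≤ n
  lower : IsLowerSet A
  hX : IsNCat n X
  hP : IsNCat n P
  w : f.post j = g.res hA
  desc : ∀ {Y : OmegaCat}, IsNCat n Y → ∀ (u : X ⟶ Y) (v : Fam D Y), f.post u = v.res hA →
    ∃ F : P ⟶ Y, j ≫ F = u ∧ g.post F = v
  ext : ∀ {Y : OmegaCat}, IsNCat n Y → ∀ F G : P ⟶ Y, j ≫ F = j ≫ G → g.post F = g.post G → F = G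

/-- The cells whose target object comes from `X` or from `E`. -/
def sv (j : X ⟶ P) (g : Fam D P) (E : Set B) (x : P.C) : Prop :=
  (∃ z, j.f z = P.d true 0 x) ∨ ∃ b hb, b ∈ E ∧ g.ob b hb = P.d true 0 x

theorem sv_mono (j : X ⟶ P) (g : Fam D P) {E E' : Set B} (h : E ⊆ E') (x : P.C) (k : sv j g E x) :
    sv j g E' x :=
  k.imp id fun ⟨b, hb, h1, h2⟩ => ⟨b, hb, h h1, h2⟩

theorem po_fam_ext {Y : OmegaCat} {g g' : Fam D Y}
    (h : ∀ (m : ℕ) (σ : Fin (m + 1) →o B) (k : ∀ i, σ i ∈ D), g.app σ k = g'.app σ k) : g = g' :=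
  Fam.ext (funext fun m => funext fun σ => funext fun k => h m σ k)

theorem po_fam_app {Y : OmegaCat} {g g' : Fam D Y} (h : g = g') {m : ℕ} (σ : Fin (m + 1) →o B)
    (k : ∀ i, σ i ∈ D) : g.app σ k = g'.app σ k := by rw [h]

theorem po_cancel {Y Z W : OmegaCat} {F G : Y ⟶ Z} (i : Z ⟶ W) (hi : Function.Injective i.f)
    (h : F ≫ i = G ≫ i) : F = G :=
  hom_ext fun y => hi (congrArg (fun H : Y ⟶ W => H.f y) h)

/-- Lifting a family to a subcategory. -/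
def poLift {Y : OmegaCat} {S : Y.C → Prop} (hS : Y.Closed S) (g : Fam D Y)
    (h : ∀ (m : ℕ) (σ : Fin (m + 1) →o B) (k : ∀ i, σ i ∈ D) u, S ((g.app σ k).f u)) :
    Fam D (sub hS) :=
  ⟨fun σ k => subLift hS (g.app σ k) (h _ σ k), fun θ σ k =>
    po_cancel (subι hS) Subtype.val_injective (g.nat θ σ k)⟩

theorem po_app_d {Y : OmegaCat} (g : Fam D Y) {m : ℕ} (σ : Fin (m + 1) →o B) (k : ∀ i, σ i ∈ D)
    {a : Bool} {u : (Ori m).C} {i : Fin (m + 1)} (hu : (Ori m).d a 0 u = vtx i) :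
    Y.d a 0 ((g.app σ k).f u) = g.ob (σ i) (k i) := by
  rw [← Hom.map_d, hu, g.app_vtx]

theorem po_of_d {Y : OmegaCat} {S : Y.C → Prop} (h : Y.IsSieve S) {a : Bool} {k : ℕ} {x : Y.C}
    (hx : S (Y.d a (k + 1) x)) : S x := by
  rw [h.tgt, Y.d_lt _ k.succ_pos] at hx
  exact (h.tgt x).2 hx

theorem po_of_comp {Y : OmegaCat} {S : Y.C → Prop} (h : Y.IsSieve S) {k : ℕ} {x y : Y.C}
    (e : Y.d true k x = Y.d false k y) (hx : S (Y.comp k x y)) : S x ∧ S y := by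
  rw [h.tgt] at hx
  rcases k with _ | k
  · rw [Y.tgt_comp e] at hx
    have hy := (h.tgt y).2 hx
    exact ⟨(h.tgt x).2 (e ▸ h.src y hy), hy⟩
  · rw [d_comp_lt e k.succ_pos] at hx
    exact ⟨(h.tgt x).2 hx, (h.tgt y).2 (d_lt_eq e k.succ_pos ▸ hx)⟩

/-- A simplex truncated at a vertex. -/
def poMin {m : ℕ} (σ : Fin (m + 1) →o B) (i : Fin (m + 1)) : Fin (m + 1) →o B :=
  ⟨fun k => σ (min k i), fun _ _ h => σ.monotone (min_le_min_right i h)⟩

theorem poMin_mem (hE : IsLowerSet E) {m : ℕ} {σ : Fin (m + 1) →o B} {i : Fin (m + 1)}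
    (h : σ i ∈ E) (k : Fin (m + 1)) : poMin σ i k ∈ E :=
  hE (σ.monotone (min_le_right k i)) h

theorem poMin_eq {m : ℕ} (σ : Fin (m + 1) →o B) {i k : Fin (m + 1)} (h : k ≤ i) :
    σ k = poMin σ i k :=
  congrArg σ (min_eq_left h).symm

theorem po_sieve (hE : IsLowerSet E) {m : ℕ} (σ : Fin (m + 1) →o B) :
    (Ori m).IsSieve fun u => ∃ i, (Ori m).d true 0 u = vtx i ∧ σ i ∈ E where
  tgt u := by rw [(Ori m).d_ge u le_rfl]
  src u := fun ⟨i, hi, hσ⟩ => by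
    obtain ⟨k, hk⟩ := exists_vtx u false
    exact ⟨k, ((Ori m).d_ge u le_rfl).trans hk, hE (σ.monotone (src_le_tgt hk hi)) hσ⟩

theorem po_phi {Y : OmegaCat} (v : Fam E Y) (hE : IsLowerSet E) {m : ℕ} (σ : Fin (m + 1) →o B) :
    ∃ φ : sub (po_sieve hE σ).closed ⟶ Y, ∀ (w : (sub (po_sieve hE σ).closed).C)
      (τ : Fin (m + 1) →o B) (hτ : ∀ i, τ i ∈ E) (i : Fin (m + 1)), (Ori m).d true 0 w.1 = vtx i →
        (∀ k ≤ i, σ k = τ k) → φ.f w = (v.app τ hτ).f w.1 := by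
  classical
  by_cases h : ∃ i, σ i ∈ E
  · obtain ⟨i0, h0, h1⟩ := (Finset.univ.filter fun i => σ i ∈ E).exists_max_image id
      (let ⟨i, hi⟩ := h; ⟨i, Finset.mem_filter.2 ⟨Finset.mem_univ _, hi⟩⟩)
    refine ⟨subι _ ≫ v.app (poMin σ i0) (poMin_mem hE (Finset.mem_filter.1 h0).2),
      fun w τ hτ i hi e => v.app_congr _ _ hi fun k hk => ?_⟩
    have : i ≤ i0 := h1 i (Finset.mem_filter.2 ⟨Finset.mem_univ _, e i le_rfl ▸ hτ i⟩)
    rw [← poMin_eq σ (hk.trans this), e k hk]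
  · have h' : ∀ _ : (sub (po_sieve hE σ).closed).C, False := fun w =>
      let ⟨i, _, hi⟩ := w.2; h ⟨i, hi⟩
    exact ⟨⟨fun w => (h' w).elim, fun _ _ w => (h' w).elim, fun {_ w _} _ => (h' w).elim⟩,
      fun w => (h' w).elim⟩

/-- The defining property of the simplex of the cone attached to `σ`. -/
def PoSpec {Y : OmegaCat} (C : ConeData Y) (v : Fam E Y) {m : ℕ} (σ : Fin (m + 1) →o B)
    (Ψ : Ori m ⟶ C.Q) : Prop :=
  ∀ w i, (Ori m).d true 0 w = vtx i → (∀ z, Ψ.f w = C.ι.f z → σ i ∈ E) ∧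
    ∀ (τ : Fin (m + 1) →o B) (hτ : ∀ i, τ i ∈ E), (∀ k ≤ i, σ k = τ k) →
      Ψ.f w = C.ι.f ((v.app τ hτ).f w)

theorem po_spec_exists {Y : OmegaCat} (C : ConeData Y) (v : Fam E Y) (hE : IsLowerSet E) {m : ℕ}
    (σ : Fin (m + 1) →o B) : ∃ Ψ, PoSpec C v σ Ψ := by
  obtain ⟨φ, hφ⟩ := po_phi v hE σ
  obtain ⟨Ψ, h1, h2⟩ := C.desc (po_sieve hE σ) φ
  refine ⟨Ψ, fun w i hi => ⟨fun z hz => ?_, fun τ hτ e => ?_⟩⟩
  · obtain ⟨k, hk, hσ⟩ := h2 w z hz
    rwa [vtx_injective (hi.symm.trans hk)]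
  · rw [h1 w ⟨i, hi, e i le_rfl ▸ hτ i⟩, hφ _ τ hτ i hi e]

theorem po_spec_unique {Y : OmegaCat} {C : ConeData Y} {v : Fam E Y} (hE : IsLowerSet E) {m : ℕ}
    {σ : Fin (m + 1) →o B} {Ψ Ψ' : Ori m ⟶ C.Q} (h : PoSpec C v σ Ψ) (h' : PoSpec C v σ Ψ') :
    Ψ = Ψ' := by
  have key : ∀ {Ψ Ψ' : Ori m ⟶ C.Q}, PoSpec C v σ Ψ → PoSpec C v σ Ψ' → ∀ w z,
      Ψ.f w = C.ι.f z → Ψ'.f w = C.ι.f z := fun h h' w z hz => by
    obtain ⟨i, hi⟩ := exists_vtx w true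
    have hσ := (h w i hi).1 z hz
    rw [← hz, (h w i hi).2 _ (poMin_mem hE hσ) fun k hk => poMin_eq σ hk,
      (h' w i hi).2 _ (poMin_mem hE hσ) fun k hk => poMin_eq σ hk]
  exact C.ext _ _ fun w z => ⟨key h h' w z, key h' h w z⟩

theorem po_spec_nat {Y : OmegaCat} {C : ConeData Y} {v : Fam E Y} (hE : IsLowerSet E) {k m : ℕ}
    (θ : Fin (k + 1) →o Fin (m + 1)) {σ : Fin (m + 1) →o B} {Ψ : Ori m ⟶ C.Q}
    (h : PoSpec C v σ Ψ) : PoSpec C v (σ.comp θ) ((simplexMap θ).nu ≫ Ψ) := by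
  intro w i hi
  have hi' : (Ori m).d true 0 ((simplexMap θ).nu.f w) = vtx (θ i) := by
    rw [← Hom.map_d, hi]
    exact simplexMap_vtx θ i
  refine ⟨(h _ _ hi').1, fun τ hτ e => ?_⟩
  have hσ : σ (θ i) ∈ E := (e i le_rfl : σ (θ i) = τ i) ▸ hτ i
  rw [comp_f, (h _ _ hi').2 _ (poMin_mem hE hσ) fun k hk => poMin_eq σ hk,
    ← comp_f (simplexMap θ).nu, v.nat]
  refine congrArg C.ι.f (v.app_congr _ _ hi fun l hl => ?_)
  rw [← e l hl]
  exact (poMin_eq σ (θ.monotone hl)).symm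

theorem po_cone_fam {Y : OmegaCat} (C : ConeData Y) (v : Fam E Y) (hE : IsLowerSet E)
    (D : Set B) : ∃ G : Fam D C.Q,
      (∀ (m : ℕ) (σ : Fin (m + 1) →o B) (k : ∀ i, σ i ∈ D) (k' : ∀ i, σ i ∈ E),
        G.app σ k = v.app σ k' ≫ C.ι) ∧ ∀ b hb z, G.ob b hb = C.ι.f z → b ∈ E := by
  choose Ψ hΨ using fun (m : ℕ) (σ : Fin (m + 1) →o B) => po_spec_exists C v hE σ
  refine ⟨⟨fun σ _ => Ψ _ σ, fun θ σ _ => po_spec_unique hE (po_spec_nat hE θ (hΨ _ σ)) (hΨ _ _)⟩,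
    fun m σ k k' => hom_ext fun w => ?_, fun b hb z hz => ?_⟩
  · obtain ⟨i, hi⟩ := exists_vtx w true
    exact (hΨ m σ w i hi).2 σ k' fun _ _ => rfl
  · exact (hΨ 0 (OrderHom.const _ b) (vtx 0) 0 (vtx_d _ _ _)).1 z hz

namespace IsPO

variable {hA : A ⊆ D} {f : Fam A X} {j : X ⟶ P} {g : Fam D P}

theorem gen (h : IsPO n hA f j g) {S : P.C → Prop} (hS : P.Closed S) (h1 : ∀ z, S (j.f z))
    (h2 : ∀ (m : ℕ) (σ : Fin (m + 1) →o B) (k : ∀ i, σ i ∈ D) u, S ((g.app σ k).f u)) (x : P.C) :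
    S x := by
  obtain ⟨F, e1, e2⟩ := h.desc (sub_ncat hS h.hP) (subLift hS j h1) (poLift hS g h2)
    (po_fam_ext fun m σ k => po_cancel (subι hS) Subtype.val_injective (po_fam_app h.w σ k))
  have e : F ≫ subι hS = 𝟙 P := h.ext h.hP _ _
    (by rw [← Category.assoc, e1, Category.comp_id]; rfl)
    (po_fam_ext fun m σ k => congrArg (· ≫ subι hS) (po_fam_app e2 σ k))
  have e' : (F.f x).1 = x := congrArg (fun H : P ⟶ P => H.f x) e
  exact e' ▸ (F.f x).2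

theorem sv_top (h : IsPO n hA f j g) (x : P.C) : sv j g D x := by
  refine h.gen (S := fun x => ∀ a, (∃ z, j.f z = P.d a 0 x) ∨
    ∃ b hb, b ∈ D ∧ g.ob b hb = P.d a 0 x) ⟨fun a k x hx e => ?_, fun k x y e hx hy a => ?_⟩
    (fun z a => Or.inl ⟨_, j.map_d a 0 z⟩) (fun m σ k u a => ?_) x true
  · rcases k with _ | k
    · rw [P.d_ge x le_rfl]
      exact hx a
    · rw [P.d_lt x k.succ_pos]
      exact hx e
  · rcases k with _ | k
    · cases a
      · rw [P.src_comp e]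
        exact hx false
      · rw [P.tgt_comp e]
        exact hy true
    · rw [d_comp_lt e k.succ_pos]
      exact hx a
  · obtain ⟨i, hi⟩ := exists_vtx u a
    exact Or.inr ⟨σ i, k i, k i, (po_app_d g σ k hi).symm⟩

theorem po_cone (h : IsPO n hA f j g) (hAE : A ⊆ E) (hE : IsLowerSet E) {Y : OmegaCat}
    (hY : IsNCat n Y) (C : ConeData Y) (u : X ⟶ Y) (v : Fam E Y) (w : f.post u = v.res hAE) :
    ∃ F : P ⟶ C.Q, j ≫ F = u ≫ C.ι ∧
      (∀ (m : ℕ) (σ : Fin (m + 1) →o B) (k : ∀ i, σ i ∈ D) (k' : ∀ i, σ i ∈ E),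
        g.app σ k ≫ F = v.app σ k' ≫ C.ι) ∧
      (∀ b hb z, F.f (g.ob b hb) = C.ι.f z → b ∈ E) ∧
      ∀ x, sv j g E x ↔ ∃ z, C.ι.f z = F.f x := by
  obtain ⟨G, h1, h2⟩ := po_cone_fam C v hE D
  obtain ⟨F, e1, e2⟩ := h.desc (C.ncat n h.one hY) (u ≫ C.ι) G (po_fam_ext fun m σ k =>
    (congrArg (· ≫ C.ι) (po_fam_app w σ k)).trans (h1 m σ _ fun i => hAE (k i)).symm)
  have h3 : ∀ (m : ℕ) (σ : Fin (m + 1) →o B) (k : ∀ i, σ i ∈ D) (k' : ∀ i, σ i ∈ E),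
      g.app σ k ≫ F = v.app σ k' ≫ C.ι := fun m σ k k' =>
    (po_fam_app e2 σ k).trans (h1 m σ k k')
  have h4 : ∀ b hb z, F.f (g.ob b hb) = C.ι.f z → b ∈ E := fun b hb z hz =>
    h2 b hb z (by rw [← e2]; exact hz)
  refine ⟨F, e1, h3, h4, fun x => ?_⟩
  rw [C.incl.sieve.tgt, ← F.map_d]
  constructor
  · rintro (⟨z, hz⟩ | ⟨b, hb, hb', hz⟩)
    · exact ⟨u.f z, by rw [← hz, ← comp_f, ← e1, comp_f]⟩
    · refine ⟨v.ob b hb', ?_⟩
      rw [← hz]
      exact (congrArg (fun H : Ori 0 ⟶ C.Q => H.f (vtx 0))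
        (h3 0 (OrderHom.const _ b) (fun _ => hb) fun _ => hb')).symm
  · rintro ⟨z, hz⟩
    rcases h.sv_top x with k | ⟨b, hb, -, k⟩
    · exact Or.inl k
    · exact Or.inr ⟨b, hb, h4 b hb z (by rw [k, hz]), k⟩

theorem po_cone_pt (h : IsPO n hA f j g) (hAE : A ⊆ E) (hE : IsLowerSet E) :
    ∃ (C : ConeData pt) (F : P ⟶ C.Q), (∀ b hb z, F.f (g.ob b hb) = C.ι.f z → b ∈ E) ∧
      ∀ x, sv j g E x ↔ ∃ z, C.ι.f z = F.f x := by
  obtain ⟨C⟩ := nonempty_cone pt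
  obtain ⟨F, -, -, h1, h2⟩ := h.po_cone hAE hE (fun _ _ _ => rfl) C (toPt X)
    ⟨fun _ _ => toPt _, fun _ _ _ => rfl⟩ (po_fam_ext fun _ _ _ => rfl)
  exact ⟨C, F, h1, h2⟩

theorem sv_sieve (h : IsPO n hA f j g) (hAE : A ⊆ E) (hE : IsLowerSet E) :
    P.IsSieve (sv j g E) := by
  obtain ⟨C, F, -, h2⟩ := h.po_cone_pt hAE hE
  rw [show sv j g E = fun x => ∃ z, C.ι.f z = F.f x from funext fun x => propext (h2 x)]
  exact C.incl.sieve.preimage F

theorem sv_ob (h : IsPO n hA f j g) (hAE : A ⊆ E) (hE : IsLowerSet E) (b : B) (hb : b ∈ D) :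
    sv j g E (g.ob b hb) ↔ b ∈ E := by
  refine ⟨fun k => ?_, fun k => Or.inr ⟨b, hb, k, (g.ob_d b hb true 0).symm⟩⟩
  obtain ⟨C, F, h1, h2⟩ := h.po_cone_pt hAE hE
  obtain ⟨z, hz⟩ := (h2 _).1 k
  exact h1 b hb z hz.symm

theorem restrict (h : IsPO n hA f j g) (hAE : A ⊆ E) (hE : IsLowerSet E) (hED : E ⊆ D) :
    ∃ (j' : X ⟶ sub (h.sv_sieve hAE hE).closed) (g' : Fam E (sub (h.sv_sieve hAE hE).closed)),
      j' ≫ subι _ = j ∧ g'.post (subι _) = g.res hED ∧ IsPO n hAE f j' g' := by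
  have hS := h.sv_sieve hAE hE
  have s1 : ∀ z, sv j g E (j.f z) := fun z => Or.inl ⟨_, j.map_d true 0 z⟩
  have s2 : ∀ (m : ℕ) (σ : Fin (m + 1) →o B) (k : ∀ i, σ i ∈ E) u,
      sv j g E (((g.res hED).app σ k).f u) := fun m σ k u => by
    obtain ⟨i, hi⟩ := exists_vtx u true
    exact Or.inr ⟨σ i, hED (k i), k i, (po_app_d g σ (fun i => hED (k i)) hi).symm⟩
  refine ⟨subLift hS.closed j s1, poLift hS.closed (g.res hED) s2, rfl, rfl, h.one, h.lower, h.hX,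
    sub_ncat _ h.hP, po_fam_ext fun m σ k =>
      po_cancel (subι hS.closed) Subtype.val_injective (po_fam_app h.w σ k),
    fun {Y} hY u v w => ?_, fun {Y} hY F G e1 e2 => ?_⟩
  · obtain ⟨C⟩ := nonempty_cone Y
    obtain ⟨F, h1, h2, -, h4⟩ := h.po_cone hAE hE hY C u v w
    obtain ⟨F', hF'⟩ := exists_lift_of_injective C.ι C.incl.inj (subι hS.closed ≫ F)
      fun x => (h4 x.1).1 x.2
    refine ⟨F', po_cancel C.ι C.incl.inj ?_, po_fam_ext fun m σ k => po_cancel C.ι C.incl.inj ?_⟩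
    · rw [Category.assoc, hF']
      exact h1
    · refine (Category.assoc _ _ _).trans ?_
      rw [hF']
      exact h2 m σ (fun i => hED (k i)) k
  · have t1 : ∀ z, F.f ⟨j.f z, s1 z⟩ = G.f ⟨j.f z, s1 z⟩ := fun z =>
      congrArg (fun H : X ⟶ Y => H.f z) e1
    have t2 : ∀ (m : ℕ) (σ : Fin (m + 1) →o B) (k : ∀ i, σ i ∈ E) u,
        F.f ⟨_, s2 m σ k u⟩ = G.f ⟨_, s2 m σ k u⟩ := fun m σ k u =>
      congrArg (fun H : Ori m ⟶ Y => H.f u) (po_fam_app e2 σ k)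
    have t3 : ∀ {x y} (hx : sv j g E x) (hy : sv j g E y), x = y → F.f ⟨y, hy⟩ = G.f ⟨y, hy⟩ →
        F.f ⟨x, hx⟩ = G.f ⟨x, hx⟩ := fun hx hy e k => by subst e; exact k
    refine hom_ext fun x => h.gen (S := fun x => ∀ hx : sv j g E x, F.f ⟨x, hx⟩ = G.f ⟨x, hx⟩)
      ⟨fun a k x hx hd => ?_, fun k x y e hx hy hd => ?_⟩ (fun z _ => t1 z)
      (fun m σ k u hu => ?_) x.1 x.2
    · rcases k with _ | k
      · rcases id hd with ⟨z, hz⟩ | ⟨b, hb, hb', hz⟩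
        · exact t3 _ _ (hz.trans (P.d_ge x le_rfl)).symm (t1 z)
        · exact t3 _ _ (hz.trans (P.d_ge x le_rfl)).symm
            (t2 0 (OrderHom.const _ b) (fun _ => hb') (vtx 0))
      · have hx' := po_of_d hS hd
        exact (F.map_d a (k + 1) ⟨x, hx'⟩).trans
          ((congrArg _ (hx hx')).trans (G.map_d a (k + 1) ⟨x, hx'⟩).symm)
    · obtain ⟨hx', hy'⟩ := po_of_comp hS e hd
      have e' : (sub hS.closed).d true k ⟨x, hx'⟩ = (sub hS.closed).d false k ⟨y, hy'⟩ :=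
        Subtype.ext e
      have e'' : (⟨P.comp k x y, hd⟩ : (sub hS.closed).C) =
          (sub hS.closed).comp k ⟨x, hx'⟩ ⟨y, hy'⟩ :=
        Subtype.ext (hS.closed.cp_val (x := ⟨x, hx'⟩) (y := ⟨y, hy'⟩) e).symm
      rw [e'', F.map_comp e', G.map_comp e', hx hx', hy hy']
    · obtain ⟨i, hi⟩ := exists_vtx u true
      have hσ : σ i ∈ E := by
        have := (hS.tgt _).1 hu
        rw [po_app_d g σ k hi] at this
        exact (h.sv_ob hAE hE _ _).1 this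
      exact t3 _ _ (g.app_congr k (fun l => hED (poMin_mem hE hσ l)) hi fun l hl => poMin_eq σ hl)
        (t2 m (poMin σ i) (poMin_mem hE hσ) u)

theorem po_self (h : IsPO n hA f j g) :
    Function.Injective j.f ∧ ∀ x, sv j g A x → ∃ z, j.f z = x := by
  obtain ⟨j', g', e1, -, h'⟩ := h.restrict subset_rfl h.lower hA
  obtain ⟨F, k1, k2⟩ := h'.desc h.hX (𝟙 X) f (po_fam_ext fun _ _ _ => Category.comp_id _)
  have k3 : F ≫ j' = 𝟙 _ := h'.ext h'.hP _ _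
    (by rw [← Category.assoc, k1, Category.id_comp, Category.comp_id])
    (po_fam_ext fun m σ k => (congrArg (· ≫ j') (po_fam_app k2 σ k)).trans (po_fam_app h'.w σ k))
  refine ⟨fun z z' e => ?_, fun x hx => ⟨F.f ⟨x, hx⟩, ?_⟩⟩
  · have e' : j'.f z = j'.f z' := Subtype.ext (by rw [← e1] at e; exact e)
    rw [← id_f z, ← k1, comp_f, e', ← comp_f, k1, id_f]
  · have e' : j'.f (F.f ⟨x, hx⟩) = ⟨x, hx⟩ :=
      congrArg (fun H : sub (h.sv_sieve subset_rfl h.lower).closed ⟶ sub _ => H.f ⟨x, hx⟩) k3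
    refine Eq.trans ?_ (congrArg Subtype.val e')
    exact (congrArg (fun H : X ⟶ P => H.f (F.f ⟨x, hx⟩)) e1).symm

theorem sv_self (h : IsPO n hA f j g) (x : P.C) : sv j g A x ↔ ∃ z, j.f z = x :=
  ⟨h.po_self.2 x, fun ⟨z, hz⟩ => Or.inl ⟨_, hz ▸ j.map_d true 0 z⟩⟩

theorem sieveIncl (h : IsPO n hA f j g) : SieveIncl j := by
  refine ⟨h.po_self.1, ?_⟩
  rw [← show sv j g A = fun x => ∃ z, j.f z = x from funext fun x => propext (h.sv_self x)]
  exact h.sv_sieve subset_rfl h.lower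

theorem po_min {m : B} {hA : A ⊆ insert m A} {g : Fam (insert m A) P} (h : IsPO n hA f j g)
    (hm : IsMin m) (x : P.C) : (∃ z, j.f z = x) ∨ x = g.ob m (Set.mem_insert m A) := by
  refine h.gen (S := fun x => (∃ z, j.f z = x) ∨ x = g.ob m (Set.mem_insert m A))
    ⟨?_, fun k x y e hx hy => ?_⟩ (fun z => Or.inl ⟨z, rfl⟩) (fun l σ k u => ?_) x
  · rintro a k x (⟨z, rfl⟩ | rfl)
    · exact Or.inl ⟨_, j.map_d a k z⟩
    · exact Or.inr (g.ob_d _ _ _ _)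
  · rcases id hx with ⟨z, rfl⟩ | rfl
    · rcases hy with ⟨z', rfl⟩ | rfl
      · exact Or.inl ⟨_, j.map_comp (h.po_self.1 (by rw [j.map_d, j.map_d, e]))⟩
      · rw [g.ob_d] at e
        have := P.comp_id k (j.f z)
        rw [e] at this
        rwa [this]
    · rw [g.ob_d] at e
      have := P.id_comp k y
      rw [← e] at this
      rwa [this]
  · rcases k (Fin.last l) with e | e
    · right
      have e' : σ = (OrderHom.const (Fin 1) m).comp (OrderHom.const _ 0) :=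
        OrderHom.ext _ _ (funext fun i =>
          have : σ i ≤ m := e ▸ σ.monotone (Fin.le_last i)
          this.antisymm (hm this))
      subst e'
      rw [← g.nat (OrderHom.const _ 0) (OrderHom.const (Fin 1) m) fun _ => Set.mem_insert m A,
        comp_f, eq_vtx_of_subsingleton (V := Fin 1) ((simplexMap (OrderHom.const _ 0)).nu.f u) 0]
      rfl
    · exact Or.inl ⟨(f.app σ fun i => h.lower (σ.monotone (Fin.le_last i)) e).f u,
        congrArg (fun H : Ori l ⟶ P => H.f u) (po_fam_app h.w σ _)⟩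

/-- Adjoining a minimal element only adds an isolated object. -/
theorem sv_min (h : IsPO n hA f j g) {m : B} (hm : IsMin m) (hD : m ∈ D) (x : P.C)
    (hx : sv j g (insert m A) x) : (∃ z, j.f z = x) ∨ x = g.ob m hD := by
  have hE : IsLowerSet (insert m A) := by
    rintro a b hab (rfl | ha)
    · exact Or.inl (hab.antisymm (hm hab))
    · exact Or.inr (h.lower hab ha)
  obtain ⟨j', g', e1, e2, h'⟩ :=
    h.restrict (Set.subset_insert m A) hE (Set.insert_subset hD hA)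
  rcases h'.po_min hm ⟨x, hx⟩ with ⟨z, hz⟩ | hz
  · refine Or.inl ⟨z, Eq.trans ?_ (congrArg Subtype.val hz)⟩
    exact (congrArg (fun H : X ⟶ P => H.f z) e1).symm
  · refine Or.inr ((congrArg Subtype.val hz).trans ?_)
    exact congrArg (fun H : Fam (insert m A) P => H.ob m (Set.mem_insert m A)) e2

end IsPO

end Vale.Agent.P213
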