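import Vale.Agent.P213.GLem
import Vale.Agent.P213.KQ

/-! The transferred model structure. -/

open CategoryTheory Limits Opposite Simplicial MonoidalCategory SSet

set_option backward.isDefEq.respectTransparency false

noncomputable section

namespace Vale.Agent.P213

variable {n : ℕ∞}

section

variable {c : SSet.{0} ⥤ NCat n} {α : Type} {d : α → ℕ} {S : ∀ a, (Δ[d a] : SSet.{0}).Subcomplex}

/-- The images of a family of inclusions of subcomplexes of simplices. -/
def trGen (c : SSet.{0} ⥤ NCat n) (S : ∀ a, (Δ[d a] : SSet.{0}).Subcomplex) :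
    MorphismProperty (NCat n) :=
  MorphismProperty.ofHoms fun a => (sd ⋙ sd ⋙ c).map (S a).ι

theorem tr_att (adj : c ⊣ streetNerve n) {X Y : NCat n} {f : X ⟶ Y}
    (hf : (MorphismProperty.coproducts.{0} (trGen c S)).pushouts f) :
    ∃ (ι : Type) (π : ι → α) (u : c.obj (sd.obj (sd.obj (∐ fun k => (S (π k) : SSet.{0})))) ⟶ X)
      (v : c.obj (sd.obj (sd.obj (∐ fun k => (Δ[d (π k)] : SSet.{0})))) ⟶ Y),
      IsPushout u (c.map (sd.map (sd.map (Limits.Sigma.map fun k => (S (π k)).ι)))) f v := by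
  obtain ⟨A⟩ := (HomotopicalAlgebra.nonempty_attachCells_iff _ _).2 hf
  have := (sdExAdjunction.comp (sdExAdjunction.comp adj)).leftAdjoint_preservesColimits
  let h1 := isColimitOfHasCoproductOfPreservesColimit (sd ⋙ sd ⋙ c)
    (fun k => (S (A.π k) : SSet.{0}))
  let h2 := isColimitOfHasCoproductOfPreservesColimit (sd ⋙ sd ⋙ c)
    (fun k => (Δ[d (A.π k)] : SSet.{0}))
  let e1 := h1.coconePointUniqueUpToIso A.isColimit₁
  let e2 := h2.coconePointUniqueUpToIso A.isColimit₂
  have w : e1.hom ≫ A.m =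
      (sd ⋙ sd ⋙ c).map (Limits.Sigma.map fun k => (S (A.π k)).ι) ≫ e2.hom := by
    refine Cofan.IsColimit.hom_ext h1 _ _ fun k => ?_
    have a1 : (sd ⋙ sd ⋙ c).map (Sigma.ι (fun k => (S (A.π k) : SSet.{0})) k) ≫ e1.hom =
      A.cofan₁.inj k := h1.comp_coconePointUniqueUpToIso_hom A.isColimit₁ ⟨k⟩
    have a2 : (sd ⋙ sd ⋙ c).map (Sigma.ι (fun k => (Δ[d (A.π k)] : SSet.{0})) k) ≫ e2.hom =
      A.cofan₂.inj k := h2.comp_coconePointUniqueUpToIso_hom A.isColimit₂ ⟨k⟩
    change (sd ⋙ sd ⋙ c).map (Sigma.ι (fun k => (S (A.π k) : SSet.{0})) k) ≫ _ =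
      (sd ⋙ sd ⋙ c).map (Sigma.ι (fun k => (S (A.π k) : SSet.{0})) k) ≫ _
    rw [← Category.assoc, a1, A.hm, ← Functor.map_comp_assoc, Sigma.ι_map,
      Functor.map_comp_assoc, a2]
  exact ⟨A.ι, A.π, e1.hom ≫ A.g₁, e2.hom ≫ A.g₂,
    (IsPushout.of_horiz_isIso ⟨w⟩).paste_horiz A.isPushout⟩

theorem tr_SI (hn : 1 ≤ n) (adj : c ⊣ streetNerve n) {X Y : NCat n} {f : X ⟶ Y}
    (hf : (MorphismProperty.coproducts.{0} (trGen c S)).pushouts f) : SI n f := by
  obtain ⟨ι, π, u, v, h⟩ := tr_att adj hf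
  obtain ⟨P, _, ⟨e⟩⟩ := exists_nerve_sigma fun k => d (π k)
  exact (glem hn adj _ e h).1

theorem tr_TC (hn : 1 ≤ n) (adj : c ⊣ streetNerve n) (hS : ∀ a, WHE (S a).ι) {X Y : NCat n}
    {f : X ⟶ Y} (hf : (MorphismProperty.coproducts.{0} (trGen c S)).pushouts f) :
    TC ((streetNerve n).map f) := by
  obtain ⟨ι, π, u, v, h⟩ := tr_att adj hf
  obtain ⟨P, _, ⟨e⟩⟩ := exists_nerve_sigma fun k => d (π k)
  obtain ⟨h1, h2⟩ := glem hn adj _ e h
  refine ⟨mono_nerve_map f h1.inj, ?_⟩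
  obtain ⟨i, hi⟩ : ∃ i, i = Limits.Sigma.map fun k => (S (π k)).ι := ⟨_, rfl⟩
  have : Mono i := by rw [hi]; infer_instance
  have hw : WHE i := by rw [hi]; exact whe_sigma _ fun k => hS _
  rw [← hi] at h h2
  have := mono_sd i e
  have := mono_sd (sd.map i) (sd.mapIso e ≪≫ asIso (gam P))
  have w : adj.homEquiv _ _ u ≫ (streetNerve n).map f =
      sd.map (sd.map i) ≫ adj.homEquiv _ _ v := by
    rw [← adj.homEquiv_naturality_right, h.w, adj.homEquiv_naturality_left]
  have hp := IsPushout.of_hasPushout (adj.homEquiv _ _ u) (sd.map (sd.map i))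
  have ht := h2 _ _ _ hp (pushout.desc _ _ w) (pushout.inl_desc _ _ _) (pushout.inr_desc _ _ _)
  have ha : TC (pushout.inl (adj.homEquiv _ _ u) (sd.map (sd.map i))) :=
    MorphismProperty.of_isPushout hp
      ⟨MorphismProperty.monomorphisms.infer_property _, (whe_sd_iff _).2 ((whe_sd_iff _).2 hw)⟩
  rw [← pushout.inl_desc _ _ w]
  exact WHE.comp_mem _ _ ha.2 ht

/-- The nerve of a transfinite composition of sieve inclusions. -/
def trNerve (hn : 1 ≤ n) {J : Type} [LinearOrder J] [SuccOrder J] [OrderBot J] [WellFoundedLT J]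
    {X Y : NCat n} {f : X ⟶ Y} (h : TransfiniteCompositionOfShape J f)
    (hF : ∀ i, ¬IsMax i → SI n (h.F.map (homOfLE (Order.le_succ i)))) :
    TransfiniteCompositionOfShape J ((streetNerve n).map f) where
  F := h.F ⋙ streetNerve n
  isoBot := (streetNerve n).mapIso h.isoBot
  isWellOrderContinuous := chain_cont hn h.F hF
  incl := ((streetNerve n).mapCocone (Cocone.mk Y h.incl)).ι
  isColimit := (chain_colim hn (fun a => chain_map hn h.F hF a) h.isColimit).2.some
  fac := ((streetNerve n).map_comp _ _).symm.trans (congrArg _ h.fac)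

attribute [local instance] Cardinal.fact_isRegular_aleph0 Cardinal.orderBotAleph0OrdToType

theorem tr_small (hn : 1 ≤ n) (adj : c ⊣ streetNerve n) :
    MorphismProperty.HasSmallObjectArgument.{0} (trGen c S) := by
  refine ⟨.aleph0, inferInstance, inferInstance,
    { isSmall := MorphismProperty.isSmall_ofHoms ..
      preservesColimit := fun {A B X Y} i hi f hf => ?_ }⟩
  obtain ⟨a⟩ := hi
  have hF : ∀ i, ¬IsMax i → SI n (hf.F.map (homOfLE (Order.le_succ i))) := fun i hi => by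
    have := (hf.attachCells i hi).pushouts_coproducts
    rw [MorphismProperty.ofHoms_homFamily] at this
    exact tr_SI hn adj this
  have : PreservesColimit hf.F (streetNerve n) :=
    preservesColimit_of_preserves_colimit_cocone hf.isColimit
      (chain_colim hn (fun a => chain_map hn hf.F hF a) hf.isColimit).2.some
  have := finite_sd_sd (d a) (S a)
  have : IsFinitelyPresentable.{0} (sd.obj (sd.obj (S a : SSet.{0}))) := inferInstance
  exact preservesColimit_of_natIso hf.F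
    (adj.corepresentableBy (sd.obj (sd.obj (S a : SSet.{0})))).toIso.symm

theorem tr_le_Wn (hn : 1 ≤ n) (adj : c ⊣ streetNerve n) (hS : ∀ a, WHE (S a).ι) :
    (trGen c S).rlp.llp ≤ Wn n := by
  have := tr_small (S := S) hn adj
  have : (Wn n).IsStableUnderRetracts :=
    inferInstanceAs (WHE.inverseImage (streetNerve n)).IsStableUnderRetracts
  rw [MorphismProperty.llp_rlp_of_hasSmallObjectArgument.{0}, MorphismProperty.retracts_le_iff]
  intro X Y f hf
  rw [MorphismProperty.transfiniteCompositions_iff] at hf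
  obtain ⟨J, _, _, _, _, ⟨h⟩⟩ := hf
  have : TC ((streetNerve n).map f) := TC.transfiniteCompositionsOfShape_le J _
    ⟨⟨trNerve hn h.toTransfiniteCompositionOfShape fun i hi => tr_SI hn adj (h.map_mem i hi),
      fun i hi => tr_TC hn adj hS (h.map_mem i hi)⟩⟩
  exact this.2

theorem tr_rlp (adj : c ⊣ streetNerve n) {X Y : NCat n} (p : X ⟶ Y) :
    (trGen c S).rlp p ↔
      ∀ a, HasLiftingProperty (S a).ι (ex.map (ex.map ((streetNerve n).map p))) := by
  constructor
  · intro h a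
    exact ((sdExAdjunction.comp (sdExAdjunction.comp adj)).hasLiftingProperty_iff _ p).1
      (h _ ⟨a⟩)
  · rintro h _ _ _ ⟨a⟩
    exact ((sdExAdjunction.comp (sdExAdjunction.comp adj)).hasLiftingProperty_iff _ p).2 (h a)

theorem tr_fw {X Y : NCat n} (p : X ⟶ Y) :
    (Fn n ⊓ Wn n) p ↔ TFib (ex.map (ex.map ((streetNerve n).map p))) := by
  rw [tfib_iff, whe_ex_iff, whe_ex_iff]
  rfl

theorem tr_I (adj : c ⊣ streetNerve n) :
    (trGen (d := fun k => k) c fun k => ∂Δ[k]).rlp = Fn n ⊓ Wn n := by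
  ext X Y p
  rw [tr_rlp adj, tr_fw]
  exact ⟨fun h _ _ _ ⟨k⟩ => h k, fun h k => h _ ⟨k⟩⟩

theorem tr_J (adj : c ⊣ streetNerve n) :
    (trGen (α := Σ k : ℕ, Fin (k + 2)) (d := fun a => a.1 + 1) c
      fun a => Λ[a.1 + 1, a.2]).rlp = Fn n := by
  ext X Y p
  rw [tr_rlp adj]
  constructor
  · intro h A B i hi
    simp only [modelCategoryQuillen.J, MorphismProperty.iSup_iff] at hi
    obtain ⟨k, ⟨j⟩⟩ := hi
    exact h ⟨k, j⟩
  · intro h a
    exact h _ (modelCategoryQuillen.horn_ι_mem_J _ _)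

end

theorem isModel_ncat (hn : 1 ≤ n) : IsModel (Cn n) (Wn n) (Fn n) := by
  have := streetNerve_isRightAdjoint n
  have adj := Adjunction.ofIsRightAdjoint (streetNerve n)
  have hI := tr_small (d := fun k => k) (S := fun k => ∂Δ[k]) hn adj
  have hJ := tr_small (α := Σ k : ℕ, Fin (k + 2)) (d := fun a => a.1 + 1)
    (S := fun a => Λ[a.1 + 1, a.2]) hn adj
  have fI : MorphismProperty.HasFactorization (Cn n) (Fn n ⊓ Wn n) := by
    rw [Cn, ← tr_I adj]
    infer_instance
  have fJ : MorphismProperty.HasFactorization (Fn n).llp (Fn n) := by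
    rw [← tr_J adj]
    infer_instance
  have hW : (Fn n).llp ≤ Wn n := by
    rw [← tr_J adj]
    exact tr_le_Wn hn adj fun a => whe_of_anodyne (anodyneExtensions.horn_ι _)
  have hC : (Fn n).llp ≤ Cn n := MorphismProperty.antitone_llp inf_le_left
  have h23 : (Wn n).HasTwoOutOfThreeProperty :=
    inferInstanceAs (WHE.inverseImage (streetNerve n)).HasTwoOutOfThreeProperty
  have hlift : Cn n ⊓ Wn n ≤ (Fn n).llp := by
    intro A B i hi
    have h := MorphismProperty.factorizationData (Fn n).llp (Fn n) i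
    have hq : Wn n h.p := (Wn n).of_precomp _ _ (hW _ h.hi) (by rw [h.fac]; exact hi.2)
    have : HasLiftingProperty i h.p := hi.1 _ ⟨h.hp, hq⟩
    exact MorphismProperty.of_retract (RetractArrow.ofLeftLiftingProperty h.fac) h.hi
  refine ⟨{
    categoryWithFibrations := ⟨Fn n⟩
    categoryWithCofibrations := ⟨Cn n⟩
    categoryWithWeakEquivalences := ⟨Wn n⟩
    cm2 := h23
    cm3a := inferInstanceAs (WHE.inverseImage (streetNerve n)).IsStableUnderRetracts
    cm3b := inferInstanceAs (modelCategoryQuillen.J.rlp.inverseImage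
      (streetNerve n ⋙ SSet.ex ⋙ SSet.ex)).IsStableUnderRetracts
    cm3c := inferInstanceAs (Fn n ⊓ Wn n).llp.IsStableUnderRetracts
    cm4a := fun i p hi hw hp => hlift i ⟨hi.mem, hw.mem⟩ p hp.mem
    cm4b := fun i p hi hp hw => hi.mem p ⟨hp.mem, hw.mem⟩
    cm5a := ⟨fun f => ?_⟩
    cm5b := fI }, rfl, rfl, rfl⟩
  have h := MorphismProperty.factorizationData (Fn n).llp (Fn n) f
  exact ⟨⟨h.Z, h.i, h.p, h.fac, ⟨hC _ h.hi, hW _ h.hi⟩, h.hp⟩⟩

theorem cn_map {c : SSet.{0} ⥤ NCat n} (adj : c ⊣ streetNerve n) {K K' : SSet.{0}} (i : K ⟶ K')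
    [Mono i] : Cn n ((sd ⋙ sd ⋙ c).map i) := by
  intro X Y p hp
  exact ((sdExAdjunction.comp (sdExAdjunction.comp adj)).hasLiftingProperty_iff i p).2
    (kh_tfib_lift ((tr_fw p).1 hp) i)

end Vale.Agent.P213
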