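import Vale.Agent.P213.GLem
import Vale.Agent.P213.KLam

/-! The unit of the adjunction is a weak equivalence on double subdivisions. -/

open CategoryTheory Limits Opposite Simplicial MonoidalCategory SSet

set_option backward.isDefEq.respectTransparency false

noncomputable section

namespace Vale.Agent.P213

variable {n : ℕ∞}

theorem un_initial {c : SSet.{0} ⥤ NCat n} (adj : c ⊣ streetNerve n) {K : SSet.{0}}
    (hK : IsInitial K) : WHE (adj.unit.app K) := by
  have := adj.leftAdjoint_preservesColimits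
  have h1 : IsInitial (c.obj K) := hK.isInitialObj c
  have h2 : ∀ _ : (c.obj K).obj.C, False := fun x =>
    colim_gen h1 (S := fun _ => False) ⟨fun _ _ _ h => h, fun _ _ _ _ h _ => h⟩
      (fun j => j.as.elim) x
  have h3 : ∀ m, ∀ _ : ((streetNerve n).obj (c.obj K)).obj m, False := fun m σ => by
    obtain ⟨⟨m⟩⟩ := m
    let σ' : Ori m ⟶ (c.obj K).obj := σ
    exact h2 (σ'.f (vtx 0))
  have : IsIso (adj.unit.app K) := by
    rw [NatTrans.isIso_iff_isIso_app]
    intro m
    rw [isIso_iff_bijective]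
    exact ⟨fun x => (h3 m ((adj.unit.app K).app m x)).elim, fun y => (h3 m y).elim⟩
  exact kh_iso _

theorem un_glem (hn : 1 ≤ n) {c : SSet.{0} ⥤ NCat n} (adj : c ⊣ streetNerve n) {m : ℕ}
    {ι : Type} {K K' : SSet.{0}} {a : (∐ fun _ : ι => (∂Δ[m] : SSet.{0})) ⟶ K} {j : K ⟶ K'}
    {d : (∐ fun _ : ι => (Δ[m] : SSet.{0})) ⟶ K'}
    (h : IsPushout a (Limits.Sigma.map fun _ => ∂Δ[m].ι) j d) :
    SI n (c.map (sd.map (sd.map j))) ∧
      (WHE (adj.unit.app (sd.obj (sd.obj K))) → WHE (adj.unit.app (sd.obj (sd.obj K')))) := by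
  have := adj.leftAdjoint_preservesColimits
  obtain ⟨P, _, ⟨e⟩⟩ := exists_nerve_sigma fun _ : ι => m
  obtain ⟨i, hi⟩ :
      ∃ i, i = Limits.Sigma.map fun _ : ι => (∂Δ[m] : (Δ[m] : SSet.{0}).Subcomplex).ι := ⟨_, rfl⟩
  have : Mono i := by rw [hi]; infer_instance
  rw [← hi] at h
  have h1 := (h.map sd).map sd
  obtain ⟨h2, h3⟩ := glem hn adj i e (h1.map c)
  refine ⟨h2, fun hK => ?_⟩
  have := mono_sd i e
  have := mono_sd (sd.map i) (sd.mapIso e ≪≫ asIso (gam P))
  have un : ∀ {A B : SSet.{0}} (φ : A ⟶ B),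
      adj.homEquiv _ _ (c.map φ) = φ ≫ adj.unit.app B := fun φ => by
    rw [adj.homEquiv_unit]
    exact (adj.unit.naturality φ).symm
  have w : adj.homEquiv _ _ (c.map (sd.map (sd.map a))) ≫
      (streetNerve n).map (c.map (sd.map (sd.map j))) =
      sd.map (sd.map i) ≫ adj.homEquiv _ _ (c.map (sd.map (sd.map d))) := by
    rw [← adj.homEquiv_naturality_right, (h1.map c).w, adj.homEquiv_naturality_left]
  have hp := IsPushout.of_hasPushout (adj.homEquiv _ _ (c.map (sd.map (sd.map a))))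
    (sd.map (sd.map i))
  have ht := h3 _ _ _ hp (pushout.desc _ _ w) (pushout.inl_desc _ _ _) (pushout.inr_desc _ _ _)
  have w' : sd.map (sd.map a) ≫ adj.unit.app _ ≫ pushout.inl _ (sd.map (sd.map i)) =
      sd.map (sd.map i) ≫ pushout.inr (adj.homEquiv _ _ (c.map (sd.map (sd.map a)))) _ := by
    rw [← hp.w, un, Category.assoc]
  have hq : WHE (h1.desc _ _ w') :=
    whe_glue h1 hp (s := 𝟙 _) (x := adj.unit.app _) (y := 𝟙 _)
      (by rw [un, Category.id_comp]) (by simp) (h1.inl_desc _ _ _)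
      (by rw [h1.inr_desc, Category.id_comp]) (kh_id _) hK (kh_id _)
  have e' : adj.unit.app (sd.obj (sd.obj K')) = h1.desc _ _ w' ≫ pushout.desc _ _ w := by
    refine h1.hom_ext ?_ ?_
    · rw [h1.inl_desc_assoc, Category.assoc, pushout.inl_desc]
      exact adj.unit.naturality _
    · rw [h1.inr_desc_assoc, pushout.inr_desc, un]
  rw [e']
  exact kh_comp hq ht

theorem whe_unit (hn : 1 ≤ n) {c : SSet.{0} ⥤ NCat n} (adj : c ⊣ streetNerve n) (K : SSet.{0}) :
    WHE (adj.unit.app (sd.obj (sd.obj K))) := by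
  have := adj.leftAdjoint_preservesColimits
  refine cell_ind (fun K => WHE (adj.unit.app (sd.obj (sd.obj K)))) (fun K hK => ?_)
    (fun m ι K K' a j d h _ hK => (un_glem hn adj h).2 hK) (fun F cc hc hs hF => ?_) K
  · exact un_initial adj ((hK.isInitialObj sd).isInitialObj sd)
  · have h1 := isColimitOfPreserves sd (isColimitOfPreserves sd hc)
    have h2 := isColimitOfPreserves c h1
    have h3 : ∀ i : ℕ, ¬IsMax i →
        SI n ((((F ⋙ sd) ⋙ sd) ⋙ c).map (homOfLE (Order.le_succ i))) := fun i _ => by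
      obtain ⟨m, ι, a, d, h⟩ := hs i
      exact (un_glem hn adj h).1
    obtain ⟨h4⟩ := (chain_colim hn (fun a => chain_map hn _ h3 a) h2).2
    let α : (F ⋙ sd) ⋙ sd ⟶ (((F ⋙ sd) ⋙ sd) ⋙ c) ⋙ streetNerve n :=
      { app := fun r => adj.unit.app (sd.obj (sd.obj (F.obj r)))
        naturality := fun _ _ φ => adj.unit.naturality (sd.map (sd.map (F.map φ))) }
    exact whe_ladder α h1 h4 _
      (fun r => adj.unit.naturality (sd.map (sd.map (cc.ι.app r)))) hF

end Vale.Agent.P213
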